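import Vale.Agent.Lib.P113.Sim

/-!
The basic bump function `B s = E s * E (1 - s)`, where `E = expNegInvGlue`, and its derivatives.
-/

open Filter Topology Polynomial
open scoped ContDiff

namespace Vale.Agent.Lib.P113

/-- Polynomial expressions occurring in the derivatives of `E`. -/
noncomputable def rPoly : ℕ → ℕ → ℝ → ℝ
  | 0, j, y => y ^ j
  | i + 1, j, y => rPoly i (j + 2) y - j * rPoly i (j + 1) y

/-- The functions `x ↦ x⁻¹ ^ j * E x`. -/
noncomputable def eF (j : ℕ) (x : ℝ) : ℝ := x⁻¹ ^ j * expNegInvGlue x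

theorem eF_contDiff (j : ℕ) : ContDiff ℝ ∞ (eF j) := by
  have h := expNegInvGlue.contDiff_polynomial_eval_inv_mul (n := ⊤) (X ^ j : ℝ[X])
  have e : (fun x : ℝ => (X ^ j : ℝ[X]).eval x⁻¹ * expNegInvGlue x) = eF j := by
    funext x
    simp [eF]
  rw [e] at h
  exact h

theorem eF_hasDerivAt (j : ℕ) (x : ℝ) :
    HasDerivAt (eF j) (eF (j + 2) x - j * eF (j + 1) x) x := by
  have h := expNegInvGlue.hasDerivAt_polynomial_eval_inv_mul (X ^ j : ℝ[X]) x
  have e : (fun x : ℝ => (X ^ j : ℝ[X]).eval x⁻¹ * expNegInvGlue x) = eF j := by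
    funext x
    simp [eF]
  rw [e] at h
  convert h using 1
  simp only [eF, eval_mul, eval_pow, eval_X, eval_sub, derivative_X_pow, eval_C]
  cases j with
  | zero => simp
  | succ j =>
    simp only [Nat.add_sub_cancel, Nat.cast_add, Nat.cast_one]
    ring

theorem iteratedDeriv_eF (i j : ℕ) (x : ℝ) :
    iteratedDeriv i (eF j) x = rPoly i j x⁻¹ * expNegInvGlue x := by
  induction i generalizing j x with
  | zero => simp [rPoly, eF]
  | succ i ih =>
    have hd : deriv (eF j) = fun x => eF (j + 2) x - j * eF (j + 1) x :=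
      funext fun x => (eF_hasDerivAt j x).deriv
    rw [iteratedDeriv_succ', hd, iteratedDeriv_fun_sub]
    · rw [iteratedDeriv_const_mul_field, ih, ih]
      simp only [rPoly]
      ring
    · exact ((eF_contDiff (j + 2)).contDiffAt).of_le (by exact_mod_cast le_top)
    · exact (contDiffAt_const.mul (eF_contDiff (j + 1)).contDiffAt).of_le
        (by exact_mod_cast le_top)

/-- The iterated derivatives of `E`. -/
theorem iteratedDeriv_E (i : ℕ) (x : ℝ) :
    iteratedDeriv i expNegInvGlue x = rPoly i 0 x⁻¹ * expNegInvGlue x := by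
  have h : expNegInvGlue = eF 0 := by
    funext x
    simp [eF]
  rw [h, iteratedDeriv_eF]
  simp [eF]

/-- The basic bump function, positive exactly on `(0, 1)`. -/
noncomputable def B (s : ℝ) : ℝ := expNegInvGlue s * expNegInvGlue (1 - s)

theorem E_contDiff : ContDiff ℝ ∞ expNegInvGlue := expNegInvGlue.contDiff

theorem E_sub_contDiff : ContDiff ℝ ∞ (fun s : ℝ => expNegInvGlue (1 - s)) :=
  E_contDiff.comp (contDiff_const.sub contDiff_id)

theorem B_contDiff : ContDiff ℝ ∞ B := E_contDiff.mul E_sub_contDiff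

theorem B_nonneg (s : ℝ) : 0 ≤ B s := mul_nonneg (expNegInvGlue.nonneg _) (expNegInvGlue.nonneg _)

theorem B_pos {s : ℝ} (h0 : 0 < s) (h1 : s < 1) : 0 < B s :=
  mul_pos (expNegInvGlue.pos_of_pos h0) (expNegInvGlue.pos_of_pos (by linarith))

theorem B_le_one (s : ℝ) : B s ≤ 1 := by
  have hE : ∀ x, expNegInvGlue x ≤ 1 := by
    intro x
    unfold expNegInvGlue
    split_ifs with h
    · norm_num
    · rw [Real.exp_le_one_iff]
      have : 0 < x⁻¹ := inv_pos.2 (not_le.1 h)
      linarith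
  exact mul_le_one₀ (hE _) (expNegInvGlue.nonneg _) (hE _)

/-- The iterated derivatives of the bump function. -/
noncomputable def J (k : ℕ) (s : ℝ) : ℝ := iteratedDeriv k B s

theorem J_zero (s : ℝ) : J 0 s = B s := by simp [J]

theorem J_eq_sum (k : ℕ) (s : ℝ) :
    J k s = ∑ i ∈ Finset.range (k + 1), (k.choose i : ℝ) *
      (rPoly i 0 s⁻¹ * expNegInvGlue s) *
      ((-1) ^ (k - i) * (rPoly (k - i) 0 (1 - s)⁻¹ * expNegInvGlue (1 - s))) := by
  unfold J
  have hB : B = expNegInvGlue * (fun s : ℝ => expNegInvGlue (1 - s)) := rfl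
  rw [hB, iteratedDeriv_mul]
  · refine Finset.sum_congr rfl fun i _ => ?_
    rw [iteratedDeriv_comp_const_sub]
    simp only [iteratedDeriv_E, smul_eq_mul]
  · exact E_contDiff.contDiffAt.of_le (by exact_mod_cast le_top)
  · exact E_sub_contDiff.contDiffAt.of_le (by exact_mod_cast le_top)

theorem J_eq_zero_of_nonpos (k : ℕ) {s : ℝ} (h : s ≤ 0) : J k s = 0 := by
  rw [J_eq_sum]
  refine Finset.sum_eq_zero fun i _ => ?_
  simp [expNegInvGlue.zero_of_nonpos h]

theorem J_eq_zero_of_one_le (k : ℕ) {s : ℝ} (h : 1 ≤ s) : J k s = 0 := by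
  rw [J_eq_sum]
  refine Finset.sum_eq_zero fun i _ => ?_
  have : expNegInvGlue (1 - s) = 0 := expNegInvGlue.zero_of_nonpos (by linarith)
  simp [this]

theorem J_continuous (k : ℕ) : Continuous (J k) :=
  B_contDiff.continuous_iteratedDeriv k (by exact_mod_cast le_top)

theorem J_hasDerivAt (k : ℕ) (s : ℝ) : HasDerivAt (J k) (J (k + 1) s) s := by
  have hd : Differentiable ℝ (iteratedDeriv k B) :=
    B_contDiff.differentiable_iteratedDeriv k (by exact_mod_cast WithTop.coe_lt_top _)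
  have := (hd s).hasDerivAt
  unfold J
  rw [iteratedDeriv_succ]
  exact this

theorem J_contDiff (k : ℕ) : ContDiff ℝ ∞ (J k) := by
  have h : J k = iteratedDeriv k B := rfl
  rw [h, iteratedDeriv_eq_iterate]
  exact B_contDiff.iterate_deriv k

/-- Uniform bounds for the derivatives of the bump function. -/
theorem exists_J_bound : ∃ C : ℕ → ℝ, (∀ k, 0 ≤ C k) ∧ ∀ k s, |J k s| ≤ C k := by
  have h : ∀ k, ∃ c : ℝ, 0 ≤ c ∧ ∀ s, |J k s| ≤ c := by
    intro k
    obtain ⟨c, hc⟩ := (isCompact_Icc (a := (0 : ℝ)) (b := 1)).exists_bound_of_continuousOn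
      (J_continuous k).continuousOn
    refine ⟨max c 0, le_max_right _ _, fun s => ?_⟩
    by_cases h0 : s ≤ 0
    · rw [J_eq_zero_of_nonpos k h0]
      simp
    by_cases h1 : 1 ≤ s
    · rw [J_eq_zero_of_one_le k h1]
      simp
    · exact (hc s ⟨(not_le.1 h0).le, (not_le.1 h1).le⟩).trans (le_max_left _ _)
  choose C hC0 hC using h
  exact ⟨C, hC0, hC⟩

/-- The constants of `exists_J_bound`. -/
noncomputable def JC : ℕ → ℝ := Classical.choose exists_J_bound

theorem JC_nonneg (k : ℕ) : 0 ≤ JC k := (Classical.choose_spec exists_J_bound).1 k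

theorem J_le_JC (k : ℕ) (s : ℝ) : |J k s| ≤ JC k := (Classical.choose_spec exists_J_bound).2 k s

/-! ### Periodization -/

/-- Periodization of a function supported in `[0, 3/4]`: it agrees locally with a translate. -/
theorem per_eventuallyEq {P : ℝ → ℝ} (h0 : ∀ s ≤ 0, P s = 0) (h1 : ∀ s, 3 / 4 ≤ s → P s = 0)
    (t : ℝ) : (fun s => P (Int.fract s)) =ᶠ[𝓝 t] (fun s => P (s - (⌊t + 1 / 8⌋ : ℤ))) := by
  set n : ℤ := ⌊t + 1 / 8⌋ with hn
  have hl : (n : ℝ) ≤ t + 1 / 8 := Int.floor_le _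
  have hu : t + 1 / 8 < n + 1 := Int.lt_floor_add_one _
  have hU : Set.Ioo ((n : ℝ) - 1 / 4) (n + 7 / 8) ∈ 𝓝 t :=
    Ioo_mem_nhds (by linarith) (by linarith)
  filter_upwards [hU] with s hs
  by_cases hsn : (n : ℝ) ≤ s
  · have hf : ⌊s⌋ = n := by
      rw [Int.floor_eq_iff]
      exact ⟨hsn, by linarith [hs.2]⟩
    have : Int.fract s = s - n := by
      rw [Int.fract, hf]
    rw [this]
  · have hsn' := not_le.1 hsn
    have hf : ⌊s⌋ = n - 1 := by
      rw [Int.floor_eq_iff]
      push_cast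
      exact ⟨by linarith [hs.1], by linarith⟩
    have : Int.fract s = s - (n - 1 : ℤ) := by
      rw [Int.fract, hf]
    rw [this, h0 (s - n) (by linarith), h1]
    push_cast
    linarith [hs.1]

theorem iteratedDeriv_eq_zero_of_eventually {P : ℝ → ℝ} {s : ℝ} (h : P =ᶠ[𝓝 s] fun _ => 0)
    (k : ℕ) : iteratedDeriv k P s = 0 := by
  rw [h.iteratedDeriv_eq k]
  simp

theorem contDiff_per {P : ℝ → ℝ} (hP : ContDiff ℝ ∞ P) (h0 : ∀ s ≤ 0, P s = 0)
    (h1 : ∀ s, 3 / 4 ≤ s → P s = 0) : ContDiff ℝ ∞ (fun s => P (Int.fract s)) := by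
  rw [contDiff_iff_contDiffAt]
  intro t
  have := per_eventuallyEq h0 h1 t
  refine ContDiffAt.congr_of_eventuallyEq ?_ this
  exact (hP.comp (contDiff_id.sub contDiff_const)).contDiffAt

theorem iteratedDeriv_per {P : ℝ → ℝ} (hzero : ∀ k : ℕ, ∀ s, (s ≤ 0 ∨ 3 / 4 ≤ s) →
    iteratedDeriv k P s = 0) (h0 : ∀ s ≤ 0, P s = 0)
    (h1 : ∀ s, 3 / 4 ≤ s → P s = 0) (k : ℕ) (t : ℝ) :
    iteratedDeriv k (fun s => P (Int.fract s)) t = iteratedDeriv k P (Int.fract t) := by
  rw [(per_eventuallyEq h0 h1 t).iteratedDeriv_eq k, iteratedDeriv_comp_sub_const]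
  set n : ℤ := ⌊t + 1 / 8⌋ with hn
  have hl : (n : ℝ) ≤ t + 1 / 8 := Int.floor_le _
  have hu : t + 1 / 8 < n + 1 := Int.lt_floor_add_one _
  by_cases hsn : (n : ℝ) ≤ t
  · have hf : ⌊t⌋ = n := by
      rw [Int.floor_eq_iff]
      exact ⟨hsn, by linarith⟩
    have : Int.fract t = t - n := by
      rw [Int.fract, hf]
    rw [this]
  · have hsn' := not_le.1 hsn
    have hf : ⌊t⌋ = n - 1 := by
      rw [Int.floor_eq_iff]
      push_cast
      exact ⟨by linarith, by linarith⟩
    have : Int.fract t = t - (n - 1 : ℤ) := by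
      rw [Int.fract, hf]
    show iteratedDeriv k P (t - (n : ℝ)) = _
    rw [this, hzero k (t - n) (Or.inl (by linarith)), hzero k _ (Or.inr ?_)]
    push_cast
    linarith

/-- Scaled bump function `s ↦ B (L s - c)`. -/
theorem iteratedDeriv_scaled (L c : ℝ) (k : ℕ) (s : ℝ) :
    iteratedDeriv k (fun s => B (L * s - c)) s = L ^ k * J k (L * s - c) := by
  have h1 : ContDiff ℝ k (fun u => B (u - c)) :=
    (B_contDiff.comp (contDiff_id.sub contDiff_const)).of_le (by exact_mod_cast le_top)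
  have h2 := iteratedDeriv_comp_const_mul h1 L
  have h3 := congrFun h2 s
  have h4 : iteratedDeriv k (fun u => B (u - c)) (L * s) = J k (L * s - c) := by
    rw [iteratedDeriv_comp_sub_const]
    rfl
  rw [h4] at h3
  exact h3

/-- The periodized scaled bump function and its derivatives. -/
noncomputable def phJ (L c : ℝ) (k : ℕ) (s : ℝ) : ℝ := L ^ k * J k (L * Int.fract s - c)

section phJ

variable {L c : ℝ}

theorem phJ_iteratedDeriv (hL : 0 ≤ L) (hc : 0 ≤ c) (hsup : 1 ≤ L * (3 / 4) - c) (k : ℕ) (s : ℝ) :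
    iteratedDeriv k (fun s => B (L * Int.fract s - c)) s = phJ L c k s := by
  have hk : ∀ s', (s' ≤ 0 ∨ 3 / 4 ≤ s') → 1 ≤ L * s' - c ∨ L * s' - c ≤ 0 := by
    intro s' hs'
    rcases hs' with hs' | hs'
    · right
      nlinarith
    · left
      nlinarith
  have key := iteratedDeriv_per (P := fun s => B (L * s - c)) (k := k) (t := s)
    (fun m s' hs' => by
      rw [iteratedDeriv_scaled]
      rcases hk s' hs' with h | h
      · rw [J_eq_zero_of_one_le m h, mul_zero]
      · rw [J_eq_zero_of_nonpos m h, mul_zero])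
    (fun s' hs' => by
      have := J_eq_zero_of_nonpos 0 (s := L * s' - c) (by nlinarith)
      rwa [J_zero] at this)
    (fun s' hs' => by
      have := J_eq_zero_of_one_le 0 (s := L * s' - c) (by nlinarith)
      rwa [J_zero] at this)
  rw [key, iteratedDeriv_scaled]
  rfl

theorem phJ_contDiff0 (hL : 0 ≤ L) (hc : 0 ≤ c) (hsup : 1 ≤ L * (3 / 4) - c) :
    ContDiff ℝ ∞ (fun s => B (L * Int.fract s - c)) := by
  refine contDiff_per (P := fun s => B (L * s - c))
    (B_contDiff.comp ((contDiff_const.mul contDiff_id).sub contDiff_const)) ?_ ?_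
  · intro s' hs'
    have := J_eq_zero_of_nonpos 0 (s := L * s' - c) (by nlinarith)
    rwa [J_zero] at this
  · intro s' hs'
    have := J_eq_zero_of_one_le 0 (s := L * s' - c) (by nlinarith)
    rwa [J_zero] at this

theorem phJ_zero_eq (s : ℝ) : phJ L c 0 s = B (L * Int.fract s - c) := by
  simp [phJ, J_zero]

theorem phJ_eq_iterate (hL : 0 ≤ L) (hc : 0 ≤ c) (hsup : 1 ≤ L * (3 / 4) - c) (k : ℕ) :
    phJ L c k = iteratedDeriv k (fun s => B (L * Int.fract s - c)) :=
  funext fun s => (phJ_iteratedDeriv hL hc hsup k s).symm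

theorem phJ_contDiff (hL : 0 ≤ L) (hc : 0 ≤ c) (hsup : 1 ≤ L * (3 / 4) - c) (k : ℕ) :
    ContDiff ℝ ∞ (phJ L c k) := by
  rw [phJ_eq_iterate hL hc hsup, iteratedDeriv_eq_iterate]
  exact (phJ_contDiff0 hL hc hsup).iterate_deriv k

theorem phJ_hasDerivAt (hL : 0 ≤ L) (hc : 0 ≤ c) (hsup : 1 ≤ L * (3 / 4) - c) (k : ℕ) (s : ℝ) :
    HasDerivAt (phJ L c k) (phJ L c (k + 1) s) s := by
  have hd : Differentiable ℝ (phJ L c k) :=
    (phJ_contDiff hL hc hsup k).differentiable (by simp)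
  have := (hd s).hasDerivAt
  rw [phJ_eq_iterate hL hc hsup (k + 1), iteratedDeriv_succ, ← phJ_eq_iterate hL hc hsup k]
  exact this

theorem phJ_iteratedDeriv' (hL : 0 ≤ L) (hc : 0 ≤ c) (hsup : 1 ≤ L * (3 / 4) - c) (k i : ℕ)
    (s : ℝ) : iteratedDeriv i (phJ L c k) s = phJ L c (k + i) s := by
  induction i generalizing s with
  | zero => simp
  | succ i ih =>
    rw [iteratedDeriv_succ]
    have : iteratedDeriv i (phJ L c k) = phJ L c (k + i) := funext ih
    rw [this]
    exact (phJ_hasDerivAt hL hc hsup (k + i) s).deriv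

theorem phJ_abs_le (hL : 0 ≤ L) (k : ℕ) (s : ℝ) : |phJ L c k s| ≤ L ^ k * JC k := by
  unfold phJ
  rw [abs_mul, abs_of_nonneg (pow_nonneg hL k)]
  exact mul_le_mul_of_nonneg_left (J_le_JC _ _) (pow_nonneg hL k)

end phJ

end Vale.Agent.Lib.P113
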