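import Vale.Agent.Lib.P113.Bump

/-!
Effectivity of the derivatives of the bump function at rational points.
-/

open Filter Topology

namespace Vale.Agent.Lib.P113

variable {α β : Type*} [Primcodable α] [Primcodable β]

/-! ### Powers with variable exponent -/

/-- Interval power of the interval `[l, h]`. -/
def ipow (l h : RatCode) (m : ℕ) : RatCode × RatCode :=
  Nat.rec (motive := fun _ => RatCode × RatCode) (qnat 1, qnat 1)
    (fun _ s => (qmin (qmin (qmul s.1 l) (qmul s.1 h)) (qmin (qmul s.2 l) (qmul s.2 h)),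
      qmax (qmax (qmul s.1 l) (qmul s.1 h)) (qmax (qmul s.2 l) (qmul s.2 h)))) m

theorem primrec_ipow : Primrec (fun x : (RatCode × RatCode) × ℕ => ipow x.1.1 x.1.2 x.2) := by
  have hh : Primrec₂ (fun (a : (RatCode × RatCode) × ℕ) (p : ℕ × (RatCode × RatCode)) =>
      ((qmin (qmin (qmul p.2.1 a.1.1) (qmul p.2.1 a.1.2)) (qmin (qmul p.2.2 a.1.1) (qmul p.2.2 a.1.2)),
      qmax (qmax (qmul p.2.1 a.1.1) (qmul p.2.1 a.1.2)) (qmax (qmul p.2.2 a.1.1) (qmul p.2.2 a.1.2))) :
        RatCode × RatCode)) := by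
    have s1 : Primrec (fun x : ((RatCode × RatCode) × ℕ) × (ℕ × (RatCode × RatCode)) => x.2.2.1) :=
      Primrec.fst.comp (Primrec.snd.comp Primrec.snd)
    have s2 : Primrec (fun x : ((RatCode × RatCode) × ℕ) × (ℕ × (RatCode × RatCode)) => x.2.2.2) :=
      Primrec.snd.comp (Primrec.snd.comp Primrec.snd)
    have a1 : Primrec (fun x : ((RatCode × RatCode) × ℕ) × (ℕ × (RatCode × RatCode)) => x.1.1.1) :=
      Primrec.fst.comp (Primrec.fst.comp Primrec.fst)
    have a2 : Primrec (fun x : ((RatCode × RatCode) × ℕ) × (ℕ × (RatCode × RatCode)) => x.1.1.2) :=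
      Primrec.snd.comp (Primrec.fst.comp Primrec.fst)
    exact Primrec.pair
      (primrec_qmin.comp (primrec_qmin.comp (primrec_qmul.comp s1 a1) (primrec_qmul.comp s1 a2))
        (primrec_qmin.comp (primrec_qmul.comp s2 a1) (primrec_qmul.comp s2 a2)))
      (primrec_qmax.comp (primrec_qmax.comp (primrec_qmul.comp s1 a1) (primrec_qmul.comp s1 a2))
        (primrec_qmax.comp (primrec_qmul.comp s2 a1) (primrec_qmul.comp s2 a2)))
  have h : Primrec fun x : (RatCode × RatCode) × ℕ =>
      Nat.rec (motive := fun _ => RatCode × RatCode) (qnat 1, qnat 1)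
        (fun y IH => (fun (a : (RatCode × RatCode) × ℕ) (p : ℕ × (RatCode × RatCode)) =>
          ((qmin (qmin (qmul p.2.1 a.1.1) (qmul p.2.1 a.1.2))
            (qmin (qmul p.2.2 a.1.1) (qmul p.2.2 a.1.2)),
          qmax (qmax (qmul p.2.1 a.1.1) (qmul p.2.1 a.1.2))
            (qmax (qmul p.2.2 a.1.1) (qmul p.2.2 a.1.2))) : RatCode × RatCode)) x (y, IH)) x.2 :=
    Primrec.nat_rec' Primrec.snd (Primrec.const _) hh
  exact h

theorem ipow_bracket {l h : RatCode} {x : ℝ} (hl : ratVal l ≤ x) (hh : x ≤ ratVal h) (m : ℕ) :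
    ratVal (ipow l h m).1 ≤ x ^ m ∧ x ^ m ≤ ratVal (ipow l h m).2 := by
  induction m with
  | zero => simp [ipow]
  | succ m ih =>
    have e : ipow l h (m + 1) = (qmin (qmin (qmul (ipow l h m).1 l) (qmul (ipow l h m).1 h))
        (qmin (qmul (ipow l h m).2 l) (qmul (ipow l h m).2 h)),
      qmax (qmax (qmul (ipow l h m).1 l) (qmul (ipow l h m).1 h))
        (qmax (qmul (ipow l h m).2 l) (qmul (ipow l h m).2 h))) := rfl
    rw [e, pow_succ]
    simp only [ratVal_min, ratVal_max, ratVal_mul]
    exact mul_bracket ih.1 ih.2 hl hh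

theorem ipow_tendsto {l h : ℕ → RatCode} {x : ℝ} (hl : Tendsto (fun n => ratVal (l n)) atTop (𝓝 x))
    (hh : Tendsto (fun n => ratVal (h n)) atTop (𝓝 x)) (m : ℕ) :
    Tendsto (fun n => ratVal (ipow (l n) (h n) m).1) atTop (𝓝 (x ^ m)) ∧
    Tendsto (fun n => ratVal (ipow (l n) (h n) m).2) atTop (𝓝 (x ^ m)) := by
  induction m with
  | zero => simp [ipow]
  | succ m ih =>
    have e : ∀ n, ipow (l n) (h n) (m + 1) =
        (qmin (qmin (qmul (ipow (l n) (h n) m).1 (l n)) (qmul (ipow (l n) (h n) m).1 (h n)))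
        (qmin (qmul (ipow (l n) (h n) m).2 (l n)) (qmul (ipow (l n) (h n) m).2 (h n))),
      qmax (qmax (qmul (ipow (l n) (h n) m).1 (l n)) (qmul (ipow (l n) (h n) m).1 (h n)))
        (qmax (qmul (ipow (l n) (h n) m).2 (l n)) (qmul (ipow (l n) (h n) m).2 (h n)))) :=
      fun n => rfl
    simp only [e, ratVal_min, ratVal_max, ratVal_mul]
    rw [pow_succ]
    constructor
    · have e1 : x ^ m * x = min (min (x ^ m * x) (x ^ m * x)) (min (x ^ m * x) (x ^ m * x)) := by
        simp
      rw [e1]
      exact ((ih.1.mul hl).min (ih.1.mul hh)).min ((ih.2.mul hl).min (ih.2.mul hh))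
    · have e1 : x ^ m * x = max (max (x ^ m * x) (x ^ m * x)) (max (x ^ m * x) (x ^ m * x)) := by
        simp
      rw [e1]
      exact ((ih.1.mul hl).max (ih.1.mul hh)).max ((ih.2.mul hl).max (ih.2.mul hh))

theorem Eff.pow {F : α → ℝ} (hF : Eff F) {N : α → ℕ} (hN : Computable N) :
    Eff (fun a => F a ^ N a) := by
  obtain ⟨lo, hi, hlo, hhi, H⟩ := hF
  have c : Computable₂ (fun (a : α) (n : ℕ) => ipow (lo a n) (hi a n) (N a)) := by
    have := primrec_ipow.to_comp.comp (Computable.pair (Computable.pair hlo hhi)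
      (hN.comp Computable.fst))
    exact this
  refine ⟨fun a n => (ipow (lo a n) (hi a n) (N a)).1, fun a n => (ipow (lo a n) (hi a n) (N a)).2,
    Computable.fst.comp c, Computable.snd.comp c, ?_⟩
  intro a
  obtain ⟨h1, h2, h3⟩ := H a
  refine ⟨fun n => ipow_bracket (h1 n).1 (h1 n).2 _, ?_⟩
  exact ipow_tendsto h2 h3 (N a)

/-! ### The polynomial expressions `rPoly` -/

/-- The table of the values of `rPoly t j y`, for `j < N`. -/
def rLevel (y : RatCode) (N t : ℕ) : List RatCode :=
  Nat.rec (motive := fun _ => List RatCode)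
    ((List.range N).map (fun j => qpow y j))
    (fun _ l => (List.range N).map (fun j =>
      qsub (l.getD (j + 2) (qnat 0)) (qmul (qnat j) (l.getD (j + 1) (qnat 0))))) t

theorem map_range_getD (f : ℕ → RatCode) {N j : ℕ} (d : RatCode) (h : j < N) :
    ((List.range N).map f).getD j d = f j := by
  simp [List.getD_eq_getElem?_getD, h]

theorem ratVal_rLevel (y : RatCode) (N t j : ℕ) (h : j + 2 * t < N) :
    ratVal ((rLevel y N t).getD j (qnat 0)) = rPoly t j (ratVal y) := by
  induction t generalizing j with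
  | zero =>
    have : rLevel y N 0 = (List.range N).map (fun j => qpow y j) := rfl
    rw [this, map_range_getD _ _ (by omega)]
    simp [rPoly]
  | succ t ih =>
    have : rLevel y N (t + 1) = (List.range N).map (fun j =>
      qsub ((rLevel y N t).getD (j + 2) (qnat 0)) (qmul (qnat j)
        ((rLevel y N t).getD (j + 1) (qnat 0)))) := rfl
    rw [this, map_range_getD _ _ (by omega)]
    simp only [ratVal_sub, ratVal_mul, ratVal_nat, rPoly]
    rw [ih (j + 2) (by omega), ih (j + 1) (by omega)]

theorem primrec_rLevel :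
    Primrec (fun x : RatCode × ℕ × ℕ => rLevel x.1 x.2.1 x.2.2) := by
  have hN : Primrec (fun x : RatCode × ℕ × ℕ => List.range x.2.1) :=
    Primrec.list_range.comp (Primrec.fst.comp Primrec.snd)
  have hbase : Primrec (fun x : RatCode × ℕ × ℕ => (List.range x.2.1).map (fun j => qpow x.1 j)) :=
    Primrec.list_map hN (primrec_qpow.comp (Primrec.fst.comp Primrec.fst) Primrec.snd)
  have hstep : Primrec₂ (fun (x : RatCode × ℕ × ℕ) (p : ℕ × List RatCode) =>
      (List.range x.2.1).map (fun j =>
        qsub (p.2.getD (j + 2) (qnat 0)) (qmul (qnat j) (p.2.getD (j + 1) (qnat 0))))) := by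
    have hN' : Primrec (fun y : (RatCode × ℕ × ℕ) × (ℕ × List RatCode) => List.range y.1.2.1) :=
      hN.comp Primrec.fst
    refine Primrec.list_map hN' ?_
    have hl : Primrec (fun z : ((RatCode × ℕ × ℕ) × (ℕ × List RatCode)) × ℕ => z.1.2.2) :=
      Primrec.snd.comp (Primrec.snd.comp Primrec.fst)
    have hj : Primrec (fun z : ((RatCode × ℕ × ℕ) × (ℕ × List RatCode)) × ℕ => z.2) := Primrec.snd
    exact primrec_qsub.comp
      ((Primrec.list_getD (qnat 0)).comp hl (Primrec.nat_add.comp hj (Primrec.const 2)))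
      (primrec_qmul.comp (primrec_qnat.comp hj)
        ((Primrec.list_getD (qnat 0)).comp hl (Primrec.nat_add.comp hj (Primrec.const 1))))
  have h := Primrec.nat_rec' (Primrec.snd.comp Primrec.snd) hbase hstep
  exact h

/-- A code of the value of `rPoly i 0 y`. -/
def rQ (i : ℕ) (y : RatCode) : RatCode := (rLevel y (2 * i + 1) i).getD 0 (qnat 0)

theorem ratVal_rQ (i : ℕ) (y : RatCode) : ratVal (rQ i y) = rPoly i 0 (ratVal y) :=
  ratVal_rLevel y _ _ _ (by omega)

theorem primrec_rQ : Primrec₂ rQ := by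
  have h1 : Primrec (fun x : ℕ × RatCode => rLevel x.2 (2 * x.1 + 1) x.1) :=
    primrec_rLevel.comp (Primrec.pair Primrec.snd (Primrec.pair
      (Primrec.nat_add.comp (Primrec.nat_mul.comp (Primrec.const 2) Primrec.fst) (Primrec.const 1))
      Primrec.fst))
  exact (Primrec.list_getD (qnat 0)).comp h1 (Primrec.const 0)

/-- The derivatives of `E` at rational points are effective. -/
theorem eff_Ejet : Eff (fun p : ℕ × RatCode => iteratedDeriv p.1 expNegInvGlue (ratVal p.2)) := by
  have cinv : Computable (fun p : ℕ × RatCode => qinv p.2) :=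
    primrec_qinv.to_comp.comp Computable.snd
  have cabs : Computable (fun p : ℕ × RatCode => qabs (qinv p.2)) :=
    primrec_qabs.to_comp.comp cinv
  have hexp := Eff.exp_neg cabs (fun p => by simp [abs_nonneg])
  have hr : Eff (fun p : ℕ × RatCode => ratVal (rQ p.1 (qinv p.2))) :=
    Eff.of_code (primrec_rQ.to_comp.comp Computable.fst cinv)
  have hm := hr.mul hexp
  have hc : Computable (fun p : ℕ × RatCode => qle p.2 (qnat 0)) :=
    primrec_qle.to_comp.comp Computable.snd (Computable.const _)
  have hz : Eff (fun _ : ℕ × RatCode => ratVal (qnat 0)) := Eff.const_code _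
  refine (Eff.ite hc hz hm).congr fun p => ?_
  rw [iteratedDeriv_E]
  by_cases hs : ratVal p.2 ≤ 0
  · have h1 : qle p.2 (qnat 0) = true := (qle_iff _ _).2 (by simpa using hs)
    simp [h1, expNegInvGlue.zero_of_nonpos hs]
  · have h1 : ¬ qle p.2 (qnat 0) = true := by
      rw [qle_iff]
      simpa using hs
    have hpos : 0 < ratVal p.2 := not_le.1 hs
    simp only [h1, if_false, ratVal_rQ, ratVal_inv, ratVal_abs]
    have h2 : expNegInvGlue (ratVal p.2) = Real.exp (-(ratVal p.2)⁻¹) := by
      simp [expNegInvGlue, hs]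
    rw [h2, abs_of_pos (inv_pos.2 hpos)]
    simp

/-! ### Binomial coefficients -/

theorem primrec_factorial : Primrec Nat.factorial := by
  have h : Primrec (Nat.rec (motive := fun _ => ℕ) 1 (fun n acc => (n + 1) * acc)) := by
    refine Primrec.nat_rec₁ 1 ?_
    exact Primrec.nat_mul.comp (Primrec.nat_add.comp Primrec.fst (Primrec.const 1)) Primrec.snd
  refine h.of_eq fun n => ?_
  induction n with
  | zero => rfl
  | succ n ih =>
    show (n + 1) * Nat.rec (motive := fun _ => ℕ) 1 (fun n acc => (n + 1) * acc) n = _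
    rw [ih, Nat.factorial_succ]

/-- A code of the binomial coefficient. -/
def qch (k i : ℕ) : RatCode :=
  (k.factorial, 0, i.factorial * (k - i).factorial - 1)

theorem ratVal_qch {k i : ℕ} (h : i ≤ k) : ratVal (qch k i) = (k.choose i : ℝ) := by
  have hp : 0 < i.factorial * (k - i).factorial :=
    Nat.mul_pos (Nat.factorial_pos _) (Nat.factorial_pos _)
  have h1 : ((i.factorial * (k - i).factorial - 1 : ℕ) : ℝ) + 1 =
      (i.factorial : ℝ) * ((k - i).factorial : ℝ) := by
    have : (i.factorial * (k - i).factorial - 1 : ℕ) + 1 = i.factorial * (k - i).factorial :=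
      Nat.sub_add_cancel hp
    exact_mod_cast this
  simp only [ratVal, qch]
  rw [h1, Nat.cast_choose ℝ h]
  simp

theorem primrec_qch : Primrec₂ qch := by
  have h1 := primrec_factorial
  exact Primrec.pair (h1.comp Primrec.fst) (Primrec.pair (Primrec.const 0)
    (Primrec.nat_sub.comp (Primrec.nat_mul.comp (h1.comp Primrec.snd)
      (h1.comp (Primrec.nat_sub.comp Primrec.fst Primrec.snd))) (Primrec.const 1)))

/-- The derivatives of the bump function at rational points are effective. -/
theorem eff_J : Eff (fun p : ℕ × RatCode => J p.1 (ratVal p.2)) := by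
  -- one term of the Leibniz sum
  let F : (ℕ × RatCode) × ℕ → ℝ := fun x =>
    ratVal (qch x.1.1 x.2) * iteratedDeriv x.2 expNegInvGlue (ratVal x.1.2) *
      (ratVal (qpow (qneg (qnat 1)) (x.1.1 - x.2)) *
        iteratedDeriv (x.1.1 - x.2) expNegInvGlue (ratVal (qsub (qnat 1) x.1.2)))
  have ck : Computable (fun x : (ℕ × RatCode) × ℕ => x.1.1) := Computable.fst.comp Computable.fst
  have cs : Computable (fun x : (ℕ × RatCode) × ℕ => x.1.2) := Computable.snd.comp Computable.fst
  have ci : Computable (fun x : (ℕ × RatCode) × ℕ => x.2) := Computable.snd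
  have cd : Computable (fun x : (ℕ × RatCode) × ℕ => x.1.1 - x.2) :=
    (Primrec.nat_sub.to_comp).comp ck ci
  have h1 : Eff (fun x : (ℕ × RatCode) × ℕ => ratVal (qch x.1.1 x.2)) :=
    Eff.of_code (primrec_qch.to_comp.comp ck ci)
  have h2 : Eff (fun x : (ℕ × RatCode) × ℕ =>
      iteratedDeriv x.2 expNegInvGlue (ratVal x.1.2)) :=
    eff_Ejet.comp (Computable.pair ci cs)
  have h3 : Eff (fun x : (ℕ × RatCode) × ℕ => ratVal (qpow (qneg (qnat 1)) (x.1.1 - x.2))) :=
    Eff.of_code (primrec_qpow.to_comp.comp (Computable.const _) cd)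
  have h4 : Eff (fun x : (ℕ × RatCode) × ℕ =>
      iteratedDeriv (x.1.1 - x.2) expNegInvGlue (ratVal (qsub (qnat 1) x.1.2))) :=
    eff_Ejet.comp (Computable.pair cd (primrec_qsub.to_comp.comp (Computable.const _) cs))
  have hF : Eff F := (h1.mul h2).mul (h3.mul h4)
  have hS := hF.sum (N := fun p : ℕ × RatCode => p.1 + 1)
    (Computable.succ.comp Computable.fst)
  refine hS.congr fun p => ?_
  rw [J_eq_sum]
  refine Finset.sum_congr rfl fun i hi => ?_
  have hi' : i ≤ p.1 := Nat.lt_succ_iff.1 (Finset.mem_range.1 hi)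
  simp only [F]
  rw [ratVal_qch hi', iteratedDeriv_E, iteratedDeriv_E]
  simp

/-- The periodized scaled bump functions at rational points are effective. -/
theorem eff_phJ {L c s : α → RatCode} {k : α → ℕ} (hL : Computable L) (hc : Computable c)
    (hk : Computable k) (hs : Computable s) :
    Eff (fun a => phJ (ratVal (L a)) (ratVal (c a)) (k a) (ratVal (s a))) := by
  have h1 : Eff (fun a => ratVal (qpow (L a) (k a))) :=
    Eff.of_code (primrec_qpow.to_comp.comp hL hk)
  have h2 : Eff (fun a => J (k a) (ratVal (qsub (qmul (L a) (qfract (s a))) (c a)))) :=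
    eff_J.comp (Computable.pair hk (primrec_qsub.to_comp.comp
      (primrec_qmul.to_comp.comp hL (primrec_qfract.to_comp.comp hs)) hc))
  refine (h1.mul h2).congr fun a => ?_
  simp [phJ, ratVal_fract]

/-- The scaled bump function at rational points. -/
theorem eff_scaled {L c s : α → RatCode} {k : α → ℕ} (hL : Computable L) (hc : Computable c)
    (hk : Computable k) (hs : Computable s) :
    Eff (fun a => ratVal (L a) ^ (k a) *
      J (k a) (ratVal (L a) * ratVal (s a) - ratVal (c a))) := by
  have h1 : Eff (fun a => ratVal (qpow (L a) (k a))) :=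
    Eff.of_code (primrec_qpow.to_comp.comp hL hk)
  have h2 : Eff (fun a => J (k a) (ratVal (qsub (qmul (L a) (s a)) (c a)))) :=
    eff_J.comp (Computable.pair hk (primrec_qsub.to_comp.comp
      (primrec_qmul.to_comp.comp hL hs) hc))
  refine (h1.mul h2).congr fun a => ?_
  simp

end Vale.Agent.Lib.P113
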