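import Mathlib

/-!
Statement-level definitions for problem P113: forced Navier-Stokes flows on the flat
three-torus, particle trajectories, Turing machines, effective forces and force compilers.

Functions on the torus (R/Z)^3 are represented by Z^3-periodic functions on R^3.
-/

open Set
open scoped ContDiff

namespace Vale.Agent.Lib.P113

/-- Euclidean three-space, the universal cover of the flat torus. -/
abbrev R3 : Type := Fin 3 → ℝ

/-- `F` is invariant under integer translations, that is, `F` is a function on the torus. -/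
def Periodic3 {E : Type*} (F : R3 → E) : Prop :=
  ∀ (n : Fin 3 → ℤ) (x : R3), F (fun i => x i + (n i : ℝ)) = F x

/-- The partial derivative of `F` in the coordinate `j`. -/
noncomputable def pd (j : Fin 3) (F : R3 → ℝ) (x : R3) : ℝ :=
  fderiv ℝ F x (Pi.single j 1)

/-- A fundamental domain of the torus: the closed unit cube. -/
def cube : Set R3 := Icc 0 1

/-- `(u, p)` is a classical solution on `[0, T] × T^3` of the forced Navier-Stokes system with
viscosity `ν`, force `f` and zero initial velocity: `u`, `∂ₜu`, the spatial derivatives of `u` up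
to order two, `p` and `∇p` are continuous on `[0, T] × T^3`, `p` has spatial mean zero, and the
equations hold pointwise. (At the end points of `[0, T]` the time derivative is one-sided.) -/
structure IsClassicalSolution (ν : ℝ) (f : ℝ → R3 → R3) (T : ℝ)
    (u : ℝ → R3 → R3) (p : ℝ → R3 → ℝ) : Prop where
  periodic_u : ∀ t ∈ Icc 0 T, Periodic3 (u t)
  periodic_p : ∀ t ∈ Icc 0 T, Periodic3 (p t)
  initial : ∀ x, u 0 x = 0
  diff_t : ∀ x, ∀ t ∈ Icc 0 T, DifferentiableWithinAt ℝ (fun s => u s x) (Icc 0 T) t
  diff_x : ∀ t ∈ Icc 0 T, ContDiff ℝ 2 (u t)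
  diff_p : ∀ t ∈ Icc 0 T, ContDiff ℝ 1 (p t)
  cont_u : ContinuousOn (fun q : ℝ × R3 => u q.1 q.2) (Icc 0 T ×ˢ univ)
  cont_ut : ContinuousOn (fun q : ℝ × R3 => derivWithin (fun s => u s q.2) (Icc 0 T) q.1)
    (Icc 0 T ×ˢ univ)
  cont_du : ContinuousOn (fun q : ℝ × R3 => fderiv ℝ (u q.1) q.2) (Icc 0 T ×ˢ univ)
  cont_ddu : ContinuousOn (fun q : ℝ × R3 => fderiv ℝ (fderiv ℝ (u q.1)) q.2) (Icc 0 T ×ˢ univ)
  cont_p : ContinuousOn (fun q : ℝ × R3 => p q.1 q.2) (Icc 0 T ×ˢ univ)
  cont_dp : ContinuousOn (fun q : ℝ × R3 => fderiv ℝ (p q.1) q.2) (Icc 0 T ×ˢ univ)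
  mean_p : ∀ t ∈ Icc 0 T, ∫ x in cube, p t x = 0
  div_free : ∀ t ∈ Icc 0 T, ∀ x, ∑ j, pd j (fun y => u t y j) x = 0
  momentum : ∀ t ∈ Icc 0 T, ∀ x, ∀ i,
    derivWithin (fun s => u s x i) (Icc 0 T) t + ∑ j, u t x j * pd j (fun y => u t y i) x
      = - pd i (p t) x + ν * ∑ j, pd j (pd j (fun y => u t y i)) x + f t x i

/-- A global smooth solution: `u` and `p` are jointly smooth in `(t, x)` and classical on every
`[0, T]`. -/
def IsGlobalSmoothSolution (ν : ℝ) (f : ℝ → R3 → R3) (u : ℝ → R3 → R3) (p : ℝ → R3 → ℝ) : Prop :=
  ContDiff ℝ ∞ (fun q : ℝ × R3 => u q.1 q.2) ∧ ContDiff ℝ ∞ (fun q : ℝ × R3 => p q.1 q.2) ∧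
    ∀ T > 0, IsClassicalSolution ν f T u p

/-- `X` is the particle trajectory of `u` from `a`, at times `t ≥ 0` (a path in the universal
cover of the torus). -/
def IsTrajectory (u : ℝ → R3 → R3) (a : R3) (X : ℝ → R3) : Prop :=
  X 0 = a ∧ ∀ t ≥ 0, HasDerivWithinAt X (u t (X t)) (Ici 0) t

/-- One rule of a Turing machine, `(q, c, q', c', d)`: in state `q` reading `c`, write `c'`,
go to state `q'`, and move the head right (`d = some true`), left (`d = some false`), or not at
all (`d = none`). -/
abbrev Rule : Type := ℕ × ℕ × ℕ × ℕ × Option Bool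

/-- A deterministic one-tape Turing machine: a finite list of rules (the first applicable rule is
used) and a finite list of halting states. States and tape symbols are natural numbers, only
finitely many of them occur in a given machine; `0` is the initial state and `0` is the blank. -/
abbrev Machine : Type := List Rule × List ℕ

/-- A finite word over the tape alphabet. -/
abbrev Word : Type := List ℕ

/-- A configuration `(q, L, R)`: state `q`, the cells left of the head (nearest first), and the
cells from the head rightwards (nearest first). All other cells of the two-sided tape are blank. -/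
abbrev Config : Type := ℕ × List ℕ × List ℕ

/-- Write the symbol of the rule, change state and move the head. -/
def applyRule (r : Rule) (c : Config) : Config :=
  match r.2.2.2.2 with
  | none => (r.2.2.1, c.2.1, r.2.2.2.1 :: c.2.2.tail)
  | some true => (r.2.2.1, r.2.2.2.1 :: c.2.1, c.2.2.tail)
  | some false => (r.2.2.1, c.2.1.tail, c.2.1.headD 0 :: r.2.2.2.1 :: c.2.2.tail)

/-- One computation step. A configuration to which no rule applies does not change (so such a
machine never halts unless it already is in a halting state). -/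
def step (M : Machine) (c : Config) : Config :=
  match M.1.find? (fun r => r.1 == c.1 && r.2.1 == c.2.2.headD 0) with
  | none => c
  | some r => applyRule r c

/-- The initial configuration on the input `w`: initial state `0`, the head on the first letter of
`w`, and the rest of the tape blank. -/
def initConfig (w : Word) : Config := (0, [], w)

/-- `M` halts on `w`: it reaches a halting state after finitely many steps, possibly none. -/
def Halts (M : Machine) (w : Word) : Prop :=
  ∃ n : ℕ, ((step M)^[n] (initConfig w)).1 ∈ M.2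

/-- Codes of rational numbers: `(a, b, d)` stands for `(a - b) / (d + 1)`. -/
abbrev RatCode : Type := ℕ × ℕ × ℕ

/-- The rational number with a given code, as a real number. Every rational number has a code. -/
noncomputable def ratVal (q : RatCode) : ℝ := ((q.1 : ℝ) - (q.2.1 : ℝ)) / ((q.2.2 : ℝ) + 1)

/-- `ν` is a computable real number. -/
def IsComputableReal (ν : ℝ) : Prop :=
  ∃ φ : ℕ → RatCode, Computable φ ∧ ∀ n : ℕ, |ν - ratVal (φ n)| ≤ (1 / 2 : ℝ) ^ n

/-- The mixed derivative `∂ₜ^k ∂₀^a ∂₁^b ∂₂^c F` at the point `(t, x, y, z)`. -/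
noncomputable def mixedDeriv (F : ℝ → R3 → ℝ) (k a b c : ℕ) (t x y z : ℝ) : ℝ :=
  iteratedDeriv k (fun t' => iteratedDeriv a (fun x' => iteratedDeriv b (fun y' =>
    iteratedDeriv c (fun z' => F t' ![x', y', z']) z) y) x) t

/-- The program `c` returns the mixed derivatives of all orders of the components of `f` at
rational points to any prescribed rational accuracy. The input is the (encoded) tuple
`(i, (k, a, b, d), (t, x, y, z), e)`, the output an (encoded) code of a rational number. -/
def ProgramComputes (c : Nat.Partrec.Code) (f : ℝ → R3 → R3) : Prop :=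
  ∀ (i : Fin 3) (m : ℕ × ℕ × ℕ × ℕ) (q : RatCode × RatCode × RatCode × RatCode) (e : RatCode),
    0 < ratVal e → ∃ r : RatCode,
      c.eval (Encodable.encode (i, m, q, e)) = Part.some (Encodable.encode r) ∧
      |mixedDeriv (fun t X => f t X i) m.1 m.2.1 m.2.2.1 m.2.2.2
          (ratVal q.1) (ratVal q.2.1) (ratVal q.2.2.1) (ratVal q.2.2.2) - ratVal r| < ratVal e

/-- `f` is a smooth force on `ℝ × T^3` for which `c` is a program. -/
def IsEffectiveForce (c : Nat.Partrec.Code) (f : ℝ → R3 → R3) : Prop :=
  ContDiff ℝ ∞ (fun q : ℝ × R3 => f q.1 q.2) ∧ (∀ t, Periodic3 (f t)) ∧ ProgramComputes c f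

end Vale.Agent.Lib.P113
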