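import Vale.Agent.Lib.P113.Torus

/-!
Global existence and uniqueness of particle trajectories of smooth periodic velocity fields.
-/

open Set Filter Topology Metric
open scoped ContDiff NNReal

namespace Vale.Agent.Lib.P113

section ode

variable {u : ℝ → R3 → R3}

theorem slice_of_joint (hu : ContDiff ℝ ∞ (fun q : ℝ × R3 => u q.1 q.2)) (t : ℝ) :
    ContDiff ℝ ∞ (u t) := hu.comp (contDiff_const.prodMk contDiff_id)

theorem lipschitz_of_smooth (hu : ContDiff ℝ ∞ (fun q : ℝ × R3 => u q.1 q.2))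
    (hper : ∀ t, Periodic3 (u t)) (T : ℝ) :
    ∃ K : ℝ≥0, ∀ t ∈ Icc 0 T, LipschitzWith K (u t) := by
  have hU' : ContDiff ℝ ∞ (fun q : ℝ × R3 => fderiv ℝ (u q.1) q.2) := slice_smooth hu
  obtain ⟨C, hC0, hC⟩ := periodic_bound (T := T) (Φ := fun t x => fderiv ℝ (u t) x)
    hU'.continuous.continuousOn (fun t _ => periodic_fderiv (hper t))
  refine ⟨⟨C, hC0⟩, fun t ht => ?_⟩
  have hd : Differentiable ℝ (u t) := (slice_of_joint hu t).differentiable (by simp)
  refine lipschitzWith_of_nnnorm_fderiv_le hd fun x => ?_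
  exact NNReal.coe_le_coe.1 (hC t ht x)

/-- Uniqueness on a compact time interval for curves with one-sided derivatives. -/
theorem curve_unique_Ici (hu : ContDiff ℝ ∞ (fun q : ℝ × R3 => u q.1 q.2))
    (hper : ∀ t, Periodic3 (u t)) {T : ℝ} {X Y : ℝ → R3}
    (hX : ContinuousOn X (Icc 0 T)) (hY : ContinuousOn Y (Icc 0 T))
    (hX' : ∀ t ∈ Ico 0 T, HasDerivWithinAt X (u t (X t)) (Ici t) t)
    (hY' : ∀ t ∈ Ico 0 T, HasDerivWithinAt Y (u t (Y t)) (Ici t) t) (h0 : X 0 = Y 0) :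
    EqOn X Y (Icc 0 T) := by
  obtain ⟨K, hK⟩ := lipschitz_of_smooth hu hper T
  exact ODE_solution_unique_of_mem_Icc_right (s := fun _ => univ)
    (fun t ht => (hK t ⟨ht.1, ht.2.le⟩).lipschitzOnWith) hX hX' (fun _ _ => mem_univ _)
    hY hY' (fun _ _ => mem_univ _) h0

/-- Uniqueness of trajectories. -/
theorem traj_unique (hu : ContDiff ℝ ∞ (fun q : ℝ × R3 => u q.1 q.2))
    (hper : ∀ t, Periodic3 (u t)) {a : R3} {X Y : ℝ → R3} (hX : IsTrajectory u a X)
    (hY : IsTrajectory u a Y) : ∀ t ≥ 0, X t = Y t := by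
  intro t ht
  have cX : ContinuousOn X (Icc 0 t) := fun s hs =>
    ((hX.2 s hs.1).continuousWithinAt).mono (fun r hr => hr.1)
  have cY : ContinuousOn Y (Icc 0 t) := fun s hs =>
    ((hY.2 s hs.1).continuousWithinAt).mono (fun r hr => hr.1)
  have := curve_unique_Ici hu hper cX cY
    (fun s hs => (hX.2 s hs.1).mono (Ici_subset_Ici.2 hs.1))
    (fun s hs => (hY.2 s hs.1).mono (Ici_subset_Ici.2 hs.1)) (hX.1.trans hY.1.symm)
  exact this ⟨ht, le_rfl⟩

/-- Local solutions on a compact time interval. -/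
theorem exists_on_Icc (hu : ContDiff ℝ ∞ (fun q : ℝ × R3 => u q.1 q.2))
    (hper : ∀ t, Periodic3 (u t)) (a : R3) {T : ℝ} (hT : 0 < T) :
    ∃ α : ℝ → R3, α 0 = a ∧ ∀ t ∈ Icc 0 T, HasDerivWithinAt α (u t (α t)) (Icc 0 T) t := by
  obtain ⟨K, hK⟩ := lipschitz_of_smooth hu hper T
  obtain ⟨L, hL0, hL⟩ := periodic_bound (T := T) (Φ := u) hu.continuous.continuousOn
    (fun t _ => hper t)
  have hmem : (0 : ℝ) ∈ Icc (0 : ℝ) T := ⟨le_rfl, hT.le⟩
  have hpl : IsPicardLindelof u (tmin := 0) (tmax := T) ⟨0, hmem⟩ a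
      ⟨L * T, mul_nonneg hL0 hT.le⟩ 0 ⟨L, hL0⟩ K := by
    refine ⟨fun t ht => (hK t ht).lipschitzOnWith, fun x _ => ?_, fun t ht x _ => hL t ht x, ?_⟩
    · have : Continuous (fun t => u t x) :=
        hu.continuous.comp (continuous_id.prodMk continuous_const)
      exact this.continuousOn
    · simp only [NNReal.coe_zero, sub_zero, sub_self]
      rw [max_eq_left hT.le]
      exact le_rfl
  obtain ⟨α, h0, hα⟩ := hpl.exists_eq_forall_mem_Icc_hasDerivWithinAt₀
  exact ⟨α, h0, hα⟩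

/-- Global existence of trajectories. -/
theorem traj_exists (hu : ContDiff ℝ ∞ (fun q : ℝ × R3 => u q.1 q.2))
    (hper : ∀ t, Periodic3 (u t)) (a : R3) : ∃ X, IsTrajectory u a X := by
  have hpos : ∀ n : ℕ, (0 : ℝ) < (n : ℝ) + 1 := fun n => by positivity
  choose α hα0 hα using fun n : ℕ => exists_on_Icc hu hper a (hpos n)
  -- compatibility of the local solutions
  have hcompat : ∀ m n : ℕ, m ≤ n → EqOn (α m) (α n) (Icc 0 ((m : ℝ) + 1)) := by
    intro m n hmn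
    have hsub : Icc (0 : ℝ) ((m : ℝ) + 1) ⊆ Icc 0 ((n : ℝ) + 1) := by
      apply Icc_subset_Icc_right
      have : (m : ℝ) ≤ n := by exact_mod_cast hmn
      linarith
    have cm : ContinuousOn (α m) (Icc 0 ((m : ℝ) + 1)) := fun s hs =>
      (hα m s hs).continuousWithinAt
    have cn : ContinuousOn (α n) (Icc 0 ((m : ℝ) + 1)) := fun s hs =>
      ((hα n s (hsub hs)).continuousWithinAt).mono hsub
    have hnear : ∀ {t : ℝ} {b : ℝ}, t ∈ Ico 0 b → Icc 0 b ∈ 𝓝[Ici t] t := by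
      intro t b ht
      exact mem_of_superset (Icc_mem_nhdsGE ht.2) (Icc_subset_Icc_left ht.1)
    refine curve_unique_Ici hu hper cm cn (fun t ht => ?_) (fun t ht => ?_)
      ((hα0 m).trans (hα0 n).symm)
    · exact (hα m t ⟨ht.1, ht.2.le⟩).mono_of_mem_nhdsWithin (hnear ht)
    · have h1 := hα n t (hsub ⟨ht.1, ht.2.le⟩)
      exact h1.mono_of_mem_nhdsWithin (mem_of_superset (hnear ht) hsub)
  have hcompat' : ∀ (m n : ℕ) (s : ℝ), s ∈ Icc 0 ((m : ℝ) + 1) → s ∈ Icc 0 ((n : ℝ) + 1) →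
      α m s = α n s := by
    intro m n s hm hn
    rcases le_total m n with h | h
    · exact hcompat m n h hm
    · exact (hcompat n m h hn).symm
  let idx : ℝ → ℕ := fun t => ⌈t⌉₊
  have hidx : ∀ t : ℝ, 0 ≤ t → t ∈ Icc 0 (((idx t : ℕ) : ℝ) + 1) := by
    intro t ht
    refine ⟨ht, ?_⟩
    have := Nat.le_ceil t
    simp only [idx]
    linarith
  refine ⟨fun t => α (idx t) t, ?_, ?_⟩
  · exact hα0 _
  · intro t ht
    have hmemN : t ∈ Icc (0 : ℝ) (((idx t : ℕ) : ℝ) + 1) := hidx t ht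
    have h1 := hα (idx t) t hmemN
    have h2 : Icc (0 : ℝ) (((idx t : ℕ) : ℝ) + 1) ∈ 𝓝[Ici 0] t := by
      have hlt : t < ((idx t : ℕ) : ℝ) + 1 := by
        have := Nat.le_ceil t
        simp only [idx]
        linarith
      have hI : Iio (((idx t : ℕ) : ℝ) + 1) ∈ 𝓝 t := Iio_mem_nhds hlt
      filter_upwards [inter_mem_nhdsWithin (Ici 0) hI] with s hs
      exact ⟨hs.1, le_of_lt hs.2⟩
    have h3 := h1.mono_of_mem_nhdsWithin h2
    refine h3.congr_of_eventuallyEq ?_ rfl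
    filter_upwards [h2, self_mem_nhdsWithin] with s hs hs0
    exact hcompat' _ _ s (hidx s hs0) hs

end ode

end Vale.Agent.Lib.P113
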