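import Vale.Agent.Lib.P113.Effective
import Vale.Agent.Lib.P113.ODE

/-!
The dynamics of the distinguished particle: it stays on the plane `x = 0` unless the machine halts.
-/

open Set MeasureTheory Filter Topology
open scoped ContDiff Real NNReal

namespace Vale.Agent.Lib.P113

/-! ### The angle function -/

/-- The explicit solution of `θ' = - sin (2 π θ)`, `θ 0 = 1/4`. -/
noncomputable def Th (ℓ : ℝ) : ℝ := Real.arctan (Real.exp (-(2 * π * ℓ))) / π

theorem Th_hasDerivAt (ℓ : ℝ) : HasDerivAt Th (-Real.sin (2 * π * Th ℓ)) ℓ := by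
  have hpi := Real.pi_ne_zero
  have h1 : HasDerivAt (fun ℓ : ℝ => -(2 * π * ℓ)) (-(2 * π)) ℓ :=
    (((hasDerivAt_id' ℓ).const_mul (2 * π)).fun_neg).congr_deriv (by ring)
  have h2 := h1.exp
  have h3 := (h2.arctan).div_const π
  refine h3.congr_deriv ?_
  set T := Real.exp (-(2 * π * ℓ)) with hT
  have hs : Real.sin (2 * π * Th ℓ) = 2 * T / (1 + T ^ 2) := by
    have e : 2 * π * Th ℓ = 2 * Real.arctan T := by
      unfold Th
      rw [← hT]
      field_simp
    rw [e, Real.sin_two_mul, Real.sin_arctan, Real.cos_arctan]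
    have hq : √(1 + T ^ 2) * √(1 + T ^ 2) = 1 + T ^ 2 := Real.mul_self_sqrt (by positivity)
    have hp : √(1 + T ^ 2) ≠ 0 := by positivity
    set r := √(1 + T ^ 2) with hr
    have e3 : 2 * (T / r) * (1 / r) = 2 * T / (r * r) := by field_simp
    rw [e3, hq]
  rw [hs]
  have h4 : (1 + T ^ 2) ≠ 0 := by positivity
  field_simp

theorem Th_zero : Th 0 = 1 / 4 := by
  have hpi := Real.pi_ne_zero
  simp only [Th, mul_zero, neg_zero, Real.exp_zero, Real.arctan_one]
  field_simp

theorem Th_pos (ℓ : ℝ) : 0 < Th ℓ :=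
  div_pos (Real.arctan_pos.2 (Real.exp_pos _)) Real.pi_pos

theorem arctan_le_self' {x : ℝ} (hx : 0 ≤ x) : Real.arctan x ≤ x := by
  have h1 : 0 ≤ Real.arctan x := Real.arctan_nonneg.2 hx
  have h2 := Real.le_tan h1 (Real.arctan_lt_pi_div_two x)
  rwa [Real.tan_arctan] at h2

theorem div_sqrt_le_arctan {x : ℝ} (hx : 0 ≤ x) : x / √(1 + x ^ 2) ≤ Real.arctan x := by
  rw [← Real.sin_arctan]
  exact Real.sin_le (Real.arctan_nonneg.2 hx)

/-- Each step decreases the angle by a factor of less than two. -/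
theorem Th_ratio {ℓ δ : ℝ} (hℓ : 0 ≤ ℓ) (hδ : 0 ≤ δ) (hq : 3 / 4 ≤ Real.exp (-(2 * π * δ))) :
    Th ℓ / 2 < Th (ℓ + δ) := by
  have hpi := Real.pi_pos
  set T := Real.exp (-(2 * π * ℓ)) with hT
  set q := Real.exp (-(2 * π * δ)) with hqd
  have hT0 : 0 < T := Real.exp_pos _
  have hT1 : T ≤ 1 := by
    rw [hT]
    apply Real.exp_le_one_iff.2
    have : 0 ≤ π * ℓ := by positivity
    linarith
  have hq1 : q ≤ 1 := by
    rw [hqd]
    apply Real.exp_le_one_iff.2
    have : 0 ≤ π * δ := by positivity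
    linarith
  have he : Real.exp (-(2 * π * (ℓ + δ))) = q * T := by
    rw [hqd, hT, ← Real.exp_add]
    congr 1
    ring
  set x := q * T with hx
  have hx0 : 0 < x := by positivity
  have hx1 : x ≤ 1 := by
    rw [hx]
    nlinarith
  have hxT : (3 / 4) * T ≤ x := by
    rw [hx]
    exact mul_le_mul_of_nonneg_right hq hT0.le
  have hroot : √(1 + x ^ 2) < 3 / 2 := by
    rw [Real.sqrt_lt' (by norm_num)]
    nlinarith
  have hrootp : 0 < √(1 + x ^ 2) := by positivity
  have h1 : T / 2 < Real.arctan x := by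
    refine lt_of_lt_of_le ?_ (div_sqrt_le_arctan hx0.le)
    rw [lt_div_iff₀ hrootp]
    nlinarith
  have h2 : Real.arctan T ≤ T := arctan_le_self' hT0.le
  unfold Th
  rw [← hT, he]
  rw [div_div, div_lt_div_iff₀ (by positivity) hpi]
  nlinarith

theorem Th_le (ℓ : ℝ) : Th ℓ ≤ Real.exp (-(2 * π * ℓ)) := by
  have hpi : (1 : ℝ) ≤ π := by linarith [Real.pi_gt_three]
  unfold Th
  have h := arctan_le_self' (Real.exp_pos (-(2 * π * ℓ))).le
  have h0 : 0 ≤ Real.arctan (Real.exp (-(2 * π * ℓ))) :=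
    Real.arctan_nonneg.2 (Real.exp_pos _).le
  exact (div_le_self h0 hpi).trans h

/-- The dyadic shell of index `T` is hit by the discrete orbit of the angle. -/
theorem exists_time {δ : ℝ} (hδ : 0 < δ) (hq : 3 / 4 ≤ Real.exp (-(2 * π * δ))) (T : ℕ) :
    ∃ j : ℕ, (1 / 2 : ℝ) ^ (T + 3) < Th (((j : ℝ) + 1) * δ) ∧
      Th (((j : ℝ) + 1) * δ) < 2 * (1 / 2 : ℝ) ^ (T + 3) := by
  classical
  have hpi := Real.pi_pos
  have hq1 : Real.exp (-(2 * π * δ)) < 1 := by
    have h0 : Real.exp (-(2 * π * δ)) < Real.exp 0 := by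
      apply Real.exp_lt_exp.2
      have : 0 < π * δ := by positivity
      linarith
    simpa using h0
  have hex : ∃ j : ℕ, Th ((j : ℝ) * δ) < 2 * (1 / 2 : ℝ) ^ (T + 3) := by
    obtain ⟨j, hj⟩ := exists_pow_lt_of_lt_one (x := 2 * (1 / 2 : ℝ) ^ (T + 3))
      (by positivity) hq1
    refine ⟨j, lt_of_le_of_lt (Th_le _) ?_⟩
    have e : Real.exp (-(2 * π * ((j : ℝ) * δ))) = Real.exp (-(2 * π * δ)) ^ j := by
      rw [← Real.exp_nat_mul]
      congr 1
      ring
    rw [e]
    exact hj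
  have hspec := Nat.find_spec hex
  have hmin := fun m => Nat.find_min (m := m) hex
  set j₀ := Nat.find hex with hj₀
  have hne : j₀ ≠ 0 := by
    intro h0
    rw [h0] at hspec
    simp only [Nat.cast_zero, zero_mul, Th_zero] at hspec
    have h1 : (1 / 2 : ℝ) ^ (T + 3) ≤ (1 / 2 : ℝ) ^ 3 :=
      pow_le_pow_of_le_one (by norm_num) (by norm_num) (by omega)
    norm_num at h1 hspec
    linarith
  obtain ⟨j, hj⟩ := Nat.exists_eq_succ_of_ne_zero hne
  refine ⟨j, ?_, ?_⟩
  · have h1 := hmin j (by omega)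
    push Not at h1
    have h2 := Th_ratio (ℓ := (j : ℝ) * δ) (δ := δ) (by positivity) hδ.le hq
    have e : ((j : ℝ) + 1) * δ = (j : ℝ) * δ + δ := by ring
    rw [e]
    linarith
  · have e : ((j : ℝ) + 1) = ((j₀ : ℕ) : ℝ) := by
      rw [hj]
      push_cast
      ring
    rw [e]
    exact hspec

/-! ### Integrals of the profiles -/

/-- The accumulated Taylor-Green time. -/
noncomputable def tau (t : ℝ) : ℝ := ∫ s in (0 : ℝ)..t, cA 0 s

/-- The accumulated preparation time. -/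
noncomputable def sig (t : ℝ) : ℝ := ∫ s in (0 : ℝ)..t, c1 0 s

/-- The Taylor-Green time of one period. -/
noncomputable def KA : ℝ := tau 1

/-- The total preparation time. -/
noncomputable def K1 : ℝ := sig (1 / 4)

theorem cA_cont : Continuous (cA 0) := (cA_contDiff 0).continuous

theorem c1_cont : Continuous (c1 0) := (c1_contDiff 0).continuous

theorem tau_hasDerivAt (t : ℝ) : HasDerivAt tau (cA 0 t) t :=
  intervalIntegral.integral_hasDerivAt_right (cA_cont.intervalIntegrable _ _)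
    (cA_cont.stronglyMeasurableAtFilter _ _) cA_cont.continuousAt

theorem sig_hasDerivAt (t : ℝ) : HasDerivAt sig (c1 0 t) t :=
  intervalIntegral.integral_hasDerivAt_right (c1_cont.intervalIntegrable _ _)
    (c1_cont.stronglyMeasurableAtFilter _ _) c1_cont.continuousAt

theorem tau_zero : tau 0 = 0 := intervalIntegral.integral_same

theorem sig_zero : sig 0 = 0 := intervalIntegral.integral_same

theorem KA_pos : 0 < KA := by
  refine intervalIntegral.integral_pos (by norm_num) cA_cont.continuousOn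
    (fun x _ => cA_nonneg x) ⟨3 / 8, by constructor <;> norm_num, ?_⟩
  rw [cA_zero_eq]
  have e : Int.fract (3 / 8 : ℝ) = 3 / 8 := Int.fract_eq_self.2 (by constructor <;> norm_num)
  rw [e]
  exact B_pos (by norm_num) (by norm_num)

theorem K1_pos : 0 < K1 := by
  refine intervalIntegral.integral_pos (by norm_num) c1_cont.continuousOn
    (fun x _ => c1_nonneg x) ⟨1 / 8, by constructor <;> norm_num, ?_⟩
  rw [c1_zero_eq]
  exact B_pos (by norm_num) (by norm_num)

theorem tau_add_one (t : ℝ) : tau (t + 1) = tau t + KA := by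
  have h1 : ∫ s in (1 : ℝ)..(t + 1), cA 0 s = tau t := by
    have := intervalIntegral.integral_comp_add_right (a := 0) (b := t) (cA 0) 1
    simp only [zero_add] at this
    rw [← this]
    exact intervalIntegral.integral_congr fun s _ => cA_add_one 0 s
  have h2 := intervalIntegral.integral_add_adjacent_intervals (μ := volume)
    (cA_cont.intervalIntegrable 0 1) (cA_cont.intervalIntegrable 1 (t + 1))
  unfold KA
  rw [h1] at h2
  unfold tau at *
  linarith

theorem cA_vanish {s : ℝ} (h1 : 5 / 8 ≤ s) (h2 : s ≤ 1) : cA 0 s = 0 := by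
  rw [cA_zero_eq]
  rcases h2.lt_or_eq with h3 | h3
  · rw [Int.fract_eq_self.2 ⟨by linarith, h3⟩]
    exact B_eq_zero_of_one_le (by linarith)
  · rw [h3, Int.fract_one]
    exact B_eq_zero_of_nonpos (by norm_num)

theorem tau_five_eighths : tau (5 / 8) = KA := by
  have h0 : ∫ s in (5 / 8 : ℝ)..1, cA 0 s = 0 := by
    have : ∫ s in (5 / 8 : ℝ)..1, cA 0 s = ∫ s in (5 / 8 : ℝ)..1, (0 : ℝ) := by
      refine intervalIntegral.integral_congr fun s hs => ?_
      rw [uIcc_of_le (by norm_num)] at hs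
      exact cA_vanish hs.1 hs.2
    rw [this]
    simp
  have h2 := intervalIntegral.integral_add_adjacent_intervals (μ := volume)
    (cA_cont.intervalIntegrable 0 (5 / 8)) (cA_cont.intervalIntegrable (5 / 8) 1)
  rw [h0, add_zero] at h2
  exact h2

theorem tau_nat (j : ℕ) : tau ((j : ℝ) + 5 / 8) = ((j : ℝ) + 1) * KA := by
  induction j with
  | zero => simp [tau_five_eighths]
  | succ j ih =>
    have e : ((j + 1 : ℕ) : ℝ) + 5 / 8 = ((j : ℝ) + 5 / 8) + 1 := by
      push_cast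
      ring
    rw [e, tau_add_one, ih]
    push_cast
    ring

theorem sig_eq {t : ℝ} (ht : 1 / 4 ≤ t) : sig t = K1 := by
  have h0 : ∫ s in (1 / 4 : ℝ)..t, c1 0 s = 0 := by
    have : ∫ s in (1 / 4 : ℝ)..t, c1 0 s = ∫ s in (1 / 4 : ℝ)..t, (0 : ℝ) := by
      refine intervalIntegral.integral_congr fun s hs => ?_
      rw [uIcc_of_le ht] at hs
      exact c1_eq_zero_of_ge hs.1 0
    rw [this]
    simp
  have h2 := intervalIntegral.integral_add_adjacent_intervals (μ := volume)
    (c1_cont.intervalIntegrable 0 (1 / 4)) (c1_cont.intervalIntegrable (1 / 4) t)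
  rw [h0, add_zero] at h2
  exact h2.symm

theorem cB_vanish_early {t : ℝ} (h0 : 0 ≤ t) (h1 : t < 1 / 4) : cB 0 t = 0 := by
  rw [cB_zero_eq, Int.fract_eq_self.2 ⟨h0, by linarith⟩]
  exact B_eq_zero_of_nonpos (by linarith)

theorem cB_pos_nat (j : ℕ) : 0 < cB 0 ((j : ℝ) + 5 / 8) := by
  rw [cB_zero_eq, Int.fract_natCast_add]
  have e : Int.fract (5 / 8 : ℝ) = 5 / 8 := Int.fract_eq_self.2 (by constructor <;> norm_num)
  rw [e]
  exact B_pos (by norm_num) (by norm_num)

/-! ### Localization of the detection profile -/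

theorem two_pow_half (n : ℕ) : (2 : ℝ) ^ n * (1 / 2 : ℝ) ^ n = 1 := by
  rw [← mul_pow]
  norm_num

theorem phi_zero_eq (m : ℕ) (s : ℝ) : phi m 0 s = B ((2 : ℝ) ^ m * Int.fract s - 1) :=
  phJ_zero_eq s

theorem phi_nonneg (m : ℕ) (s : ℝ) : 0 ≤ phi m 0 s := by
  rw [phi_zero_eq]
  exact B_nonneg _

theorem phi_zero_pos {m : ℕ} {s : ℝ} (h1 : (1 / 2 : ℝ) ^ m < s) (h2 : s < 2 * (1 / 2 : ℝ) ^ m)
    (h3 : s < 1) : 0 < phi m 0 s := by
  have hs0 : 0 ≤ s := le_trans (by positivity) h1.le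
  rw [phi_zero_eq, Int.fract_eq_self.2 ⟨hs0, h3⟩]
  have hp : (0 : ℝ) < 2 ^ m := by positivity
  have h4 := two_pow_half m
  apply B_pos
  · have := mul_lt_mul_of_pos_left h1 hp
    linarith
  · have := mul_lt_mul_of_pos_left h2 hp
    nlinarith

theorem phi_vanish {m W : ℕ} {s : ℝ} (h1 : (1 / 2 : ℝ) ^ (W + 2) < s)
    (h2 : s < 2 * (1 / 2 : ℝ) ^ (W + 2)) (h3 : s < 1) (hm : m ≠ W) : phi (m + 2) 0 s = 0 := by
  have hs0 : 0 ≤ s := le_trans (by positivity) h1.le
  rw [phi_zero_eq, Int.fract_eq_self.2 ⟨hs0, h3⟩]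
  have h4 := two_pow_half (W + 2)
  rcases lt_or_gt_of_ne hm with hlt | hgt
  · -- the smaller index: the argument is nonpositive
    apply B_eq_zero_of_nonpos
    have hp : (2 : ℝ) ^ (m + 2) ≤ 2 ^ (W + 1) := pow_le_pow_right₀ (by norm_num) (by omega)
    have e : (2 : ℝ) ^ (W + 2) = 2 * 2 ^ (W + 1) := by
      rw [pow_succ]
      ring
    have h5 : (0 : ℝ) < 2 ^ (W + 1) := by positivity
    have h6 : (2 : ℝ) ^ (W + 1) * s < 2 ^ (W + 1) * (2 * (1 / 2 : ℝ) ^ (W + 2)) :=
      mul_lt_mul_of_pos_left h2 h5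
    have h7 : (2 : ℝ) ^ (m + 2) * s ≤ 2 ^ (W + 1) * s := mul_le_mul_of_nonneg_right hp hs0
    rw [e] at h4
    nlinarith
  · -- the larger index: the argument is at least one
    apply B_eq_zero_of_one_le
    have hp : (2 : ℝ) ^ (W + 3) ≤ 2 ^ (m + 2) := pow_le_pow_right₀ (by norm_num) (by omega)
    have e : (2 : ℝ) ^ (W + 3) = 2 * 2 ^ (W + 2) := by
      rw [pow_succ]
      ring
    have h5 : (0 : ℝ) < 2 ^ (W + 2) := by positivity
    have h6 : (2 : ℝ) ^ (W + 2) * (1 / 2 : ℝ) ^ (W + 2) < 2 ^ (W + 2) * s :=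
      mul_lt_mul_of_pos_left h1 h5
    have h7 : (2 : ℝ) ^ (W + 3) * s ≤ 2 ^ (m + 2) * s := mul_le_mul_of_nonneg_right hp hs0
    rw [e] at h7
    nlinarith

theorem gTerm_nonneg (χ : ℕ → ℕ → Bool) (n : ℕ × ℕ) (y z : ℝ) : 0 ≤ gTerm χ 0 0 n (y, z) := by
  unfold gTerm
  refine mul_nonneg ?_ (mul_nonneg (phi_nonneg _ _) (phi_nonneg _ _))
  split_ifs
  · exact (eps_pos n).le
  · exact le_rfl

theorem G_pos {χ : ℕ → ℕ → Bool} {W T : ℕ} (hχ : χ W T = true) {y z : ℝ}
    (hy : 0 < phi (W + 2) 0 y) (hz : 0 < phi (T + 3) 0 z) : 0 < G χ 0 0 (y, z) := by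
  have h1 : 0 < gTerm χ 0 0 (W, T) (y, z) := by
    simp only [gTerm, hχ, if_true]
    exact mul_pos (eps_pos _) (mul_pos hy hz)
  refine lt_of_lt_of_le h1 ?_
  exact (gTerm_summable χ 0 0 (y, z)).le_tsum (W, T) (fun j _ => gTerm_nonneg χ j y z)

theorem G_zero {χ : ℕ → ℕ → Bool} {W : ℕ} (hχ : ∀ T, χ W T ≠ true) {y : ℝ}
    (hy : ∀ m, m ≠ W → phi (m + 2) 0 y = 0) (z : ℝ) : G χ 0 0 (y, z) = 0 := by
  unfold G
  have : ∀ n : ℕ × ℕ, gTerm χ 0 0 n (y, z) = 0 := by
    rintro ⟨m, T⟩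
    simp only [gTerm]
    by_cases hm : m = W
    · subst hm
      simp [hχ T]
    · simp [hy m hm]
  simp [this]

/-! ### The curve of the distinguished particle -/

section curve

variable {κ V : ℝ} {χ : ℕ → ℕ → Bool}

/-- The height of the particle under the Taylor-Green phases. -/
noncomputable def zC (κ : ℝ) (t : ℝ) : ℝ := Th (κ * tau t)

theorem zC_hasDerivAt (κ t : ℝ) :
    HasDerivAt (zC κ) (-(κ * cA 0 t) * Real.sin (2 * π * zC κ t)) t := by
  have h1 : HasDerivAt (fun t => κ * tau t) (κ * cA 0 t) t := (tau_hasDerivAt t).const_mul κ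
  have h2 := (Th_hasDerivAt (κ * tau t)).scomp t h1
  refine h2.congr_deriv ?_
  simp only [smul_eq_mul, zC]
  ring

/-- The curve of the distinguished particle as long as it stays on the plane `x = 0`. -/
noncomputable def Xc (κ V : ℝ) (t : ℝ) : R3 := ![0, V * sig t, zC κ t]

/-- The starting point. -/
noncomputable def aStar : R3 := ![0, 0, 1 / 4]

/-- The target set. -/
def Oset : Set R3 := {X | Real.sin (π * X 0) ≠ 0}

theorem Oset_open : IsOpen Oset := by
  have h : Continuous (fun X : R3 => Real.sin (π * X 0)) :=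
    Real.continuous_sin.comp (continuous_const.mul (continuous_apply 0))
  exact isOpen_ne_fun h continuous_const

theorem Oset_periodic : Periodic3 (fun X => X ∈ Oset) := by
  intro n X
  apply propext
  simp only [Oset, mem_ofPred_eq]
  have e : π * (X 0 + (n 0 : ℝ)) = π * X 0 + (n 0 : ℝ) * π := by ring
  rw [e, Real.sin_add_int_mul_pi]
  have h1 : ((-1 : ℝ) ^ (n 0)) ≠ 0 := zpow_ne_zero _ (by norm_num)
  constructor
  · intro h h2
    apply h
    rw [h2, mul_zero]
  · intro h h2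
    exact h ((mul_eq_zero.1 h2).resolve_left h1)

theorem uF_on_plane0 (t : ℝ) {X : R3} (h : X 0 = 0) :
    uF κ V χ t X 0 = cB 0 t * G χ 0 0 (X 1, X 2) := by
  rw [uF_a0]
  simp [tm, h]

theorem uF_on_plane2 (t : ℝ) {X : R3} (h : X 0 = 0) :
    uF κ V χ t X 2 = -(κ * cA 0 t) * Real.sin (2 * π * X 2) := by
  rw [uF_a2]
  simp [tm, h]

theorem Xc_traj (h : ∀ t ≥ 0, cB 0 t * G χ 0 0 (V * sig t, zC κ t) = 0) :
    IsTrajectory (uF κ V χ) aStar (Xc κ V) := by
  refine ⟨?_, fun t ht => ?_⟩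
  · funext i
    match i with
    | 0 => rfl
    | 1 =>
      show V * sig 0 = 0
      simp [sig_zero]
    | 2 =>
      show zC κ 0 = 1 / 4
      simp [zC, tau_zero, Th_zero]
  · refine hasDerivWithinAt_pi.2 fun i => ?_
    match i with
    | 0 =>
      have e : uF κ V χ t (Xc κ V t) 0 = 0 := by
        rw [uF_on_plane0 t rfl]
        exact h t ht
      rw [e]
      exact hasDerivWithinAt_const _ _ _
    | 1 =>
      exact (((sig_hasDerivAt t).const_mul V).congr_deriv (mul_comm _ _)).hasDerivWithinAt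
    | 2 =>
      have e : uF κ V χ t (Xc κ V t) 2 = -(κ * cA 0 t) * Real.sin (2 * π * zC κ t) :=
        uF_on_plane2 t rfl
      rw [e]
      exact (zC_hasDerivAt κ t).hasDerivWithinAt

/-- Uniqueness for scalar equations with uniformly Lipschitz right-hand sides. -/
theorem scalar_unique {v : ℝ → ℝ → ℝ} {K : ℝ≥0} (hv : ∀ t, LipschitzWith K (v t)) {f g : ℝ → ℝ}
    (hf : ∀ t ≥ 0, HasDerivWithinAt f (v t (f t)) (Ici 0) t)
    (hg : ∀ t ≥ 0, HasDerivWithinAt g (v t (g t)) (Ici 0) t) (h0 : f 0 = g 0) :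
    ∀ t ≥ 0, f t = g t := by
  intro t ht
  have cf : ContinuousOn f (Icc 0 t) := fun s hs =>
    ((hf s hs.1).continuousWithinAt).mono (fun r hr => hr.1)
  have cg : ContinuousOn g (Icc 0 t) := fun s hs =>
    ((hg s hs.1).continuousWithinAt).mono (fun r hr => hr.1)
  have := ODE_solution_unique_of_mem_Icc_right (v := v) (K := K) (s := fun _ => univ)
    (fun s _ => (hv s).lipschitzOnWith) cf
    (fun s hs => (hf s hs.1).mono (Ici_subset_Ici.2 hs.1)) (fun _ _ => mem_univ _)
    cg (fun s hs => (hg s hs.1).mono (Ici_subset_Ici.2 hs.1)) (fun _ _ => mem_univ _) h0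
  exact this ⟨ht, le_rfl⟩

/-- A continuous curve whose first coordinate is always an integer and starts at zero stays at
zero. -/
theorem stays_on_plane {f : ℝ → ℝ} (hf : ContinuousOn f (Ici 0)) (h0 : f 0 = 0)
    (hs : ∀ t ≥ 0, Real.sin (π * f t) = 0) : ∀ t ≥ 0, f t = 0 := by
  intro t ht
  obtain ⟨n, hn⟩ := Real.sin_eq_zero_iff.1 (hs t ht)
  have hpi := Real.pi_pos
  have hft : f t = n := by
    have : π * f t = π * n := by rw [← hn]; ring
    exact mul_left_cancel₀ hpi.ne' this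
  have huIcc : uIcc 0 t ⊆ Ici (0 : ℝ) := by
    rw [uIcc_of_le ht]
    exact fun s hs => hs.1
  have hIV := intermediate_value_uIcc (a := 0) (b := t) (hf.mono huIcc)
  by_contra hne
  have hn0 : n ≠ 0 := by
    rintro rfl
    simp [hft] at hne
  rcases lt_or_gt_of_ne hn0 with hneg | hpos
  · -- negative integer: the value `-1/2` is attained
    have hle : (n : ℝ) ≤ -1 := by exact_mod_cast Int.le_sub_one_iff.2 hneg
    have hmem : (-1 / 2 : ℝ) ∈ uIcc (f 0) (f t) := by
      rw [h0, hft, uIcc_of_ge (by linarith)]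
      constructor <;> linarith
    obtain ⟨s, hs1, hs2⟩ := hIV hmem
    have h3 := hs s (huIcc hs1)
    rw [hs2] at h3
    have e : π * (-1 / 2) = -(π / 2) := by ring
    rw [e, Real.sin_neg, Real.sin_pi_div_two] at h3
    norm_num at h3
  · -- positive integer: the value `1/2` is attained
    have hle : (1 : ℝ) ≤ n := by exact_mod_cast hpos
    have hmem : (1 / 2 : ℝ) ∈ uIcc (f 0) (f t) := by
      rw [h0, hft, uIcc_of_le (by linarith)]
      constructor <;> linarith
    obtain ⟨s, hs1, hs2⟩ := hIV hmem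
    have h3 := hs s (huIcc hs1)
    rw [hs2] at h3
    have e : π * (1 / 2) = π / 2 := by ring
    rw [e, Real.sin_pi_div_two] at h3
    norm_num at h3

theorem cA_le_one (t : ℝ) : cA 0 t ≤ 1 := by
  rw [cA_zero_eq]
  exact B_le_one _

theorem lipschitz_z (hκ : 0 ≤ κ) (t : ℝ) :
    LipschitzWith ⟨κ * (2 * π), by positivity⟩
      (fun z : ℝ => -(κ * cA 0 t) * Real.sin (2 * π * z)) := by
  refine LipschitzWith.of_dist_le_mul fun z z' => ?_
  simp only [Real.dist_eq]
  have hpi := Real.pi_pos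
  have e : -(κ * cA 0 t) * Real.sin (2 * π * z) - -(κ * cA 0 t) * Real.sin (2 * π * z') =
      -(κ * cA 0 t) * (Real.sin (2 * π * z) - Real.sin (2 * π * z')) := by ring
  rw [e, abs_mul, abs_neg, abs_of_nonneg (mul_nonneg hκ (cA_nonneg t))]
  have h1 := Real.abs_sin_sub_sin_le (2 * π * z) (2 * π * z')
  have h2 : 2 * π * z - 2 * π * z' = 2 * π * (z - z') := by ring
  rw [h2, abs_mul, abs_of_pos (by positivity : 0 < 2 * π)] at h1
  have h3 : κ * cA 0 t ≤ κ := by
    have := cA_le_one t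
    nlinarith
  calc κ * cA 0 t * |Real.sin (2 * π * z) - Real.sin (2 * π * z')|
      ≤ κ * (2 * π * |z - z'|) :=
        mul_le_mul h3 h1 (abs_nonneg _) hκ
    _ = κ * (2 * π) * |z - z'| := by ring

theorem lipschitz_const (c : ℝ) : LipschitzWith (0 : ℝ≥0) (fun _ : ℝ => c) :=
  LipschitzWith.const c

/-- If the detection term is nonzero at some time along the explicit curve, then every trajectory
leaves the plane, hence enters the target set. -/
theorem exists_mem_of_ne (hκ : 0 ≤ κ) {X : ℝ → R3} (hX : IsTrajectory (uF κ V χ) aStar X) {t₀ : ℝ}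
    (ht₀ : 0 ≤ t₀) (hne : cB 0 t₀ * G χ 0 0 (V * sig t₀, zC κ t₀) ≠ 0) :
    ∃ t ≥ 0, X t ∈ Oset := by
  by_contra hcon
  push Not at hcon
  have hnot : ∀ t ≥ 0, Real.sin (π * X t 0) = 0 := by
    intro t ht
    by_contra h
    exact hcon t ht h
  -- coordinates
  have hcomp := fun (t : ℝ) (ht : t ≥ 0) => hasDerivWithinAt_pi.1 (hX.2 t ht)
  have c0 : ContinuousOn (fun t => X t 0) (Ici 0) := fun t ht =>
    (hcomp t ht 0).continuousWithinAt
  have h00 : X 0 0 = 0 := by rw [hX.1]; rfl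
  have h01 : X 0 1 = 0 := by rw [hX.1]; rfl
  have h02 : X 0 2 = 1 / 4 := by rw [hX.1]; rfl
  have hx := stays_on_plane c0 h00 hnot
  -- the second coordinate
  have hy : ∀ t ≥ 0, X t 1 = V * sig t := by
    refine scalar_unique (v := fun t _ => V * c1 0 t) (fun t => lipschitz_const _)
      (fun t ht => ?_) (fun t _ => ?_) (by simp [h01, sig_zero])
    · have := hcomp t ht 1
      have e : uF κ V χ t (X t) 1 = V * c1 0 t := by
        rw [uF_a1, mul_comm]
      rwa [e] at this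
    · exact ((sig_hasDerivAt t).const_mul V).hasDerivWithinAt
  -- the third coordinate
  have hz : ∀ t ≥ 0, X t 2 = zC κ t := by
    refine scalar_unique (v := fun t z => -(κ * cA 0 t) * Real.sin (2 * π * z))
      (fun t => lipschitz_z hκ t) (fun t ht => ?_) (fun t _ => ?_) (by simp [h02, zC, tau_zero, Th_zero])
    · have := hcomp t ht 2
      rwa [uF_on_plane2 t (hx t ht)] at this
    · exact (zC_hasDerivAt κ t).hasDerivWithinAt
  -- the first coordinate has a nonzero derivative at `t₀`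
  have hd := hcomp t₀ ht₀ 0
  rw [uF_on_plane0 t₀ (hx t₀ ht₀), hy t₀ ht₀, hz t₀ ht₀] at hd
  have hd0 : HasDerivWithinAt (fun t => X t 0) 0 (Ici 0) t₀ := by
    refine (hasDerivWithinAt_const t₀ (Ici 0) (0 : ℝ)).congr (fun t ht => hx t ht) (hx t₀ ht₀)
  have huniq : UniqueDiffWithinAt ℝ (Ici (0 : ℝ)) t₀ := by
    have := (uniqueDiffOn_Ici (0 : ℝ)) t₀ ht₀
    exact this
  exact hne (huniq.eq_deriv _ hd hd0)

end curve

end Vale.Agent.Lib.P113
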