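import Vale.Agent.Lib.P113.RatCode

/-!
Effective real-valued functions: functions which are approximated from below and from above by
computable sequences of rationals. Closure properties.
-/

open Filter Topology

namespace Vale.Agent.Lib.P113

variable {α β : Type*} [Primcodable α] [Primcodable β]

/-- `F` is effective if it has computable lower and upper rational approximations converging to
it (no rate of convergence is asked for). -/
def Eff (F : α → ℝ) : Prop :=
  ∃ lo hi : α → ℕ → RatCode, Computable₂ lo ∧ Computable₂ hi ∧ ∀ a,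
    (∀ n, ratVal (lo a n) ≤ F a ∧ F a ≤ ratVal (hi a n)) ∧
    Tendsto (fun n => ratVal (lo a n)) atTop (𝓝 (F a)) ∧
    Tendsto (fun n => ratVal (hi a n)) atTop (𝓝 (F a))

theorem Eff.congr {F G : α → ℝ} (h : Eff F) (e : ∀ a, G a = F a) : Eff G := by
  have : G = F := funext e
  rwa [this]

theorem Eff.of_code {q : α → RatCode} (hq : Computable q) : Eff (fun a => ratVal (q a)) := by
  refine ⟨fun a _ => q a, fun a _ => q a, hq.comp Computable.fst, hq.comp Computable.fst, ?_⟩
  intro a
  exact ⟨fun _ => ⟨le_rfl, le_rfl⟩, tendsto_const_nhds, tendsto_const_nhds⟩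

theorem Eff.const_code (q : RatCode) : Eff (fun _ : α => ratVal q) :=
  Eff.of_code (Computable.const q)

theorem Eff.comp {F : α → ℝ} (h : Eff F) {φ : β → α} (hφ : Computable φ) :
    Eff (fun b => F (φ b)) := by
  obtain ⟨lo, hi, hlo, hhi, H⟩ := h
  refine ⟨fun b n => lo (φ b) n, fun b n => hi (φ b) n,
    hlo.comp (hφ.comp Computable.fst) Computable.snd,
    hhi.comp (hφ.comp Computable.fst) Computable.snd, fun b => H (φ b)⟩

theorem Eff.add {F G : α → ℝ} (hF : Eff F) (hG : Eff G) : Eff (fun a => F a + G a) := by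
  obtain ⟨lo, hi, hlo, hhi, H⟩ := hF
  obtain ⟨lo', hi', hlo', hhi', H'⟩ := hG
  refine ⟨fun a n => qadd (lo a n) (lo' a n), fun a n => qadd (hi a n) (hi' a n),
    primrec_qadd.to_comp.comp hlo hlo', primrec_qadd.to_comp.comp hhi hhi', ?_⟩
  intro a
  obtain ⟨h1, h2, h3⟩ := H a
  obtain ⟨h1', h2', h3'⟩ := H' a
  refine ⟨fun n => ?_, ?_, ?_⟩
  · simp only [ratVal_add]
    exact ⟨add_le_add (h1 n).1 (h1' n).1, add_le_add (h1 n).2 (h1' n).2⟩
  · simp only [ratVal_add]
    exact h2.add h2'
  · simp only [ratVal_add]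
    exact h3.add h3'

theorem Eff.neg {F : α → ℝ} (hF : Eff F) : Eff (fun a => - F a) := by
  obtain ⟨lo, hi, hlo, hhi, H⟩ := hF
  refine ⟨fun a n => qneg (hi a n), fun a n => qneg (lo a n),
    primrec_qneg.to_comp.comp hhi, primrec_qneg.to_comp.comp hlo, ?_⟩
  intro a
  obtain ⟨h1, h2, h3⟩ := H a
  refine ⟨fun n => ?_, ?_, ?_⟩
  · simp only [ratVal_neg]
    exact ⟨neg_le_neg (h1 n).2, neg_le_neg (h1 n).1⟩
  · simp only [ratVal_neg]
    exact h3.neg
  · simp only [ratVal_neg]
    exact h2.neg

theorem Eff.sub {F G : α → ℝ} (hF : Eff F) (hG : Eff G) : Eff (fun a => F a - G a) := by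
  simpa [sub_eq_add_neg] using hF.add hG.neg

/-- Bilinear bracket for products. -/
theorem mul_bracket_aux {l h x y : ℝ} (h1 : l ≤ x) (h2 : x ≤ h) :
    min (l * y) (h * y) ≤ x * y ∧ x * y ≤ max (l * y) (h * y) := by
  rcases le_total 0 y with hy | hy
  · exact ⟨(min_le_left _ _).trans (mul_le_mul_of_nonneg_right h1 hy),
      (mul_le_mul_of_nonneg_right h2 hy).trans (le_max_right _ _)⟩
  · exact ⟨(min_le_right _ _).trans (mul_le_mul_of_nonpos_right h2 hy),
      (mul_le_mul_of_nonpos_right h1 hy).trans (le_max_left _ _)⟩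

theorem mul_bracket {l h l' h' x y : ℝ} (h1 : l ≤ x) (h2 : x ≤ h) (h1' : l' ≤ y) (h2' : y ≤ h') :
    min (min (l * l') (l * h')) (min (h * l') (h * h')) ≤ x * y ∧
      x * y ≤ max (max (l * l') (l * h')) (max (h * l') (h * h')) := by
  have A := mul_bracket_aux (y := y) h1 h2
  have B : min (l * l') (l * h') ≤ l * y ∧ l * y ≤ max (l * l') (l * h') := by
    have := mul_bracket_aux (y := l) h1' h2'
    simpa [mul_comm] using this
  have C : min (h * l') (h * h') ≤ h * y ∧ h * y ≤ max (h * l') (h * h') := by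
    have := mul_bracket_aux (y := h) h1' h2'
    simpa [mul_comm] using this
  constructor
  · refine le_trans ?_ A.1
    exact le_min ((min_le_left _ _).trans B.1) ((min_le_right _ _).trans C.1)
  · refine le_trans A.2 ?_
    exact max_le (B.2.trans (le_max_left _ _)) (C.2.trans (le_max_right _ _))

theorem Eff.mul {F G : α → ℝ} (hF : Eff F) (hG : Eff G) : Eff (fun a => F a * G a) := by
  obtain ⟨lo, hi, hlo, hhi, H⟩ := hF
  obtain ⟨lo', hi', hlo', hhi', H'⟩ := hG
  have mlo := primrec_qmul.to_comp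
  have cll := mlo.comp hlo hlo'
  have clh := mlo.comp hlo hhi'
  have chl := mlo.comp hhi hlo'
  have chh := mlo.comp hhi hhi'
  refine ⟨fun a n => qmin (qmin (qmul (lo a n) (lo' a n)) (qmul (lo a n) (hi' a n)))
      (qmin (qmul (hi a n) (lo' a n)) (qmul (hi a n) (hi' a n))),
    fun a n => qmax (qmax (qmul (lo a n) (lo' a n)) (qmul (lo a n) (hi' a n)))
      (qmax (qmul (hi a n) (lo' a n)) (qmul (hi a n) (hi' a n))),
    primrec_qmin.to_comp.comp (primrec_qmin.to_comp.comp cll clh)
      (primrec_qmin.to_comp.comp chl chh),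
    primrec_qmax.to_comp.comp (primrec_qmax.to_comp.comp cll clh)
      (primrec_qmax.to_comp.comp chl chh), ?_⟩
  intro a
  obtain ⟨h1, h2, h3⟩ := H a
  obtain ⟨h1', h2', h3'⟩ := H' a
  refine ⟨fun n => ?_, ?_, ?_⟩
  · simp only [ratVal_min, ratVal_max, ratVal_mul]
    exact mul_bracket (h1 n).1 (h1 n).2 (h1' n).1 (h1' n).2
  · simp only [ratVal_min, ratVal_mul]
    have e : F a * G a = min (min (F a * G a) (F a * G a)) (min (F a * G a) (F a * G a)) := by
      simp
    rw [e]
    exact ((h2.mul h2').min (h2.mul h3')).min ((h3.mul h2').min (h3.mul h3'))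
  · simp only [ratVal_max, ratVal_mul]
    have e : F a * G a = max (max (F a * G a) (F a * G a)) (max (F a * G a) (F a * G a)) := by
      simp
    rw [e]
    exact ((h2.mul h2').max (h2.mul h3')).max ((h3.mul h2').max (h3.mul h3'))

theorem Eff.ite {c : α → Bool} (hc : Computable c) {F G : α → ℝ} (hF : Eff F) (hG : Eff G) :
    Eff (fun a => if c a = true then F a else G a) := by
  obtain ⟨lo, hi, hlo, hhi, H⟩ := hF
  obtain ⟨lo', hi', hlo', hhi', H'⟩ := hG
  refine ⟨fun a n => cond (c a) (lo a n) (lo' a n), fun a n => cond (c a) (hi a n) (hi' a n),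
    Computable.cond (hc.comp Computable.fst) hlo hlo',
    Computable.cond (hc.comp Computable.fst) hhi hhi', ?_⟩
  intro a
  cases h : c a
  · simpa [h] using H' a
  · simpa [h] using H a

/-- Iterated sum of codes. -/
def qsum (f : ℕ → RatCode) (m : ℕ) : RatCode :=
  Nat.rec (motive := fun _ => RatCode) (qnat 0) (fun i acc => qadd acc (f i)) m

theorem ratVal_qsum (f : ℕ → RatCode) (m : ℕ) :
    ratVal (qsum f m) = ∑ i ∈ Finset.range m, ratVal (f i) := by
  induction m with
  | zero => simp [qsum]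
  | succ m ih =>
    have : qsum f (m + 1) = qadd (qsum f m) (f m) := rfl
    rw [this, ratVal_add, ih, Finset.sum_range_succ]

theorem computable_qsum {γ : Type*} [Primcodable γ] {f : γ → ℕ → RatCode} (hf : Computable₂ f)
    {N : γ → ℕ} (hN : Computable N) : Computable (fun a => qsum (f a) (N a)) := by
  have hh : Computable₂ (fun (a : γ) (p : ℕ × RatCode) => qadd p.2 (f a p.1)) :=
    Computable₂.comp primrec_qadd.to_comp
      (Computable.snd.comp (Computable.snd (α := γ) (β := ℕ × RatCode)))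
      (hf.comp (Computable.fst (α := γ) (β := ℕ × RatCode))
        (Computable.fst.comp (Computable.snd (α := γ) (β := ℕ × RatCode))))
  have := Computable.nat_rec hN (Computable.const (qnat 0)) hh
  exact this

theorem Eff.sum {F : α × ℕ → ℝ} (hF : Eff F) {N : α → ℕ} (hN : Computable N) :
    Eff (fun a => ∑ i ∈ Finset.range (N a), F (a, i)) := by
  obtain ⟨lo, hi, hlo, hhi, H⟩ := hF
  have mk : ∀ {l : α × ℕ → ℕ → RatCode}, Computable₂ l →
      Computable₂ (fun (a : α) (n : ℕ) => qsum (fun i => l (a, i) n) (N a)) := by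
    intro l hl
    have h1 : Computable₂ (fun (x : α × ℕ) (i : ℕ) => l (x.1, i) x.2) :=
      hl.comp (Computable.pair (Computable.fst.comp (Computable.fst (α := α × ℕ) (β := ℕ)))
          (Computable.snd (α := α × ℕ) (β := ℕ)))
        (Computable.snd.comp (Computable.fst (α := α × ℕ) (β := ℕ)))
    exact computable_qsum h1 (hN.comp Computable.fst)
  refine ⟨fun a n => qsum (fun i => lo (a, i) n) (N a),
    fun a n => qsum (fun i => hi (a, i) n) (N a), mk hlo, mk hhi, ?_⟩
  intro a
  refine ⟨fun n => ?_, ?_, ?_⟩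
  · simp only [ratVal_qsum]
    exact ⟨Finset.sum_le_sum fun i _ => ((H (a, i)).1 n).1,
      Finset.sum_le_sum fun i _ => ((H (a, i)).1 n).2⟩
  · simp only [ratVal_qsum]
    exact tendsto_finsetSum _ fun i _ => (H (a, i)).2.1
  · simp only [ratVal_qsum]
    exact tendsto_finsetSum _ fun i _ => (H (a, i)).2.2

/-! ### Computable real numbers -/

theorem Eff.of_computableReal {x : ℝ} (hx : IsComputableReal x) : Eff (fun _ : α => x) := by
  obtain ⟨φ, hφ, H⟩ := hx
  have hhalf : ratVal ((1, 0, 1) : RatCode) = 1 / 2 := by norm_num [ratVal]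
  have herr : Computable (fun n : ℕ => qpow (1, 0, 1) n) :=
    primrec_qpow.to_comp.comp (Computable.const _) Computable.id
  have hlim : Tendsto (fun n : ℕ => ((1 / 2 : ℝ)) ^ n) atTop (𝓝 0) :=
    tendsto_pow_atTop_nhds_zero_of_lt_one (by norm_num) (by norm_num)
  have hφlim : Tendsto (fun n => ratVal (φ n)) atTop (𝓝 x) := by
    rw [tendsto_iff_dist_tendsto_zero]
    refine squeeze_zero (fun _ => dist_nonneg) (fun n => ?_) hlim
    rw [Real.dist_eq, abs_sub_comm]
    exact H n
  refine ⟨fun _ n => qsub (φ n) (qpow (1, 0, 1) n), fun _ n => qadd (φ n) (qpow (1, 0, 1) n),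
    primrec_qsub.to_comp.comp (hφ.comp Computable.snd) (herr.comp Computable.snd),
    primrec_qadd.to_comp.comp (hφ.comp Computable.snd) (herr.comp Computable.snd), ?_⟩
  intro _
  refine ⟨fun n => ?_, ?_, ?_⟩
  · simp only [ratVal_sub, ratVal_add, ratVal_pow, hhalf]
    have := abs_le.1 (H n)
    constructor <;> linarith [this.1, this.2]
  · simp only [ratVal_sub, ratVal_pow, hhalf]
    simpa using hφlim.sub hlim
  · simp only [ratVal_add, ratVal_pow, hhalf]
    simpa using hφlim.add hlim

/-! ### The exponential function at rational points -/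

/-- Code of `1 / (n + 1)`. -/
def qunit (n : ℕ) : RatCode := (1, 0, n)

@[simp] theorem ratVal_qunit (n : ℕ) : ratVal (qunit n) = 1 / ((n : ℝ) + 1) := by
  simp [ratVal, qunit]

theorem primrec_qunit : Primrec qunit :=
  Primrec.pair (Primrec.const 1) (Primrec.pair (Primrec.const 0) Primrec.id)

theorem Eff.exp_neg {y : α → RatCode} (hy : Computable y) (hpos : ∀ a, 0 ≤ ratVal (y a)) :
    Eff (fun a => Real.exp (- ratVal (y a))) := by
  have cu : Computable₂ (fun (_ : α) (n : ℕ) => qunit n) :=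
    primrec_qunit.to_comp.comp Computable.snd
  have cy : Computable₂ (fun (a : α) (_ : ℕ) => y a) := hy.comp Computable.fst
  have cn : Computable₂ (fun (_ : α) (n : ℕ) => n + 1) :=
    Computable.succ.comp Computable.snd
  have cmul : Computable₂ (fun (a : α) (n : ℕ) => qmul (y a) (qunit n)) :=
    primrec_qmul.to_comp.comp cy cu
  have c1 : Computable₂ (fun (_ : α) (_ : ℕ) => qnat 1) := Computable.const _
  have c0 : Computable₂ (fun (_ : α) (_ : ℕ) => qnat 0) := Computable.const _
  refine ⟨fun a n => qpow (qmax (qnat 0) (qsub (qnat 1) (qmul (y a) (qunit n)))) (n + 1),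
    fun a n => qinv (qpow (qadd (qnat 1) (qmul (y a) (qunit n))) (n + 1)),
    primrec_qpow.to_comp.comp
      (primrec_qmax.to_comp.comp c0 (primrec_qsub.to_comp.comp c1 cmul)) cn,
    primrec_qinv.to_comp.comp (primrec_qpow.to_comp.comp
      (primrec_qadd.to_comp.comp c1 cmul) cn), ?_⟩
  intro a
  set Y := ratVal (y a) with hY
  have hY0 : 0 ≤ Y := hpos a
  have hlow : ∀ n : ℕ, (max 0 (1 - Y * (1 / ((n : ℝ) + 1)))) ^ (n + 1) ≤ Real.exp (-Y) := by
    intro n
    have hn : ((n : ℝ) + 1) ≠ 0 := den_ne n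
    have e : Real.exp (-Y) = (Real.exp (-(Y * (1 / ((n : ℝ) + 1))))) ^ (n + 1) := by
      rw [← Real.exp_nat_mul]
      congr 1
      push_cast
      field_simp
    rw [e]
    refine pow_le_pow_left₀ (le_max_left _ _) ?_ _
    refine max_le (Real.exp_pos _).le ?_
    have := Real.add_one_le_exp (-(Y * (1 / ((n : ℝ) + 1))))
    linarith
  have hupp : ∀ n : ℕ, Real.exp (-Y) ≤ ((1 + Y * (1 / ((n : ℝ) + 1))) ^ (n + 1))⁻¹ := by
    intro n
    have hn : ((n : ℝ) + 1) ≠ 0 := den_ne n
    have hpos' : 0 < 1 + Y * (1 / ((n : ℝ) + 1)) := by positivity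
    rw [Real.exp_neg]
    refine inv_anti₀ (by positivity) ?_
    have e : Real.exp Y = (Real.exp (Y * (1 / ((n : ℝ) + 1)))) ^ (n + 1) := by
      rw [← Real.exp_nat_mul]
      congr 1
      push_cast
      field_simp
    rw [e]
    refine pow_le_pow_left₀ hpos'.le ?_ _
    have := Real.add_one_le_exp (Y * (1 / ((n : ℝ) + 1)))
    linarith
  have hnn : Tendsto (fun n : ℕ => n + 1) atTop atTop := tendsto_add_atTop_nat 1
  have lim1 : Tendsto (fun n : ℕ => (1 + (-Y) / ((n + 1 : ℕ) : ℝ)) ^ (n + 1)) atTop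
      (𝓝 (Real.exp (-Y))) := (Real.tendsto_one_add_div_pow_exp (-Y)).comp hnn
  have lim2 : Tendsto (fun n : ℕ => (1 + Y / ((n + 1 : ℕ) : ℝ)) ^ (n + 1)) atTop
      (𝓝 (Real.exp Y)) := (Real.tendsto_one_add_div_pow_exp Y).comp hnn
  refine ⟨fun n => ?_, ?_, ?_⟩
  · simp only [ratVal_pow, ratVal_max, ratVal_sub, ratVal_mul, ratVal_qunit, ratVal_nat, ratVal_inv,
      ratVal_add, Nat.cast_zero, Nat.cast_one]
    exact ⟨hlow n, hupp n⟩
  · simp only [ratVal_pow, ratVal_max, ratVal_sub, ratVal_mul, ratVal_qunit, ratVal_nat,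
      Nat.cast_zero, Nat.cast_one]
    refine Tendsto.congr' ?_ lim1
    have hev : ∀ᶠ n : ℕ in atTop, Y ≤ (n : ℝ) + 1 := by
      filter_upwards [eventually_ge_atTop (Nat.ceil Y)] with n hn
      have := Nat.le_ceil Y
      have h2 : ((Nat.ceil Y : ℕ) : ℝ) ≤ n := by exact_mod_cast hn
      linarith
    filter_upwards [hev] with n hn
    have hn' : (0 : ℝ) < (n : ℝ) + 1 := by positivity
    have h3 : 0 ≤ 1 - Y * (1 / ((n : ℝ) + 1)) := by
      rw [mul_one_div, sub_nonneg, div_le_one hn']
      exact hn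
    rw [max_eq_right h3]
    congr 1
    push_cast
    field_simp
    ring
  · simp only [ratVal_pow, ratVal_inv, ratVal_add, ratVal_mul, ratVal_qunit, ratVal_nat,
      Nat.cast_one]
    have e : Real.exp (-Y) = (Real.exp Y)⁻¹ := Real.exp_neg Y
    rw [e]
    refine Tendsto.congr (fun n => ?_) (lim2.inv₀ (Real.exp_pos Y).ne')
    congr 2
    push_cast
    ring

/-! ### The number π -/

/-- Code of `(-1)^i / (2 i + 1)`. -/
def piTerm (i : ℕ) : RatCode := cond (Nat.bodd i) (0, 1, 2 * i) (1, 0, 2 * i)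

theorem ratVal_piTerm (i : ℕ) : ratVal (piTerm i) = (-1) ^ i / (2 * (i : ℝ) + 1) := by
  unfold piTerm
  have hm := Nat.mod_two_of_bodd i
  cases hb : Nat.bodd i with
  | false =>
    rw [hb] at hm
    have hE : Even i := Nat.even_iff.2 (by simpa using hm)
    simp [ratVal, hE.neg_one_pow]
  | true =>
    rw [hb] at hm
    have hO : Odd i := Nat.odd_iff.2 (by simpa using hm)
    simp [ratVal, hO.neg_one_pow]

theorem primrec_piTerm : Primrec piTerm := by
  have h1 : Primrec (fun i : ℕ => 2 * i) := Primrec.nat_mul.comp (Primrec.const 2) Primrec.id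
  exact Primrec.cond Primrec.nat_bodd
    (Primrec.pair (Primrec.const 0) (Primrec.pair (Primrec.const 1) h1))
    (Primrec.pair (Primrec.const 1) (Primrec.pair (Primrec.const 0) h1))

theorem computable_piSum : Computable (fun m : ℕ => qsum piTerm m) := by
  have h1 : Computable₂ (fun (_ : ℕ) (i : ℕ) => piTerm i) :=
    primrec_piTerm.to_comp.comp Computable.snd
  exact computable_qsum h1 Computable.id

theorem ratVal_piSum (m : ℕ) :
    ratVal (qsum piTerm m) = ∑ i ∈ Finset.range m, (-1 : ℝ) ^ i / (2 * (i : ℝ) + 1) := by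
  rw [ratVal_qsum]
  exact Finset.sum_congr rfl fun i _ => ratVal_piTerm i

theorem Eff.pi : Eff (fun _ : α => Real.pi) := by
  have hanti : Antitone (fun i : ℕ => 1 / (2 * (i : ℝ) + 1)) := by
    intro i j hij
    have : (i : ℝ) ≤ j := by exact_mod_cast hij
    apply one_div_le_one_div_of_le (by positivity)
    linarith
  have hlim : Tendsto (fun n : ℕ => ∑ i ∈ Finset.range n, (-1 : ℝ) ^ i * (1 / (2 * (i : ℝ) + 1)))
      atTop (𝓝 (Real.pi / 4)) := by
    refine Real.tendsto_sum_pi_div_four.congr (fun n => ?_)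
    exact Finset.sum_congr rfl fun i _ => by ring
  have hlow := Antitone.alternating_series_le_tendsto hlim hanti
  have hupp := Antitone.tendsto_le_alternating_series hlim hanti
  have conv : ∀ m : ℕ, ∑ i ∈ Finset.range m, (-1 : ℝ) ^ i * (1 / (2 * (i : ℝ) + 1)) =
      ratVal (qsum piTerm m) := by
    intro m
    rw [ratVal_piSum]
    exact Finset.sum_congr rfl fun i _ => by ring
  have c4 : ratVal (qnat 4) = 4 := by simp
  have clo : Computable₂ (fun (_ : α) (n : ℕ) => qmul (qnat 4) (qsum piTerm (2 * n))) :=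
    primrec_qmul.to_comp.comp (Computable.const _) (computable_piSum.comp
      ((Primrec.nat_mul.comp (Primrec.const 2) Primrec.snd).to_comp))
  have chi : Computable₂ (fun (_ : α) (n : ℕ) => qmul (qnat 4) (qsum piTerm (2 * n + 1))) :=
    primrec_qmul.to_comp.comp (Computable.const _) (computable_piSum.comp
      ((Primrec.nat_add.comp (Primrec.nat_mul.comp (Primrec.const 2) Primrec.snd)
        (Primrec.const 1)).to_comp))
  refine ⟨_, _, clo, chi, ?_⟩
  intro _
  refine ⟨fun n => ?_, ?_, ?_⟩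
  · simp only [ratVal_mul, c4]
    have h1 := hlow n
    have h2 := hupp n
    rw [conv] at h1 h2
    constructor <;> linarith
  · simp only [ratVal_mul, c4]
    have h : Tendsto (fun n : ℕ => ratVal (qsum piTerm (2 * n))) atTop (𝓝 (Real.pi / 4)) := by
      have h2 : Tendsto (fun n : ℕ => 2 * n) atTop atTop :=
        tendsto_id.const_mul_atTop' (by norm_num)
      refine (hlim.comp h2).congr (fun n => ?_)
      exact conv _
    have := h.const_mul 4
    simpa [mul_div_cancel₀] using this
  · simp only [ratVal_mul, c4]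
    have h : Tendsto (fun n : ℕ => ratVal (qsum piTerm (2 * n + 1))) atTop (𝓝 (Real.pi / 4)) := by
      have h2 : Tendsto (fun n : ℕ => 2 * n + 1) atTop atTop :=
        tendsto_atTop_mono (fun n => by show n ≤ 2 * n + 1; omega) tendsto_id
      refine (hlim.comp h2).congr (fun n => ?_)
      exact conv _
    have := h.const_mul 4
    simpa [mul_div_cancel₀] using this

end Vale.Agent.Lib.P113
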