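import Vale.Agent.Lib.P113.Eff

/-!
Effectiveness of the sine and cosine of effective reals, and the passage from an effective
function to a partial recursive approximation procedure.
-/

open Filter Topology

namespace Vale.Agent.Lib.P113

variable {α β : Type*} [Primcodable α] [Primcodable β]

/-- State of the Taylor computation of `exp (i r)`: the real and imaginary parts of the partial sum
of the first `k` terms, and of the term number `k`. -/
def tay (r : RatCode) (k : ℕ) : RatCode × RatCode × RatCode × RatCode :=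
  Nat.rec (motive := fun _ => RatCode × RatCode × RatCode × RatCode)
    (qnat 0, qnat 0, qnat 1, qnat 0)
    (fun k s => (qadd s.1 s.2.2.1, qadd s.2.1 s.2.2.2,
      qmul (qneg s.2.2.2) (qmul r (qunit k)), qmul s.2.2.1 (qmul r (qunit k)))) k

theorem primrec_tay : Primrec₂ tay := by
  have hh : Primrec₂ (fun (a : RatCode × ℕ) (p : ℕ × (RatCode × RatCode × RatCode × RatCode)) =>
      ((qadd p.2.1 p.2.2.2.1, qadd p.2.2.1 p.2.2.2.2,
      qmul (qneg p.2.2.2.2) (qmul a.1 (qunit p.1)), qmul p.2.2.2.1 (qmul a.1 (qunit p.1))) :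
        RatCode × RatCode × RatCode × RatCode)) := by
    have sn : Primrec (fun x : (RatCode × ℕ) × (ℕ × (RatCode × RatCode × RatCode × RatCode)) =>
        x.2.2) := Primrec.snd.comp Primrec.snd
    have s1 : Primrec (fun x : (RatCode × ℕ) × (ℕ × (RatCode × RatCode × RatCode × RatCode)) =>
        x.2.2.1) := Primrec.fst.comp sn
    have s2 : Primrec (fun x : (RatCode × ℕ) × (ℕ × (RatCode × RatCode × RatCode × RatCode)) =>
        x.2.2.2.1) := Primrec.fst.comp (Primrec.snd.comp sn)
    have s3 : Primrec (fun x : (RatCode × ℕ) × (ℕ × (RatCode × RatCode × RatCode × RatCode)) =>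
        x.2.2.2.2.1) := Primrec.fst.comp (Primrec.snd.comp (Primrec.snd.comp sn))
    have s4 : Primrec (fun x : (RatCode × ℕ) × (ℕ × (RatCode × RatCode × RatCode × RatCode)) =>
        x.2.2.2.2.2) := Primrec.snd.comp (Primrec.snd.comp (Primrec.snd.comp sn))
    have hr : Primrec (fun x : (RatCode × ℕ) × (ℕ × (RatCode × RatCode × RatCode × RatCode)) =>
        qmul x.1.1 (qunit x.2.1)) :=
      primrec_qmul.comp (Primrec.fst.comp Primrec.fst)
        (primrec_qunit.comp (Primrec.fst.comp Primrec.snd))
    exact Primrec.pair (primrec_qadd.comp s1 s3) (Primrec.pair (primrec_qadd.comp s2 s4)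
      (Primrec.pair (primrec_qmul.comp (primrec_qneg.comp s4) hr) (primrec_qmul.comp s3 hr)))
  have h : Primrec fun x : RatCode × ℕ =>
      Nat.rec (motive := fun _ => RatCode × RatCode × RatCode × RatCode)
        (qnat 0, qnat 0, qnat 1, qnat 0)
        (fun y IH => (fun (a : RatCode × ℕ)
          (p : ℕ × (RatCode × RatCode × RatCode × RatCode)) =>
            ((qadd p.2.1 p.2.2.2.1, qadd p.2.2.1 p.2.2.2.2,
            qmul (qneg p.2.2.2.2) (qmul a.1 (qunit p.1)), qmul p.2.2.2.1 (qmul a.1 (qunit p.1))) :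
              RatCode × RatCode × RatCode × RatCode)) x (y, IH)) x.2 :=
    Primrec.nat_rec' Primrec.snd (Primrec.const _) hh
  exact h

theorem tay_invariant (r : RatCode) (k : ℕ) :
    ((ratVal (tay r k).1 : ℂ) + (ratVal (tay r k).2.1 : ℂ) * Complex.I =
      ∑ m ∈ Finset.range k, ((ratVal r : ℂ) * Complex.I) ^ m / (m.factorial : ℂ)) ∧
    ((ratVal (tay r k).2.2.1 : ℂ) + (ratVal (tay r k).2.2.2 : ℂ) * Complex.I =
      ((ratVal r : ℂ) * Complex.I) ^ k / (k.factorial : ℂ)) := by
  induction k with
  | zero => simp [tay]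
  | succ k ih =>
    obtain ⟨h1, h2⟩ := ih
    have e : tay r (k + 1) = (qadd (tay r k).1 (tay r k).2.2.1, qadd (tay r k).2.1 (tay r k).2.2.2,
      qmul (qneg (tay r k).2.2.2) (qmul r (qunit k)),
      qmul (tay r k).2.2.1 (qmul r (qunit k))) := rfl
    rw [e]
    constructor
    · simp only [ratVal_add, Complex.ofReal_add, Finset.sum_range_succ, ← h1, ← h2]
      ring
    · simp only [ratVal_mul, ratVal_neg, ratVal_qunit, Complex.ofReal_mul, Complex.ofReal_neg,
        Complex.ofReal_div, Complex.ofReal_one, Complex.ofReal_add, Complex.ofReal_natCast]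
      have hk : ((k : ℂ) + 1) ≠ 0 := by exact_mod_cast Nat.succ_ne_zero k
      have hfk : ((k.factorial : ℂ)) ≠ 0 := by exact_mod_cast Nat.factorial_ne_zero k
      have hfac : (((k + 1).factorial : ℕ) : ℂ) = ((k : ℂ) + 1) * (k.factorial : ℂ) := by
        rw [Nat.factorial_succ]
        push_cast
        ring
      rw [hfac, pow_succ]
      set x : ℂ := (ratVal r : ℂ) * Complex.I with hx
      have e2 : x ^ k * x / (((k : ℂ) + 1) * (k.factorial : ℂ)) =
          (x ^ k / (k.factorial : ℂ)) * (x / ((k : ℂ) + 1)) := by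
        field_simp
      rw [e2, ← h2, hx]
      have hI : Complex.I * Complex.I = -1 := Complex.I_mul_I
      linear_combination (-((ratVal (tay r k).2.2.2 : ℂ) * (ratVal r : ℂ) / ((k : ℂ) + 1))) * hI

/-- Guard: the Taylor remainder estimate applies. -/
def tguard (r : RatCode) (n : ℕ) : Bool := qle (qmul (qnat 2) (qabs r)) (qnat (n + 1))

/-- Error term of the Taylor partial sum. -/
def terr (r : RatCode) (n : ℕ) : RatCode :=
  qmul (qnat 2) (qadd (qabs (tay r n).2.2.1) (qabs (tay r n).2.2.2))

theorem primrec_tguard : Primrec₂ tguard :=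
  primrec_qle.comp (primrec_qmul.comp (Primrec.const _) (primrec_qabs.comp Primrec.fst))
    (primrec_qnat.comp (Primrec.nat_add.comp Primrec.snd (Primrec.const 1)))

theorem primrec_terr : Primrec₂ terr := by
  have h : Primrec (fun x : RatCode × ℕ => tay x.1 x.2) := primrec_tay
  exact primrec_qmul.comp (Primrec.const _) (primrec_qadd.comp
    (primrec_qabs.comp (Primrec.fst.comp (Primrec.snd.comp (Primrec.snd.comp h))))
    (primrec_qabs.comp (Primrec.snd.comp (Primrec.snd.comp (Primrec.snd.comp h)))))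

theorem term_norm_le (r : RatCode) (n : ℕ) :
    ‖(ratVal (tay r n).2.2.1 : ℂ) + (ratVal (tay r n).2.2.2 : ℂ) * Complex.I‖ ≤
      |ratVal (tay r n).2.2.1| + |ratVal (tay r n).2.2.2| := by
  have := Complex.norm_le_abs_re_add_abs_im
    ((ratVal (tay r n).2.2.1 : ℂ) + (ratVal (tay r n).2.2.2 : ℂ) * Complex.I)
  simpa using this

theorem abs_parts_le (r : RatCode) (n : ℕ) :
    |ratVal (tay r n).2.2.1| + |ratVal (tay r n).2.2.2| ≤ 2 * (|ratVal r| ^ n / (n.factorial : ℝ)) := by
  have h2 := (tay_invariant r n).2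
  have hn : ‖((ratVal r : ℂ) * Complex.I) ^ n / (n.factorial : ℂ)‖ = |ratVal r| ^ n / (n.factorial : ℝ) := by
    simp [norm_pow]
  have hre : |ratVal (tay r n).2.2.1| ≤ |ratVal r| ^ n / (n.factorial : ℝ) := by
    rw [← hn, ← h2]
    have := Complex.abs_re_le_norm ((ratVal (tay r n).2.2.1 : ℂ) + (ratVal (tay r n).2.2.2 : ℂ) * Complex.I)
    simpa using this
  have him : |ratVal (tay r n).2.2.2| ≤ |ratVal r| ^ n / (n.factorial : ℝ) := by
    rw [← hn, ← h2]
    have := Complex.abs_im_le_norm ((ratVal (tay r n).2.2.1 : ℂ) + (ratVal (tay r n).2.2.2 : ℂ) * Complex.I)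
    simpa using this
  linarith

theorem taylor_bound (r : RatCode) (n : ℕ) (hg : tguard r n = true) :
    ‖Complex.exp ((ratVal r : ℂ) * Complex.I) -
      ((ratVal (tay r n).1 : ℂ) + (ratVal (tay r n).2.1 : ℂ) * Complex.I)‖ ≤ ratVal (terr r n) := by
  have hg' : 2 * |ratVal r| ≤ (n : ℝ) + 1 := by
    have := (qle_iff _ _).1 hg
    simpa using this
  have hx : ‖((ratVal r : ℂ) * Complex.I)‖ / (n.succ : ℝ) ≤ 1 / 2 := by
    have h1 : ‖((ratVal r : ℂ) * Complex.I)‖ = |ratVal r| := by simp
    rw [h1, Nat.cast_succ, div_le_iff₀ (by positivity)]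
    linarith
  have hb := Complex.exp_bound' hx
  rw [(tay_invariant r n).1]
  refine hb.trans ?_
  have h2 := (tay_invariant r n).2
  have hn : ‖((ratVal r : ℂ) * Complex.I)‖ ^ n / (n.factorial : ℝ) =
      ‖(ratVal (tay r n).2.2.1 : ℂ) + (ratVal (tay r n).2.2.2 : ℂ) * Complex.I‖ := by
    rw [h2]
    simp [norm_pow]
  rw [hn]
  have := term_norm_le r n
  simp only [terr, ratVal_mul, ratVal_nat, ratVal_add, ratVal_abs]
  push_cast
  linarith

theorem cos_bracket (r : RatCode) (n : ℕ) (hg : tguard r n = true) :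
    |Real.cos (ratVal r) - ratVal (tay r n).1| ≤ ratVal (terr r n) := by
  have h := taylor_bound r n hg
  have h2 := Complex.abs_re_le_norm (Complex.exp ((ratVal r : ℂ) * Complex.I) -
      ((ratVal (tay r n).1 : ℂ) + (ratVal (tay r n).2.1 : ℂ) * Complex.I))
  have h3 : (Complex.exp ((ratVal r : ℂ) * Complex.I) -
      ((ratVal (tay r n).1 : ℂ) + (ratVal (tay r n).2.1 : ℂ) * Complex.I)).re =
      Real.cos (ratVal r) - ratVal (tay r n).1 := by
    simp [Complex.exp_ofReal_mul_I_re]
  rw [h3] at h2
  exact h2.trans h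

theorem sin_bracket (r : RatCode) (n : ℕ) (hg : tguard r n = true) :
    |Real.sin (ratVal r) - ratVal (tay r n).2.1| ≤ ratVal (terr r n) := by
  have h := taylor_bound r n hg
  have h2 := Complex.abs_im_le_norm (Complex.exp ((ratVal r : ℂ) * Complex.I) -
      ((ratVal (tay r n).1 : ℂ) + (ratVal (tay r n).2.1 : ℂ) * Complex.I))
  have h3 : (Complex.exp ((ratVal r : ℂ) * Complex.I) -
      ((ratVal (tay r n).1 : ℂ) + (ratVal (tay r n).2.1 : ℂ) * Complex.I)).im =
      Real.sin (ratVal r) - ratVal (tay r n).2.1 := by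
    simp [Complex.exp_ofReal_mul_I_im]
  rw [h3] at h2
  exact h2.trans h

/-- Abstract effectivity for a 1-Lipschitz function bounded by one, which at rational points has
approximations with the Taylor error. -/
theorem Eff.trig {G : ℝ → ℝ} (hL : ∀ x y, |G x - G y| ≤ |x - y|) (hB : ∀ x, |G x| ≤ 1)
    {C : RatCode → ℕ → RatCode} (hC : Computable₂ C)
    (hbr : ∀ r n, tguard r n = true → |G (ratVal r) - ratVal (C r n)| ≤ ratVal (terr r n))
    {F : α → ℝ} (hF : Eff F) : Eff (fun a => G (F a)) := by
  obtain ⟨lo, hi, hlo, hhi, H⟩ := hF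
  have cg : Computable₂ (fun (a : α) (n : ℕ) => tguard (lo a n) n) :=
    primrec_tguard.to_comp.comp hlo Computable.snd
  have ce : Computable₂ (fun (a : α) (n : ℕ) => terr (lo a n) n) :=
    primrec_terr.to_comp.comp hlo Computable.snd
  have cC : Computable₂ (fun (a : α) (n : ℕ) => C (lo a n) n) :=
    hC.comp hlo Computable.snd
  have cw : Computable₂ (fun (a : α) (n : ℕ) => qsub (hi a n) (lo a n)) :=
    primrec_qsub.to_comp.comp hhi hlo
  -- the approximants
  let L : α → ℕ → RatCode := fun a n => cond (tguard (lo a n) n)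
    (qsub (qsub (C (lo a n) n) (terr (lo a n) n)) (qsub (hi a n) (lo a n)))
    (qsub (qneg (qnat 1)) (qsub (hi a n) (lo a n)))
  let U : α → ℕ → RatCode := fun a n => cond (tguard (lo a n) n)
    (qadd (qadd (C (lo a n) n) (terr (lo a n) n)) (qsub (hi a n) (lo a n)))
    (qadd (qnat 1) (qsub (hi a n) (lo a n)))
  have cL : Computable₂ L := Computable.cond cg
    (primrec_qsub.to_comp.comp (primrec_qsub.to_comp.comp cC ce) cw)
    (primrec_qsub.to_comp.comp (Computable.const _) cw)
  have cU : Computable₂ U := Computable.cond cg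
    (primrec_qadd.to_comp.comp (primrec_qadd.to_comp.comp cC ce) cw)
    (primrec_qadd.to_comp.comp (Computable.const _) cw)
  refine ⟨L, U, cL, cU, ?_⟩
  intro a
  obtain ⟨h1, h2, h3⟩ := H a
  set x := F a with hx
  -- bracket
  have hlip : ∀ n, |G x - G (ratVal (lo a n))| ≤ ratVal (hi a n) - ratVal (lo a n) := by
    intro n
    refine (hL _ _).trans ?_
    rw [abs_of_nonneg (by linarith [(h1 n).1])]
    linarith [(h1 n).2]
  have hbrk : ∀ n, ratVal (L a n) ≤ G x ∧ G x ≤ ratVal (U a n) := by
    intro n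
    have hl := abs_le.1 (hlip n)
    have hb := abs_le.1 (hB x)
    simp only [L, U]
    cases hg : tguard (lo a n) n with
    | false =>
      simp only [cond_false, ratVal_sub, ratVal_neg, ratVal_nat, ratVal_add, Nat.cast_one]
      have hw : 0 ≤ ratVal (hi a n) - ratVal (lo a n) := by linarith [(h1 n).1, (h1 n).2]
      constructor <;> linarith [hb.1, hb.2]
    | true =>
      have hr := abs_le.1 (hbr _ _ hg)
      simp only [cond_true, ratVal_sub, ratVal_add]
      constructor <;> linarith [hl.1, hl.2, hr.1, hr.2]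
  -- convergence
  have hw : Tendsto (fun n => ratVal (hi a n) - ratVal (lo a n)) atTop (𝓝 0) := by
    simpa using h3.sub h2
  have hGl : Tendsto (fun n => G (ratVal (lo a n))) atTop (𝓝 (G x)) := by
    rw [tendsto_iff_dist_tendsto_zero]
    have hd : Tendsto (fun n => dist (ratVal (lo a n)) x) atTop (𝓝 0) :=
      (tendsto_iff_dist_tendsto_zero).1 h2
    refine squeeze_zero (fun _ => dist_nonneg) (fun n => ?_) hd
    rw [Real.dist_eq, Real.dist_eq]
    exact hL _ _
  obtain ⟨R, hR0, hR⟩ : ∃ R : ℝ, 0 ≤ R ∧ ∀ n, |ratVal (lo a n)| ≤ R := by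
    obtain ⟨R0, hR0⟩ := (h2.abs).bddAbove_range
    refine ⟨max R0 0, le_max_right _ _, fun n => ?_⟩
    exact (hR0 (Set.mem_range_self n)).trans (le_max_left _ _)
  have hE0 : Tendsto (fun n => ratVal (terr (lo a n) n)) atTop (𝓝 0) := by
    have hfac := (FloorSemiring.tendsto_pow_div_factorial_atTop R).const_mul (4 : ℝ)
    rw [mul_zero] at hfac
    refine squeeze_zero (fun n => ?_) (fun n => ?_) hfac
    · simp only [terr, ratVal_mul, ratVal_nat, ratVal_add, ratVal_abs]
      positivity
    · have h5 := abs_parts_le (lo a n) n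
      simp only [terr, ratVal_mul, ratVal_nat, ratVal_add, ratVal_abs]
      push_cast
      have h6 : |ratVal (lo a n)| ^ n / (n.factorial : ℝ) ≤ R ^ n / (n.factorial : ℝ) := by
        apply div_le_div_of_nonneg_right _ (by positivity)
        exact pow_le_pow_left₀ (abs_nonneg _) (hR n) n
      linarith
  have hev : ∀ᶠ n : ℕ in atTop, tguard (lo a n) n = true := by
    filter_upwards [eventually_ge_atTop (Nat.ceil (2 * R))] with n hn
    apply (qle_iff _ _).2
    simp only [ratVal_mul, ratVal_nat, ratVal_abs]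
    have h7 := Nat.le_ceil (2 * R)
    have h8 : ((Nat.ceil (2 * R) : ℕ) : ℝ) ≤ n := by exact_mod_cast hn
    have h9 := hR n
    push_cast
    linarith
  have hCl : Tendsto (fun n => ratVal (C (lo a n) n)) atTop (𝓝 (G x)) := by
    have hdiff : Tendsto (fun n => G (ratVal (lo a n)) - ratVal (C (lo a n) n)) atTop (𝓝 0) := by
      refine squeeze_zero_norm' ?_ hE0
      filter_upwards [hev] with n hn
      exact hbr _ _ hn
    have := hGl.sub hdiff
    simpa using this
  refine ⟨hbrk, ?_, ?_⟩
  · have hlim : Tendsto (fun n => ratVal (C (lo a n) n) - ratVal (terr (lo a n) n) -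
        (ratVal (hi a n) - ratVal (lo a n))) atTop (𝓝 (G x)) := by
      simpa using (hCl.sub hE0).sub hw
    refine hlim.congr' ?_
    filter_upwards [hev] with n hn
    simp [L, hn]
  · have hlim : Tendsto (fun n => ratVal (C (lo a n) n) + ratVal (terr (lo a n) n) +
        (ratVal (hi a n) - ratVal (lo a n))) atTop (𝓝 (G x)) := by
      simpa using (hCl.add hE0).add hw
    refine hlim.congr' ?_
    filter_upwards [hev] with n hn
    simp [U, hn]

theorem Eff.cos {F : α → ℝ} (hF : Eff F) : Eff (fun a => Real.cos (F a)) := by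
  refine Eff.trig (G := Real.cos) Real.abs_cos_sub_cos_le (fun x => Real.abs_cos_le_one x)
    (C := fun r n => (tay r n).1) ?_ cos_bracket hF
  exact (Primrec.fst.comp primrec_tay).to_comp

theorem Eff.sin {F : α → ℝ} (hF : Eff F) : Eff (fun a => Real.sin (F a)) := by
  refine Eff.trig (G := Real.sin) Real.abs_sin_sub_sin_le (fun x => Real.abs_sin_le_one x)
    (C := fun r n => (tay r n).2.1) ?_ sin_bracket hF
  exact (Primrec.fst.comp (Primrec.snd.comp primrec_tay)).to_comp

/-! ### From effective functions to partial recursive approximations -/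

/-- An effective function has a partial recursive approximation procedure. -/
theorem Eff.exists_partrec {F : α → ℝ} (hF : Eff F) :
    ∃ g : α × RatCode →. RatCode, Partrec g ∧ ∀ a e, 0 < ratVal e →
      ∃ r ∈ g (a, e), |F a - ratVal r| < ratVal e := by
  obtain ⟨lo, hi, hlo, hhi, H⟩ := hF
  -- the Boolean test: is the width smaller than e, that is, not (e ≤ width)
  let p : α × RatCode → ℕ → Bool := fun x n => !(qle x.2 (qsub (hi x.1 n) (lo x.1 n)))
  have cp : Computable₂ p := by
    have h1 : Computable₂ (fun (x : α × RatCode) (n : ℕ) => hi x.1 n) :=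
      hhi.comp (Computable.fst.comp Computable.fst) Computable.snd
    have h2 : Computable₂ (fun (x : α × RatCode) (n : ℕ) => lo x.1 n) :=
      hlo.comp (Computable.fst.comp Computable.fst) Computable.snd
    have h3 : Computable₂ (fun (x : α × RatCode) (_ : ℕ) => x.2) :=
      Computable.snd.comp Computable.fst
    have h4 := primrec_qle.to_comp.comp h3 (primrec_qsub.to_comp.comp h1 h2)
    exact (Primrec.not.to_comp).comp h4
  let g : α × RatCode →. RatCode := fun x =>
    (Nat.rfind (fun n => Part.some (p x n))).map (fun n => lo x.1 n)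
  have cg : Partrec g := by
    have hr : Partrec fun x : α × RatCode => Nat.rfind (fun n => Part.some (p x n)) := by
      refine Partrec.rfind ?_
      exact cp.partrec₂
    refine hr.map ?_
    exact hlo.comp (Computable.fst.comp Computable.fst) Computable.snd
  refine ⟨g, cg, ?_⟩
  intro a e he
  obtain ⟨h1, h2, h3⟩ := H a
  have hw : Tendsto (fun n => ratVal (hi a n) - ratVal (lo a n)) atTop (𝓝 0) := by
    simpa using h3.sub h2
  have hex : ∃ n, ratVal (hi a n) - ratVal (lo a n) < ratVal e :=
    (hw.eventually (gt_mem_nhds he)).exists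
  have hpm : ∀ n, p (a, e) n = true ↔ ratVal (hi a n) - ratVal (lo a n) < ratVal e := by
    intro n
    simp only [p, Bool.not_eq_true', ]
    have := qle_iff e (qsub (hi a n) (lo a n))
    rw [ratVal_sub] at this
    constructor
    · intro hf
      by_contra hcon
      have h5 : qle e (qsub (hi a n) (lo a n)) = true := this.2 (not_lt.1 hcon)
      simp [h5] at hf
    · intro hlt
      cases hq : qle e (qsub (hi a n) (lo a n)) with
      | false => rfl
      | true => exact absurd (this.1 hq) (not_le.2 hlt)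
  obtain ⟨n₀, hn₀⟩ := hex
  obtain ⟨n, hn, -⟩ := Nat.rfind_min' (p := p (a, e)) ((hpm n₀).2 hn₀)
  have hn' : true ∈ Part.some (p (a, e) n) := Nat.rfind_spec hn
  have hn2 : p (a, e) n = true := (Part.mem_some_iff.1 hn').symm
  refine ⟨lo a n, ?_, ?_⟩
  · exact Part.mem_map_iff _ |>.2 ⟨n, hn, rfl⟩
  · have h6 := (hpm n).1 hn2
    have h7 := h1 n
    rw [abs_of_nonneg (by linarith [h7.1])]
    linarith [h7.2]

end Vale.Agent.Lib.P113
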