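import Vale.Agent.Lib.P113.Mixed

/-!
The force compiler: the mixed derivatives of the force are computable at rational points, uniformly
in the machine and the input.
-/

open Set Filter Topology
open scoped ContDiff Real

namespace Vale.Agent.Lib.P113

/-- The amplitude of the preparation velocity, as a code. -/
def vCode (v : RatCode) (w : Word) : RatCode := qmul v (qpow (1, 0, 1) (Encodable.encode w + 2))

/-- The amplitude of the preparation velocity. -/
noncomputable def Vw (v : RatCode) (w : Word) : ℝ := ratVal v * (1 / 2) ^ (Encodable.encode w + 2)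

theorem ratVal_vCode (v : RatCode) (w : Word) : ratVal (vCode v w) = Vw v w := by
  have hhalf : ratVal ((1, 0, 1) : RatCode) = 1 / 2 := by norm_num [ratVal]
  simp [vCode, Vw, hhalf]

theorem computable_vCode (v : RatCode) : Computable (vCode v) := by
  have h1 : Computable (fun w : Word => Encodable.encode w + 2) :=
    (Primrec.nat_add.to_comp).comp Computable.encode (Computable.const 2)
  have h2 : Computable (fun w : Word => qpow (1, 0, 1) (Encodable.encode w + 2)) :=
    primrec_qpow.to_comp.comp (Computable.const _) h1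
  exact primrec_qmul.to_comp.comp (Computable.const v) h2

section eff

variable {α : Type*} [Primcodable α]

theorem eff_nat {n : α → ℕ} (hn : Computable n) : Eff (fun a => (n a : ℝ)) := by
  have := Eff.of_code (primrec_qnat.to_comp.comp hn)
  refine this.congr fun a => ?_
  simp

theorem eff_const_nat (n : ℕ) : Eff (fun _ : α => (n : ℝ)) := eff_nat (Computable.const n)

theorem eff_trig_arg {a : α → ℕ} {s : α → RatCode} (ha : Computable a) (hs : Computable s) :
    Eff (fun p => 2 * π * ratVal (s p) + (a p : ℝ) * (π / 2)) := by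
  have h2 : Eff (fun _ : α => (2 : ℝ)) := by
    have := eff_const_nat (α := α) 2
    exact this.congr fun _ => by simp
  have hh : Eff (fun _ : α => (1 / 2 : ℝ)) := by
    have := Eff.const_code (α := α) ((1, 0, 1) : RatCode)
    exact this.congr fun _ => by norm_num [ratVal]
  have hp : Eff (fun _ : α => π) := Eff.pi
  refine (((h2.mul hp).mul (Eff.of_code hs)).add ((eff_nat ha).mul (hp.mul hh))).congr fun p => ?_
  ring

theorem eff_two_pi_pow {a : α → ℕ} (ha : Computable a) : Eff (fun p => (2 * π) ^ a p) := by
  have h2 : Eff (fun _ : α => (2 : ℝ)) := by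
    have := eff_const_nat (α := α) 2
    exact this.congr fun _ => by simp
  have hp : Eff (fun _ : α => π) := Eff.pi
  exact (h2.mul hp).pow ha

theorem eff_Sf {a : α → ℕ} {s : α → RatCode} (ha : Computable a) (hs : Computable s) :
    Eff (fun p => Sf (a p) (ratVal (s p))) :=
  (eff_two_pi_pow ha).mul (eff_trig_arg ha hs).sin

theorem eff_Cf {a : α → ℕ} {s : α → RatCode} (ha : Computable a) (hs : Computable s) :
    Eff (fun p => Cf (a p) (ratVal (s p))) :=
  (eff_two_pi_pow ha).mul (eff_trig_arg ha hs).cos

/-- The test of vanishing of a natural number. -/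
theorem computable_isZero {a : α → ℕ} (ha : Computable a) :
    Computable (fun p => decide (a p = 0)) := by
  have h : Primrec (fun n : ℕ => decide (n = 0)) :=
    Primrec.eq.decide.comp Primrec.id (Primrec.const 0)
  exact h.to_comp.comp ha

theorem eff_zero : Eff (fun _ : α => (0 : ℝ)) := by
  have := Eff.const_code (α := α) (qnat 0)
  exact this.congr fun _ => by simp

theorem eff_ifz {a : α → ℕ} (ha : Computable a) {F : α → ℝ} (hF : Eff F) :
    Eff (fun p => if a p = 0 then F p else 0) := by
  have := Eff.ite (computable_isZero ha) hF eff_zero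
  exact this.congr fun p => by simp

theorem eff_oneJ {a : α → ℕ} {s : α → RatCode} (ha : Computable a) :
    Eff (fun p => oneJ (a p) (ratVal (s p))) := by
  have h1 : Eff (fun _ : α => (1 : ℝ)) := by
    have := Eff.const_code (α := α) (qnat 1)
    exact this.congr fun _ => by simp
  have := eff_ifz ha h1
  exact this.congr fun p => rfl

theorem eff_cA {k : α → ℕ} {s : α → RatCode} (hk : Computable k) (hs : Computable s) :
    Eff (fun p => cA (k p) (ratVal (s p))) := by
  have := eff_phJ (L := fun _ => qnat 4) (c := fun _ => qnat 1) (Computable.const _)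
    (Computable.const _) hk hs
  refine this.congr fun a => ?_
  simp [cA]

theorem eff_cB {k : α → ℕ} {s : α → RatCode} (hk : Computable k) (hs : Computable s) :
    Eff (fun p => cB (k p) (ratVal (s p))) := by
  have := eff_phJ (L := fun _ => qnat 4) (c := fun _ => qnat 2) (Computable.const _)
    (Computable.const _) hk hs
  refine this.congr fun a => ?_
  simp [cB]

theorem eff_c1 {k : α → ℕ} {s : α → RatCode} (hk : Computable k) (hs : Computable s) :
    Eff (fun p => c1 (k p) (ratVal (s p))) := by
  have := eff_scaled (L := fun _ => qnat 4) (c := fun _ => qnat 0) (Computable.const _)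
    (Computable.const _) hk hs
  refine this.congr fun a => ?_
  simp [c1]

theorem eff_Gcomp {M : α → Machine} {b c : α → ℕ} {y z : α → RatCode} (hM : Computable M)
    (hb : Computable b) (hc : Computable c) (hy : Computable y) (hz : Computable z) :
    Eff (fun p => G (haltTest (M p)) (b p) (c p) (ratVal (y p), ratVal (z p))) :=
  eff_G.comp (φ := fun p => (M p, (b p, c p), (y p, z p)))
    (hM.pair ((hb.pair hc).pair (hy.pair hz)))

end eff

/-- The input of the program: machine, word, component, orders of differentiation, point. -/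
abbrev MArg : Type :=
  (Machine × Word) × Fin 3 × (ℕ × ℕ × ℕ × ℕ) × (RatCode × RatCode × RatCode × RatCode)

section main

variable {ν : ℝ} (κ v : RatCode)

/-- The quantity to be computed. -/
noncomputable def fMixed (ν : ℝ) (κ v : RatCode) (p : MArg) : ℝ :=
  mixedDeriv (fun t X => fF (ratVal κ) (Vw v p.1.2) ν (haltTest p.1.1) t X p.2.1)
    p.2.2.1.1 p.2.2.1.2.1 p.2.2.1.2.2.1 p.2.2.1.2.2.2
    (ratVal p.2.2.2.1) (ratVal p.2.2.2.2.1) (ratVal p.2.2.2.2.2.1) (ratVal p.2.2.2.2.2.2)

theorem eff_fMixed (hν : IsComputableReal ν) : Eff (fMixed ν κ v) := by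
  have cM : Computable (fun p : MArg => p.1.1) := Computable.fst.comp Computable.fst
  have cw : Computable (fun p : MArg => p.1.2) := Computable.snd.comp Computable.fst
  have ci : Computable (fun p : MArg => p.2.1) := Computable.fst.comp Computable.snd
  have cm : Computable (fun p : MArg => p.2.2.1) :=
    Computable.fst.comp (Computable.snd.comp Computable.snd)
  have cq : Computable (fun p : MArg => p.2.2.2) :=
    Computable.snd.comp (Computable.snd.comp Computable.snd)
  have ck : Computable (fun p : MArg => p.2.2.1.1) := Computable.fst.comp cm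
  have ca : Computable (fun p : MArg => p.2.2.1.2.1) :=
    Computable.fst.comp (Computable.snd.comp cm)
  have cb : Computable (fun p : MArg => p.2.2.1.2.2.1) :=
    Computable.fst.comp (Computable.snd.comp (Computable.snd.comp cm))
  have cc : Computable (fun p : MArg => p.2.2.1.2.2.2) :=
    Computable.snd.comp (Computable.snd.comp (Computable.snd.comp cm))
  have ct : Computable (fun p : MArg => p.2.2.2.1) := Computable.fst.comp cq
  have cx : Computable (fun p : MArg => p.2.2.2.2.1) :=
    Computable.fst.comp (Computable.snd.comp cq)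
  have cy : Computable (fun p : MArg => p.2.2.2.2.2.1) :=
    Computable.fst.comp (Computable.snd.comp (Computable.snd.comp cq))
  have cz : Computable (fun p : MArg => p.2.2.2.2.2.2) :=
    Computable.snd.comp (Computable.snd.comp (Computable.snd.comp cq))
  have add1 : ∀ {f : MArg → ℕ} (n : ℕ), Computable f → Computable (fun p => f p + n) :=
    fun n hf => (Primrec.nat_add.to_comp).comp hf (Computable.const n)
  have hκ : Eff (fun _ : MArg => ratVal κ) := Eff.const_code κ
  have hνe : Eff (fun _ : MArg => ν) := Eff.of_computableReal hν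
  have h8 : Eff (fun _ : MArg => 8 * π ^ 2 * ν) := by
    have h1 : Eff (fun _ : MArg => (8 : ℝ)) := by
      have := eff_const_nat (α := MArg) 8
      exact this.congr fun _ => by simp
    have h2 : Eff (fun _ : MArg => π ^ 2) := Eff.pi.pow (Computable.const 2)
    exact (h1.mul h2).mul hνe
  -- amplitude of the Taylor-Green part
  have hamp : Eff (fun p : MArg => ratVal κ * (cA (p.2.2.1.1 + 1) (ratVal p.2.2.2.1) +
      8 * π ^ 2 * ν * cA p.2.2.1.1 (ratVal p.2.2.2.1))) :=
    hκ.mul ((eff_cA (add1 1 ck) ct).add (h8.mul (eff_cA ck ct)))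
  -- the first component
  have hF0 : Eff (fun p : MArg =>
      (if p.2.2.1.2.2.1 = 0 then ratVal κ * (cA (p.2.2.1.1 + 1) (ratVal p.2.2.2.1) +
          8 * π ^ 2 * ν * cA p.2.2.1.1 (ratVal p.2.2.2.1)) *
          (Sf p.2.2.1.2.1 (ratVal p.2.2.2.2.1) * Cf p.2.2.1.2.2.2 (ratVal p.2.2.2.2.2.2)) else 0) +
      (if p.2.2.1.2.1 = 0 then cB (p.2.2.1.1 + 1) (ratVal p.2.2.2.1) *
          G (haltTest p.1.1) p.2.2.1.2.2.1 p.2.2.1.2.2.2
            (ratVal p.2.2.2.2.2.1, ratVal p.2.2.2.2.2.2) +
          -(ν * cB p.2.2.1.1 (ratVal p.2.2.2.1)) *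
            (G (haltTest p.1.1) (p.2.2.1.2.2.1 + 2) p.2.2.1.2.2.2
                (ratVal p.2.2.2.2.2.1, ratVal p.2.2.2.2.2.2) +
              G (haltTest p.1.1) p.2.2.1.2.2.1 (p.2.2.1.2.2.2 + 2)
                (ratVal p.2.2.2.2.2.1, ratVal p.2.2.2.2.2.2)) else 0)) := by
    refine Eff.add (eff_ifz cb (hamp.mul ((eff_Sf ca cx).mul (eff_Cf cc cz))))
      (eff_ifz ca (Eff.add ((eff_cB (add1 1 ck) ct).mul (eff_Gcomp cM cb cc cy cz)) ?_))
    exact ((hνe.mul (eff_cB ck ct)).neg).mul
      ((eff_Gcomp cM (add1 2 cb) cc cy cz).add (eff_Gcomp cM cb (add1 2 cc) cy cz))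
  -- the second component
  have hV : Eff (fun p : MArg => Vw v p.1.2) := by
    have := Eff.of_code ((computable_vCode v).comp cw)
    exact this.congr fun p => (ratVal_vCode v p.1.2).symm
  have hF1 : Eff (fun p : MArg =>
      (if p.2.2.1.2.2.1 = 0 then c1 (p.2.2.1.1 + 1) (ratVal p.2.2.2.1) * Vw v p.1.2 *
          (oneJ p.2.2.1.2.1 (ratVal p.2.2.2.2.1) * oneJ p.2.2.1.2.2.2 (ratVal p.2.2.2.2.2.2))
        else 0)) :=
    eff_ifz cb (((eff_c1 (add1 1 ck) ct).mul hV).mul ((eff_oneJ ca).mul (eff_oneJ cc)))
  -- the third component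
  have hF2 : Eff (fun p : MArg =>
      (if p.2.2.1.2.2.1 = 0 then -(ratVal κ * (cA (p.2.2.1.1 + 1) (ratVal p.2.2.2.1) +
          8 * π ^ 2 * ν * cA p.2.2.1.1 (ratVal p.2.2.2.1))) *
          (Cf p.2.2.1.2.1 (ratVal p.2.2.2.2.1) * Sf p.2.2.1.2.2.2 (ratVal p.2.2.2.2.2.2)) else 0)) :=
    eff_ifz cb (hamp.neg.mul ((eff_Cf ca cx).mul (eff_Sf cc cz)))
  have c0 : Computable (fun p : MArg => decide (p.2.1 = 0)) := by
    have h : Primrec (fun i : Fin 3 => decide (i = 0)) := Primrec.dom_finite _
    exact h.to_comp.comp ci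
  have c1' : Computable (fun p : MArg => decide (p.2.1 = 1)) := by
    have h : Primrec (fun i : Fin 3 => decide (i = 1)) := Primrec.dom_finite _
    exact h.to_comp.comp ci
  have hall := Eff.ite c0 hF0 (Eff.ite c1' hF1 hF2)
  refine hall.congr fun p => ?_
  unfold fMixed
  obtain ⟨⟨M, w⟩, i, m, q⟩ := p
  match i with
  | 0 =>
    simp only [decide_true, if_true]
    rw [mixed_f0]
  | 1 =>
    have e1 : ((1 : Fin 3) = 0) = False := by simp
    simp only [e1, decide_false, Bool.false_eq_true, if_false, decide_true, if_true]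
    rw [mixed_f1]
    simp
  | 2 =>
    have e1 : ((2 : Fin 3) = 0) = False := by simp
    have e2 : ((2 : Fin 3) = 1) = False := by simp
    simp only [e1, e2, decide_false, Bool.false_eq_true, if_false]
    rw [mixed_f2]
    simp

/-- The force compiler. -/
theorem exists_compiler (hν : IsComputableReal ν) :
    ∃ compiler : Machine × Word → Nat.Partrec.Code, Computable compiler ∧
      ∀ M w, ProgramComputes (compiler (M, w)) (fF (ratVal κ) (Vw v w) ν (haltTest M)) := by
  obtain ⟨g, hg, hspec⟩ := (eff_fMixed κ v hν).exists_partrec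
  let ar : (Machine × Word) × (Fin 3 × (ℕ × ℕ × ℕ × ℕ) × (RatCode × RatCode × RatCode × RatCode) ×
      RatCode) → MArg × RatCode := fun x => ((x.1, x.2.1, x.2.2.1, x.2.2.2.1), x.2.2.2.2)
  have har : Computable ar := by
    have c1 : Computable (fun x : (Machine × Word) × (Fin 3 × (ℕ × ℕ × ℕ × ℕ) ×
        (RatCode × RatCode × RatCode × RatCode) × RatCode) => x.2) := Computable.snd
    exact (Computable.fst.pair ((Computable.fst.comp c1).pair
      ((Computable.fst.comp (Computable.snd.comp c1)).pair
        (Computable.fst.comp (Computable.snd.comp (Computable.snd.comp c1)))))).pair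
      (Computable.snd.comp (Computable.snd.comp (Computable.snd.comp c1)))
  have hh : Partrec (fun x => g (ar x)) := hg.comp har
  obtain ⟨E, hE⟩ := Nat.Partrec.Code.exists_code.1 hh
  refine ⟨fun p => E.curry (Encodable.encode p), ?_, ?_⟩
  · exact Nat.Partrec.Code.primrec₂_curry.to_comp.comp (Computable.const E) Computable.encode
  · intro M w i m q e he
    obtain ⟨r, hr, hb⟩ := hspec ((M, w), i, m, q) e he
    refine ⟨r, ?_, hb⟩
    rw [Nat.Partrec.Code.eval_curry, hE]
    have e1 : Nat.pair (Encodable.encode (M, w)) (Encodable.encode (i, m, q, e)) =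
        Encodable.encode (((M, w), (i, m, q, e)) : (Machine × Word) ×
          (Fin 3 × (ℕ × ℕ × ℕ × ℕ) × (RatCode × RatCode × RatCode × RatCode) × RatCode)) := rfl
    rw [e1]
    simp only [Encodable.encodek, Part.coe_some, Part.bind_some]
    have e2 : g (ar ((M, w), i, m, q, e)) = Part.some r := Part.eq_some_iff.2 hr
    rw [e2]
    simp

end main

end Vale.Agent.Lib.P113
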