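import Vale.Agent.Lib.P113.Torus

/-!
The spatial part of the energy estimate for the difference of two solutions.
-/

open Set MeasureTheory Filter Topology
open scoped ContDiff

namespace Vale.Agent.Lib.P113

/-! ### Calculus with partial derivatives -/

section calculus

variable {F G : R3 → ℝ} {j : Fin 3} {x : R3}

theorem pd_add (hF : Differentiable ℝ F) (hG : Differentiable ℝ G) :
    pd j (fun y => F y + G y) x = pd j F x + pd j G x := by
  unfold pd
  rw [fderiv_fun_add (hF x) (hG x)]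
  rfl

theorem pd_sub (hF : Differentiable ℝ F) (hG : Differentiable ℝ G) :
    pd j (fun y => F y - G y) x = pd j F x - pd j G x := by
  unfold pd
  rw [fderiv_fun_sub (hF x) (hG x)]
  rfl

theorem pd_neg : pd j (fun y => - F y) x = - pd j F x := by
  unfold pd
  rw [fderiv_fun_neg]
  rfl

theorem pd_mul (hF : Differentiable ℝ F) (hG : Differentiable ℝ G) :
    pd j (fun y => F y * G y) x = F x * pd j G x + pd j F x * G x := by
  unfold pd
  rw [fderiv_fun_mul (hF x) (hG x)]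
  simp
  ring

theorem pd_const_mul (c : ℝ) (hF : Differentiable ℝ F) :
    pd j (fun y => c * F y) x = c * pd j F x := by
  unfold pd
  rw [fderiv_const_mul (hF x)]
  rfl

theorem pd_sum {ι : Type*} (s : Finset ι) {H : ι → R3 → ℝ} (hH : ∀ i ∈ s, Differentiable ℝ (H i)) :
    pd j (fun y => ∑ i ∈ s, H i y) x = ∑ i ∈ s, pd j (H i) x := by
  unfold pd
  rw [fderiv_fun_sum (fun i hi => hH i hi x)]
  simp

theorem pd_contDiff {n : ℕ} (hF : ContDiff ℝ (n + 1 : ℕ) F) (j : Fin 3) :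
    ContDiff ℝ n (pd j F) := by
  have h1 : ContDiff ℝ n (fderiv ℝ F) := hF.fderiv_right (by norm_cast)
  exact h1.clm_apply contDiff_const

theorem pd_comp_eq {U : R3 → R3} (hU : DifferentiableAt ℝ U x) (i : Fin 3) :
    pd j (fun y => U y i) x = fderiv ℝ U x (Pi.single j 1) i := by
  unfold pd
  have h := (hasFDerivAt_pi'.1 hU.hasFDerivAt) i
  rw [h.fderiv]
  rfl

theorem abs_pd_comp_le {U : R3 → R3} (hU : DifferentiableAt ℝ U x) (i : Fin 3) :
    |pd j (fun y => U y i) x| ≤ ‖fderiv ℝ U x‖ := by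
  rw [pd_comp_eq hU]
  have h1 : |fderiv ℝ U x (Pi.single j 1) i| ≤ ‖fderiv ℝ U x (Pi.single j 1)‖ :=
    norm_le_pi_norm (fderiv ℝ U x (Pi.single j 1)) i
  have h2 := (fderiv ℝ U x).le_opNorm (Pi.single j 1)
  have h3 : ‖(Pi.single j 1 : R3)‖ = 1 := by
    rw [Pi.norm_single]
    simp
  rw [h3, mul_one] at h2
  exact h1.trans h2

end calculus

/-! ### The energy identity at a fixed time -/

section spatial

variable {U1 U2 : R3 → R3} {q : R3 → ℝ} {ν L : ℝ}

/-- The coordinate functions of the difference. -/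
def Wc (U1 U2 : R3 → R3) (i : Fin 3) (y : R3) : ℝ := U1 y i - U2 y i

/-- The vector field whose divergence appears in the energy identity. -/
noncomputable def Psi (U1 U2 : R3 → R3) (q : R3 → ℝ) (ν : ℝ) (j : Fin 3) (y : R3) : ℝ :=
  - (U1 y j * ∑ i, (Wc U1 U2 i y * Wc U1 U2 i y) / 2) - q y * Wc U1 U2 j y +
    ν * ∑ i, Wc U1 U2 i y * pd j (Wc U1 U2 i) y

theorem comp_contDiff {n : WithTop ℕ∞} {U : R3 → R3} (hU : ContDiff ℝ n U) (i : Fin 3) :
    ContDiff ℝ n (fun y => U y i) := contDiff_pi.1 hU i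

theorem Wc_contDiff (hU1 : ContDiff ℝ 2 U1) (hU2 : ContDiff ℝ 2 U2) (i : Fin 3) :
    ContDiff ℝ 2 (Wc U1 U2 i) := (comp_contDiff hU1 i).sub (comp_contDiff hU2 i)

theorem Psi_contDiff (hU1 : ContDiff ℝ 2 U1) (hU2 : ContDiff ℝ 2 U2) (hq : ContDiff ℝ 1 q)
    (j : Fin 3) : ContDiff ℝ 1 (Psi U1 U2 q ν j) := by
  have hW : ∀ i, ContDiff ℝ 1 (Wc U1 U2 i) := fun i =>
    (Wc_contDiff hU1 hU2 i).of_le (by norm_num)
  have hdW : ∀ i, ContDiff ℝ 1 (pd j (Wc U1 U2 i)) := fun i =>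
    pd_contDiff (n := 1) (Wc_contDiff hU1 hU2 i) j
  have h1 : ContDiff ℝ 1 (fun y => ∑ i, (Wc U1 U2 i y * Wc U1 U2 i y) / 2) :=
    ContDiff.sum fun i _ => ((hW i).mul (hW i)).div_const (2 : ℝ)
  have h2 : ContDiff ℝ 1 (fun y => ∑ i, Wc U1 U2 i y * pd j (Wc U1 U2 i) y) :=
    ContDiff.sum fun i _ => (hW i).mul (hdW i)
  have h3 : ContDiff ℝ 1 (fun y => U1 y j) := (comp_contDiff hU1 j).of_le (by norm_num)
  unfold Psi
  exact ContDiff.add (ContDiff.sub (ContDiff.neg (h3.mul h1)) (hq.mul (hW j)))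
    (contDiff_const.mul h2)

theorem Psi_periodic (hU1p : Periodic3 U1) (hU2p : Periodic3 U2) (hqp : Periodic3 q) (j : Fin 3) :
    Periodic3 (Psi U1 U2 q ν j) := by
  have hW : ∀ i, Periodic3 (Wc U1 U2 i) := fun i n x => by
    simp only [Wc]
    rw [hU1p n x, hU2p n x]
  intro n x
  simp only [Psi]
  rw [hU1p n x, hqp n x, hW j n x]
  have e1 : ∑ i, (Wc U1 U2 i (fun i => x i + (n i : ℝ)) * Wc U1 U2 i (fun i => x i + (n i : ℝ))) / 2
      = ∑ i, (Wc U1 U2 i x * Wc U1 U2 i x) / 2 := by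
    refine Finset.sum_congr rfl fun i _ => ?_
    rw [hW i n x]
  have e2 : ∑ i, Wc U1 U2 i (fun i => x i + (n i : ℝ)) * pd j (Wc U1 U2 i) (fun i => x i + (n i : ℝ))
      = ∑ i, Wc U1 U2 i x * pd j (Wc U1 U2 i) x := by
    refine Finset.sum_congr rfl fun i _ => ?_
    rw [hW i n x, periodic_pd (hW i) j n x]
  rw [e1, e2]

/-- The derivative of the vector field `Psi`. -/
theorem pd_Psi (hU1 : ContDiff ℝ 2 U1) (hU2 : ContDiff ℝ 2 U2) (hq : ContDiff ℝ 1 q) (j : Fin 3)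
    (x : R3) :
    pd j (Psi U1 U2 q ν j) x =
      - (U1 x j * ∑ i, Wc U1 U2 i x * pd j (Wc U1 U2 i) x +
          pd j (fun y => U1 y j) x * ∑ i, (Wc U1 U2 i x * Wc U1 U2 i x) / 2)
        - (q x * pd j (Wc U1 U2 j) x + pd j q x * Wc U1 U2 j x)
        + ν * ∑ i, (Wc U1 U2 i x * pd j (pd j (Wc U1 U2 i)) x +
            pd j (Wc U1 U2 i) x * pd j (Wc U1 U2 i) x) := by
  have dW : ∀ i, Differentiable ℝ (Wc U1 U2 i) := fun i =>
    (Wc_contDiff hU1 hU2 i).differentiable (by norm_num)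
  have ddW : ∀ i, Differentiable ℝ (pd j (Wc U1 U2 i)) := fun i =>
    (pd_contDiff (n := 1) (Wc_contDiff hU1 hU2 i) j).differentiable (by norm_num)
  have dU : Differentiable ℝ (fun y => U1 y j) :=
    (comp_contDiff hU1 j).differentiable (by norm_num)
  have dq : Differentiable ℝ q := hq.differentiable (by norm_num)
  have dE : ∀ i, Differentiable ℝ (fun y => (Wc U1 U2 i y * Wc U1 U2 i y) / 2) := fun i =>
    by
      have h := dW i
      fun_prop
  have dE' : Differentiable ℝ (fun y => ∑ i, (Wc U1 U2 i y * Wc U1 U2 i y) / 2) :=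
    Differentiable.fun_sum fun i _ => dE i
  have dP : ∀ i, Differentiable ℝ (fun y => Wc U1 U2 i y * pd j (Wc U1 U2 i) y) := fun i =>
    (dW i).mul (ddW i)
  have dP' : Differentiable ℝ (fun y => ∑ i, Wc U1 U2 i y * pd j (Wc U1 U2 i) y) :=
    Differentiable.fun_sum fun i _ => dP i
  have hE : pd j (fun y => ∑ i, (Wc U1 U2 i y * Wc U1 U2 i y) / 2) x =
      ∑ i, Wc U1 U2 i x * pd j (Wc U1 U2 i) x := by
    rw [pd_sum _ (fun i _ => dE i)]
    refine Finset.sum_congr rfl fun i _ => ?_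
    have e : (fun y => (Wc U1 U2 i y * Wc U1 U2 i y) / 2) =
        fun y => (1 / 2 : ℝ) * (Wc U1 U2 i y * Wc U1 U2 i y) := by
      funext y
      ring
    rw [e, pd_const_mul _ ((dW i).fun_mul (dW i)), pd_mul (dW i) (dW i)]
    ring
  have h1 : pd j (fun y => U1 y j * ∑ i, (Wc U1 U2 i y * Wc U1 U2 i y) / 2) x =
      U1 x j * ∑ i, Wc U1 U2 i x * pd j (Wc U1 U2 i) x +
        pd j (fun y => U1 y j) x * ∑ i, (Wc U1 U2 i x * Wc U1 U2 i x) / 2 := by
    rw [pd_mul dU dE', hE]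
  have h2 : pd j (fun y => q y * Wc U1 U2 j y) x =
      q x * pd j (Wc U1 U2 j) x + pd j q x * Wc U1 U2 j x := pd_mul dq (dW j)
  have h3 : pd j (fun y => ν * ∑ i, Wc U1 U2 i y * pd j (Wc U1 U2 i) y) x =
      ν * ∑ i, (Wc U1 U2 i x * pd j (pd j (Wc U1 U2 i)) x +
        pd j (Wc U1 U2 i) x * pd j (Wc U1 U2 i) x) := by
    rw [pd_const_mul _ dP', pd_sum _ (fun i _ => dP i)]
    congr 1
    exact Finset.sum_congr rfl fun i _ => pd_mul (dW i) (ddW i)
  have dT1 : Differentiable ℝ (fun y => U1 y j * ∑ i, (Wc U1 U2 i y * Wc U1 U2 i y) / 2) :=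
    dU.fun_mul dE'
  have dT2 : Differentiable ℝ (fun y => q y * Wc U1 U2 j y) := dq.fun_mul (dW j)
  have dT3 : Differentiable ℝ (fun y => ν * ∑ i, Wc U1 U2 i y * pd j (Wc U1 U2 i) y) :=
    (differentiable_const ν).fun_mul dP'
  have dT1' : Differentiable ℝ (fun y => - (U1 y j * ∑ i, (Wc U1 U2 i y * Wc U1 U2 i y) / 2)) :=
    dT1.fun_neg
  have e : Psi U1 U2 q ν j = fun y =>
      (- (U1 y j * ∑ i, (Wc U1 U2 i y * Wc U1 U2 i y) / 2) - q y * Wc U1 U2 j y) +
        ν * ∑ i, Wc U1 U2 i y * pd j (Wc U1 U2 i) y := rfl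
  rw [e, pd_add (dT1'.fun_sub dT2) dT3, pd_sub dT1' dT2, pd_neg, h1, h2, h3]

/-- The algebra of the energy identity. -/
theorem energy_alg (U V : Fin 3 → ℝ) (Q : ℝ) (dq : Fin 3 → ℝ) (a b dd : Fin 3 → Fin 3 → ℝ)
    {ν L : ℝ} (hν : 0 ≤ ν) (div1 : ∑ j, a j j = 0) (div2 : ∑ j, b j j = 0)
    (hL : ∀ i j, |b i j| ≤ L) :
    ∑ i, (U i - V i) * (- ∑ j, U j * a i j + ∑ j, V j * b i j - dq i + ν * ∑ j, dd i j) ≤
      ∑ j, (- (U j * ∑ i, (U i - V i) * (a i j - b i j) +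
            a j j * ∑ i, ((U i - V i) * (U i - V i)) / 2)
          - (Q * (a j j - b j j) + dq j * (U j - V j))
          + ν * ∑ i, ((U i - V i) * dd i j + (a i j - b i j) * (a i j - b i j))) +
        3 * L * ∑ i, (U i - V i) * (U i - V i) := by
  have hL' : ∀ x y c : ℝ, |c| ≤ L → - (x * y * c) ≤ L * (x * x + y * y) / 2 := by
    intro x y c hc
    have h1 : - (x * y * c) ≤ |x * y| * |c| := by
      rw [← abs_mul]
      exact neg_le_abs _
    have h2 : |x * y| * |c| ≤ |x * y| * L := mul_le_mul_of_nonneg_left hc (abs_nonneg _)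
    have h3 : |x * y| ≤ (x * x + y * y) / 2 := by
      rw [abs_le]
      constructor <;> nlinarith [sq_nonneg (x - y), sq_nonneg (x + y)]
    have h4 : 0 ≤ L := (abs_nonneg c).trans hc
    have h5 := mul_le_mul_of_nonneg_right h3 h4
    linarith
  simp only [Fin.sum_univ_three] at div1 div2 ⊢
  have hS : 0 ≤ ν * (∑ i : Fin 3, ∑ j : Fin 3, (a i j - b i j) * (a i j - b i j)) :=
    mul_nonneg hν (Finset.sum_nonneg fun i _ => Finset.sum_nonneg fun j _ => mul_self_nonneg _)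
  simp only [Fin.sum_univ_three] at hS
  have h00 := hL' (U 0 - V 0) (U 0 - V 0) (b 0 0) (hL 0 0)
  have h01 := hL' (U 0 - V 0) (U 1 - V 1) (b 0 1) (hL 0 1)
  have h02 := hL' (U 0 - V 0) (U 2 - V 2) (b 0 2) (hL 0 2)
  have h10 := hL' (U 1 - V 1) (U 0 - V 0) (b 1 0) (hL 1 0)
  have h11 := hL' (U 1 - V 1) (U 1 - V 1) (b 1 1) (hL 1 1)
  have h12 := hL' (U 1 - V 1) (U 2 - V 2) (b 1 2) (hL 1 2)
  have h20 := hL' (U 2 - V 2) (U 0 - V 0) (b 2 0) (hL 2 0)
  have h21 := hL' (U 2 - V 2) (U 1 - V 1) (b 2 1) (hL 2 1)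
  have h22 := hL' (U 2 - V 2) (U 2 - V 2) (b 2 2) (hL 2 2)
  have hz1 : ((U 0 - V 0) * (U 0 - V 0) + (U 1 - V 1) * (U 1 - V 1) + (U 2 - V 2) * (U 2 - V 2)) / 2 *
      (a 0 0 + a 1 1 + a 2 2) = 0 := by
    rw [div1, mul_zero]
  have hz2 : Q * (a 0 0 + a 1 1 + a 2 2 - (b 0 0 + b 1 1 + b 2 2)) = 0 := by
    rw [div1, div2]
    ring
  linarith

/-- The pointwise form of the energy identity. -/
theorem energy_pointwise (hU1 : ContDiff ℝ 2 U1) (hU2 : ContDiff ℝ 2 U2) (hq : ContDiff ℝ 1 q)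
    (hν : 0 ≤ ν)
    (hdiv1 : ∀ x, ∑ j, pd j (fun y => U1 y j) x = 0) (hdiv2 : ∀ x, ∑ j, pd j (fun y => U2 y j) x = 0)
    (hL : ∀ x i j, |pd j (fun y => U2 y i) x| ≤ L) (x : R3) :
    ∑ i, Wc U1 U2 i x * (- ∑ j, U1 x j * pd j (fun y => U1 y i) x
        + ∑ j, U2 x j * pd j (fun y => U2 y i) x - pd i q x
        + ν * ∑ j, pd j (pd j (Wc U1 U2 i)) x) ≤
      ∑ j, pd j (Psi U1 U2 q ν j) x + 3 * L * ∑ i, Wc U1 U2 i x * Wc U1 U2 i x := by
  have dU1 : ∀ i, Differentiable ℝ (fun y => U1 y i) := fun i =>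
    (comp_contDiff hU1 i).differentiable (by norm_num)
  have dU2 : ∀ i, Differentiable ℝ (fun y => U2 y i) := fun i =>
    (comp_contDiff hU2 i).differentiable (by norm_num)
  have dW : ∀ i j (z : R3), pd j (Wc U1 U2 i) z = pd j (fun y => U1 y i) z - pd j (fun y => U2 y i) z :=
    fun i j z => pd_sub (dU1 i) (dU2 i)
  have h := energy_alg (U1 x) (U2 x) (q x) (fun i => pd i q x)
    (fun i j => pd j (fun y => U1 y i) x) (fun i j => pd j (fun y => U2 y i) x)
    (fun i j => pd j (pd j (Wc U1 U2 i)) x) hν (hdiv1 x) (hdiv2 x) (fun i j => hL x i j)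
  simp only [pd_Psi hU1 hU2 hq, dW]
  simp only [Wc]
  exact h

/-- The integrated form of the energy inequality. -/
theorem energy_integrated (hU1 : ContDiff ℝ 2 U1) (hU2 : ContDiff ℝ 2 U2) (hq : ContDiff ℝ 1 q)
    (hU1p : Periodic3 U1) (hU2p : Periodic3 U2) (hqp : Periodic3 q)
    (hν : 0 ≤ ν)
    (hdiv1 : ∀ x, ∑ j, pd j (fun y => U1 y j) x = 0) (hdiv2 : ∀ x, ∑ j, pd j (fun y => U2 y j) x = 0)
    (hL : ∀ x i j, |pd j (fun y => U2 y i) x| ≤ L) :
    ∫ x in cube, ∑ i, Wc U1 U2 i x * (- ∑ j, U1 x j * pd j (fun y => U1 y i) x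
        + ∑ j, U2 x j * pd j (fun y => U2 y i) x - pd i q x
        + ν * ∑ j, pd j (pd j (Wc U1 U2 i)) x) ≤
      3 * L * ∫ x in cube, ∑ i, Wc U1 U2 i x * Wc U1 U2 i x := by
  have cU1 : ∀ i, Continuous (fun y => U1 y i) := fun i => (comp_contDiff hU1 i).continuous
  have cU2 : ∀ i, Continuous (fun y => U2 y i) := fun i => (comp_contDiff hU2 i).continuous
  have cW : ∀ i, Continuous (Wc U1 U2 i) := fun i => (Wc_contDiff hU1 hU2 i).continuous
  have cdU1 : ∀ i j, Continuous (pd j (fun y => U1 y i)) := fun i j =>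
    (pd_contDiff (n := 1) (comp_contDiff hU1 i) j).continuous
  have cdU2 : ∀ i j, Continuous (pd j (fun y => U2 y i)) := fun i j =>
    (pd_contDiff (n := 1) (comp_contDiff hU2 i) j).continuous
  have cddW : ∀ i j, Continuous (pd j (pd j (Wc U1 U2 i))) := fun i j =>
    (pd_contDiff (n := 0) (pd_contDiff (n := 1) (Wc_contDiff hU1 hU2 i) j) j).continuous
  have cdq : ∀ i, Continuous (pd i q) := fun i => (pd_contDiff (n := 0) hq i).continuous
  have cPsi : ∀ j, Continuous (pd j (Psi U1 U2 q ν j)) := fun j =>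
    (pd_contDiff (n := 0) (Psi_contDiff hU1 hU2 hq j) j).continuous
  have cL : Continuous (fun x => ∑ i, Wc U1 U2 i x * (- ∑ j, U1 x j * pd j (fun y => U1 y i) x
        + ∑ j, U2 x j * pd j (fun y => U2 y i) x - pd i q x
        + ν * ∑ j, pd j (pd j (Wc U1 U2 i)) x)) := by
    refine continuous_finsetSum _ fun i _ => (cW i).mul ?_
    refine Continuous.add (Continuous.sub (Continuous.add (Continuous.neg ?_) ?_) (cdq i))
      (continuous_const.mul (continuous_finsetSum _ fun j _ => cddW i j))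
    · exact continuous_finsetSum _ fun j _ => (cU1 j).mul (cdU1 i j)
    · exact continuous_finsetSum _ fun j _ => (cU2 j).mul (cdU2 i j)
  have cR1 : Continuous (fun x => ∑ j, pd j (Psi U1 U2 q ν j) x) :=
    continuous_finsetSum _ fun j _ => cPsi j
  have cR2 : Continuous (fun x => ∑ i, Wc U1 U2 i x * Wc U1 U2 i x) :=
    continuous_finsetSum _ fun i _ => (cW i).mul (cW i)
  have iL : IntegrableOn _ cube volume := cL.continuousOn.integrableOn_compact isCompact_cube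
  have iR1 : IntegrableOn _ cube volume := cR1.continuousOn.integrableOn_compact isCompact_cube
  have iR2 : IntegrableOn _ cube volume := cR2.continuousOn.integrableOn_compact isCompact_cube
  have hPsi0 : ∫ x in cube, ∑ j, pd j (Psi U1 U2 q ν j) x = 0 := by
    rw [integral_finsetSum]
    · refine Finset.sum_eq_zero fun j _ => ?_
      exact integral_pd_eq_zero (Psi_contDiff hU1 hU2 hq j) (Psi_periodic hU1p hU2p hqp j) j
    · intro j _
      exact (cPsi j).continuousOn.integrableOn_compact isCompact_cube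
  calc _ ≤ ∫ x in cube, (∑ j, pd j (Psi U1 U2 q ν j) x + 3 * L * ∑ i, Wc U1 U2 i x * Wc U1 U2 i x) :=
        setIntegral_mono iL (iR1.add (iR2.const_mul _))
          (fun x => energy_pointwise hU1 hU2 hq hν hdiv1 hdiv2 hL x)
    _ = _ := by
        rw [integral_add iR1 (iR2.const_mul _), hPsi0, zero_add, integral_const_mul]

end spatial

end Vale.Agent.Lib.P113
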