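import Vale.Agent.Lib.P113.GSeries

/-!
Effectivity of the detection profile at rational points.
-/

open Filter Topology

namespace Vale.Agent.Lib.P113

theorem fract_cond (q : RatCode) :
    Int.fract (ratVal q) = 0 ∨ 1 ≤ ((q.2.2 + 1 : ℕ) : ℝ) * Int.fract (ratVal q) := by
  rw [← ratVal_fract]
  have hd : ((q.2.2 : ℝ) + 1) ≠ 0 := den_ne _
  simp only [ratVal, qfract, Nat.cast_zero, sub_zero]
  set m := (q.1 + q.2.1 * q.2.2) % (q.2.2 + 1) with hm
  by_cases h0 : m = 0
  · left
    simp [h0]
  · right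
    have h1 : (1 : ℝ) ≤ m := by exact_mod_cast Nat.one_le_iff_ne_zero.2 h0
    push_cast
    rw [mul_div_cancel₀ _ hd]
    exact h1

/-- Code of the power of two. -/
def qtwo (m : ℕ) : RatCode := qpow (qnat 2) m

theorem ratVal_qtwo (m : ℕ) : ratVal (qtwo m) = (2 : ℝ) ^ m := by
  simp [qtwo]

theorem computable_qtwo {γ : Type*} [Primcodable γ] {m : γ → ℕ} (hm : Computable m) :
    Computable (fun a => qtwo (m a)) :=
  primrec_qpow.to_comp.comp (Computable.const _) hm

/-- Effectivity of the functions `phi` at rational points. -/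
theorem eff_phi {γ : Type*} [Primcodable γ] {m k : γ → ℕ} {s : γ → RatCode} (hm : Computable m)
    (hk : Computable k) (hs : Computable s) :
    Eff (fun a => phi (m a) (k a) (ratVal (s a))) := by
  have := eff_phJ (L := fun a => qtwo (m a)) (c := fun _ => qnat 1) (computable_qtwo hm)
    (Computable.const _) hk hs
  refine this.congr fun a => ?_
  simp [phi, ratVal_qtwo]

/-- The parameters of the detection profile at a rational point. -/
abbrev GArg : Type := Machine × (ℕ × ℕ) × (RatCode × RatCode)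

/-- The term of the double sum. -/
noncomputable def gF (x : (GArg × ℕ) × ℕ) : ℝ :=
  (if haltTest x.1.1.1 x.1.2 x.2 = true then ratVal (qpow (1, 0, 1) ((x.1.2 + x.2) ^ 2))
    else ratVal (qnat 0)) *
  (phi (x.1.2 + 2) x.1.1.2.1.1 (ratVal x.1.1.2.2.1) *
    phi (x.2 + 3) x.1.1.2.1.2 (ratVal x.1.1.2.2.2))

theorem eff_gF : Eff gF := by
  have cM : Computable (fun x : (GArg × ℕ) × ℕ => x.1.1.1) :=
    Computable.fst.comp (Computable.fst.comp Computable.fst)
  have cw : Computable (fun x : (GArg × ℕ) × ℕ => x.1.2) :=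
    Computable.snd.comp Computable.fst
  have ct : Computable (fun x : (GArg × ℕ) × ℕ => x.2) := Computable.snd
  have cpar : Computable (fun x : (GArg × ℕ) × ℕ => x.1.1.2) :=
    Computable.snd.comp (Computable.fst.comp Computable.fst)
  have cb : Computable (fun x : (GArg × ℕ) × ℕ => x.1.1.2.1.1) :=
    Computable.fst.comp (Computable.fst.comp cpar)
  have cc : Computable (fun x : (GArg × ℕ) × ℕ => x.1.1.2.1.2) :=
    Computable.snd.comp (Computable.fst.comp cpar)
  have cy : Computable (fun x : (GArg × ℕ) × ℕ => x.1.1.2.2.1) :=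
    Computable.fst.comp (Computable.snd.comp cpar)
  have cz : Computable (fun x : (GArg × ℕ) × ℕ => x.1.1.2.2.2) :=
    Computable.snd.comp (Computable.snd.comp cpar)
  have ctest : Computable (fun x : (GArg × ℕ) × ℕ => haltTest x.1.1.1 x.1.2 x.2) := by
    have h := Computable.pair cM (Computable.pair cw ct)
    have h2 := Computable.comp (f := fun x : Machine × ℕ × ℕ => haltTest x.1 x.2.1 x.2.2)
      primrec_haltTest.to_comp h
    exact h2
  have csq : Computable (fun x : (GArg × ℕ) × ℕ => (x.1.2 + x.2) ^ 2) := by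
    have h1 : Computable (fun x : (GArg × ℕ) × ℕ => x.1.2 + x.2) :=
      (Primrec.nat_add.to_comp).comp cw ct
    have h2 : Computable (fun x : (GArg × ℕ) × ℕ => (x.1.2 + x.2) * (x.1.2 + x.2)) :=
      (Primrec.nat_mul.to_comp).comp h1 h1
    exact h2.of_eq fun x => (sq _).symm
  have heps : Eff (fun x : (GArg × ℕ) × ℕ => ratVal (qpow (1, 0, 1) ((x.1.2 + x.2) ^ 2))) :=
    Eff.of_code (primrec_qpow.to_comp.comp (Computable.const _) csq)
  have h0 : Eff (fun _ : (GArg × ℕ) × ℕ => ratVal (qnat 0)) := Eff.const_code _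
  have hph1 : Eff (fun x : (GArg × ℕ) × ℕ => phi (x.1.2 + 2) x.1.1.2.1.1 (ratVal x.1.1.2.2.1)) :=
    eff_phi ((Primrec.nat_add.to_comp).comp cw (Computable.const 2)) cb cy
  have hph2 : Eff (fun x : (GArg × ℕ) × ℕ => phi (x.2 + 3) x.1.1.2.1.2 (ratVal x.1.1.2.2.2)) :=
    eff_phi ((Primrec.nat_add.to_comp).comp ct (Computable.const 3)) cc cz
  exact (Eff.ite ctest heps h0).mul (hph1.mul hph2)

/-- Effectivity of the detection profile. -/
theorem eff_G :
    Eff (fun p : GArg => G (haltTest p.1) p.2.1.1 p.2.1.2 (ratVal p.2.2.1, ratVal p.2.2.2)) := by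
  have cN1 : Computable (fun x : GArg × ℕ => x.1.2.2.2.2.2 + 1) := by
    have h1 : Computable (fun x : GArg × ℕ => x.1.2.2.2) :=
      Computable.snd.comp (Computable.snd.comp (Computable.snd.comp Computable.fst))
    exact Computable.succ.comp (Computable.snd.comp (Computable.snd.comp h1))
  have cN2 : Computable (fun p : GArg => p.2.2.1.2.2 + 1) := by
    have h1 : Computable (fun p : GArg => p.2.2.1) :=
      Computable.fst.comp (Computable.snd.comp Computable.snd)
    exact Computable.succ.comp (Computable.snd.comp (Computable.snd.comp h1))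
  have hS1 := eff_gF.sum cN1
  have hS2 := hS1.sum cN2
  refine hS2.congr fun p => ?_
  rw [G_eq_finite _ _ _ (fract_cond p.2.2.1) (fract_cond p.2.2.2)]
  refine Finset.sum_congr rfl fun w _ => Finset.sum_congr rfl fun t _ => ?_
  simp only [gF, gTerm, eps]
  congr 1
  have hhalf : ratVal ((1, 0, 1) : RatCode) = 1 / 2 := by norm_num [ratVal]
  simp [hhalf]

end Vale.Agent.Lib.P113
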