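import Vale.Agent.Lib.P113.Uniqueness
import Vale.Agent.Lib.P113.GEff

/-!
Building blocks of the flow: trigonometric jets, time profiles and the spatial template.
-/

open Set MeasureTheory Filter Topology
open scoped ContDiff Real

namespace Vale.Agent.Lib.P113

/-! ### Jets in one variable -/

/-- A family of periodic functions each of which is the derivative of the previous one. -/
structure Jet (φ : ℕ → ℝ → ℝ) : Prop where
  der : ∀ k x, HasDerivAt (φ k) (φ (k + 1) x) x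
  smooth : ∀ k, ContDiff ℝ ∞ (φ k)
  per : ∀ k x (n : ℤ), φ k (x + n) = φ k x

theorem Jet.iter {φ : ℕ → ℝ → ℝ} (h : Jet φ) (k i : ℕ) (x : ℝ) :
    iteratedDeriv i (φ k) x = φ (k + i) x := by
  induction i generalizing x with
  | zero => simp
  | succ i ih =>
    rw [iteratedDeriv_succ]
    have e : iteratedDeriv i (φ k) = φ (k + i) := funext ih
    rw [e, (h.der (k + i) x).deriv]
    rfl

/-- The jet of `x ↦ sin (2 π x)`. -/
noncomputable def Sf (a : ℕ) (x : ℝ) : ℝ := (2 * π) ^ a * Real.sin (2 * π * x + a * (π / 2))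

/-- The jet of `x ↦ cos (2 π x)`. -/
noncomputable def Cf (a : ℕ) (x : ℝ) : ℝ := (2 * π) ^ a * Real.cos (2 * π * x + a * (π / 2))

/-- The jet of the constant function one. -/
noncomputable def oneJ (a : ℕ) (_ : ℝ) : ℝ := if a = 0 then 1 else 0

theorem arg_hasDerivAt (a : ℕ) (x : ℝ) :
    HasDerivAt (fun x : ℝ => 2 * π * x + a * (π / 2)) (2 * π) x := by
  simpa using ((hasDerivAt_id x).const_mul (2 * π)).add_const ((a : ℝ) * (π / 2))

theorem arg_succ (a : ℕ) (x : ℝ) :
    2 * π * x + ((a + 1 : ℕ) : ℝ) * (π / 2) = (2 * π * x + a * (π / 2)) + π / 2 := by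
  push_cast
  ring

theorem Sf_hasDerivAt (a : ℕ) (x : ℝ) : HasDerivAt (Sf a) (Sf (a + 1) x) x := by
  have h := ((arg_hasDerivAt a x).sin).const_mul ((2 * π) ^ a)
  refine h.congr_deriv ?_
  unfold Sf
  rw [arg_succ, Real.sin_add_pi_div_two, pow_succ]
  ring

theorem Cf_hasDerivAt (a : ℕ) (x : ℝ) : HasDerivAt (Cf a) (Cf (a + 1) x) x := by
  have h := ((arg_hasDerivAt a x).cos).const_mul ((2 * π) ^ a)
  refine h.congr_deriv ?_
  unfold Cf
  rw [arg_succ, Real.cos_add_pi_div_two, pow_succ]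
  ring

theorem Sf_contDiff (a : ℕ) : ContDiff ℝ ∞ (Sf a) := by
  unfold Sf
  exact contDiff_const.mul (Real.contDiff_sin.comp
    ((contDiff_const.mul contDiff_id).add contDiff_const))

theorem Cf_contDiff (a : ℕ) : ContDiff ℝ ∞ (Cf a) := by
  unfold Cf
  exact contDiff_const.mul (Real.contDiff_cos.comp
    ((contDiff_const.mul contDiff_id).add contDiff_const))

theorem arg_shift (a : ℕ) (x : ℝ) (n : ℤ) :
    2 * π * (x + n) + a * (π / 2) = (2 * π * x + a * (π / 2)) + n * (2 * π) := by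
  ring

theorem Sf_periodic (a : ℕ) (x : ℝ) (n : ℤ) : Sf a (x + n) = Sf a x := by
  unfold Sf
  rw [arg_shift, Real.sin_add_int_mul_two_pi]

theorem Cf_periodic (a : ℕ) (x : ℝ) (n : ℤ) : Cf a (x + n) = Cf a x := by
  unfold Cf
  rw [arg_shift, Real.cos_add_int_mul_two_pi]

theorem Sf_jet : Jet Sf := ⟨Sf_hasDerivAt, Sf_contDiff, Sf_periodic⟩

theorem Cf_jet : Jet Cf := ⟨Cf_hasDerivAt, Cf_contDiff, Cf_periodic⟩

theorem oneJ_jet : Jet oneJ := by
  refine ⟨fun k x => ?_, fun k => contDiff_const, fun k x n => rfl⟩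
  have e : oneJ k = fun _ => (if k = 0 then (1 : ℝ) else 0) := rfl
  rw [e]
  have e2 : oneJ (k + 1) x = 0 := by simp [oneJ]
  rw [e2]
  exact hasDerivAt_const _ _

@[simp] theorem Sf_zero (x : ℝ) : Sf 0 x = Real.sin (2 * π * x) := by simp [Sf]

@[simp] theorem Cf_zero (x : ℝ) : Cf 0 x = Real.cos (2 * π * x) := by simp [Cf]

theorem Sf_one (x : ℝ) : Sf 1 x = 2 * π * Real.cos (2 * π * x) := by
  have := arg_succ 0 x
  simp only [Sf]
  rw [this]
  simp [Real.sin_add_pi_div_two]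

theorem Cf_one (x : ℝ) : Cf 1 x = -(2 * π * Real.sin (2 * π * x)) := by
  have := arg_succ 0 x
  simp only [Cf]
  rw [this]
  simp [Real.cos_add_pi_div_two]

theorem Sf_two (x : ℝ) : Sf 2 x = -(4 * π ^ 2 * Real.sin (2 * π * x)) := by
  have e : 2 * π * x + ((2 : ℕ) : ℝ) * (π / 2) = 2 * π * x + π := by
    push_cast
    ring
  simp only [Sf]
  rw [e, Real.sin_add_pi]
  ring

theorem Cf_two (x : ℝ) : Cf 2 x = -(4 * π ^ 2 * Real.cos (2 * π * x)) := by
  have e : 2 * π * x + ((2 : ℕ) : ℝ) * (π / 2) = 2 * π * x + π := by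
    push_cast
    ring
  simp only [Cf]
  rw [e, Real.cos_add_pi]
  ring

/-! ### Time profiles -/

/-- The acting profile of the Taylor-Green phase, supported in `1/4 < fract t < 1/2`. -/
noncomputable def cA (k : ℕ) : ℝ → ℝ := phJ 4 1 k

/-- The acting profile of the detection phase, supported in `1/2 < fract t < 3/4`. -/
noncomputable def cB (k : ℕ) : ℝ → ℝ := phJ 4 2 k

/-- The profile of the preparation phase, supported in `0 < t < 1/4`. -/
noncomputable def c1 (k : ℕ) (t : ℝ) : ℝ := 4 ^ k * J k (4 * t)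

theorem cA_hasDerivAt (k : ℕ) (t : ℝ) : HasDerivAt (cA k) (cA (k + 1) t) t :=
  phJ_hasDerivAt (by norm_num) (by norm_num) (by norm_num) k t

theorem cB_hasDerivAt (k : ℕ) (t : ℝ) : HasDerivAt (cB k) (cB (k + 1) t) t :=
  phJ_hasDerivAt (by norm_num) (by norm_num) (by norm_num) k t

theorem cA_contDiff (k : ℕ) : ContDiff ℝ ∞ (cA k) :=
  phJ_contDiff (by norm_num) (by norm_num) (by norm_num) k

theorem cB_contDiff (k : ℕ) : ContDiff ℝ ∞ (cB k) :=
  phJ_contDiff (by norm_num) (by norm_num) (by norm_num) k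

theorem c1_hasDerivAt (k : ℕ) (t : ℝ) : HasDerivAt (c1 k) (c1 (k + 1) t) t := by
  have h1 : HasDerivAt (fun t : ℝ => 4 * t) 4 t := by
    simpa using (hasDerivAt_id t).const_mul (4 : ℝ)
  have h2 := (J_hasDerivAt k (4 * t)).comp t h1
  have h3 := h2.const_mul ((4 : ℝ) ^ k)
  refine h3.congr_deriv ?_
  simp only [c1]
  rw [pow_succ]
  ring

theorem c1_contDiff (k : ℕ) : ContDiff ℝ ∞ (c1 k) := by
  unfold c1
  exact contDiff_const.mul ((J_contDiff k).comp (contDiff_const.mul contDiff_id))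

theorem cA_iter (k i : ℕ) (t : ℝ) : iteratedDeriv i (cA k) t = cA (k + i) t :=
  phJ_iteratedDeriv' (by norm_num) (by norm_num) (by norm_num) k i t

theorem cB_iter (k i : ℕ) (t : ℝ) : iteratedDeriv i (cB k) t = cB (k + i) t :=
  phJ_iteratedDeriv' (by norm_num) (by norm_num) (by norm_num) k i t

theorem c1_iter (k i : ℕ) (t : ℝ) : iteratedDeriv i (c1 k) t = c1 (k + i) t := by
  induction i generalizing t with
  | zero => simp
  | succ i ih =>
    rw [iteratedDeriv_succ]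
    have e : iteratedDeriv i (c1 k) = c1 (k + i) := funext ih
    rw [e, (c1_hasDerivAt (k + i) t).deriv]
    rfl

theorem B_eq_zero_of_nonpos {s : ℝ} (h : s ≤ 0) : B s = 0 := by
  rw [← J_zero]
  exact J_eq_zero_of_nonpos 0 h

theorem B_eq_zero_of_one_le {s : ℝ} (h : 1 ≤ s) : B s = 0 := by
  rw [← J_zero]
  exact J_eq_zero_of_one_le 0 h

theorem cA_zero_eq (t : ℝ) : cA 0 t = B (4 * Int.fract t - 1) := phJ_zero_eq t

theorem cB_zero_eq (t : ℝ) : cB 0 t = B (4 * Int.fract t - 2) := phJ_zero_eq t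

theorem c1_zero_eq (t : ℝ) : c1 0 t = B (4 * t) := by simp [c1, J_zero]

theorem cA_nonneg (t : ℝ) : 0 ≤ cA 0 t := by
  rw [cA_zero_eq]
  exact B_nonneg _

theorem cB_nonneg (t : ℝ) : 0 ≤ cB 0 t := by
  rw [cB_zero_eq]
  exact B_nonneg _

theorem c1_nonneg (t : ℝ) : 0 ≤ c1 0 t := by
  rw [c1_zero_eq]
  exact B_nonneg _

theorem cA_mul_cB (t : ℝ) : cA 0 t * cB 0 t = 0 := by
  rw [cA_zero_eq, cB_zero_eq]
  by_cases h : 1 ≤ 4 * Int.fract t - 1
  · rw [B_eq_zero_of_one_le h, zero_mul]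
  · rw [B_eq_zero_of_nonpos (s := 4 * Int.fract t - 2) (by linarith), mul_zero]

theorem c1_eq_zero_of_le {t : ℝ} (h : t ≤ 0) (k : ℕ) : c1 k t = 0 := by
  simp only [c1]
  rw [J_eq_zero_of_nonpos k (by linarith), mul_zero]

theorem c1_eq_zero_of_ge {t : ℝ} (h : 1 / 4 ≤ t) (k : ℕ) : c1 k t = 0 := by
  simp only [c1]
  rw [J_eq_zero_of_one_le k (by linarith), mul_zero]

theorem fract_eq_of_small {t : ℝ} (h0 : 0 < t) (h1 : t < 1 / 4) : Int.fract t = t :=
  Int.fract_eq_self.2 ⟨h0.le, by linarith⟩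

theorem c1_mul_cA (t : ℝ) : c1 0 t * cA 0 t = 0 := by
  by_cases h0 : t ≤ 0
  · rw [c1_eq_zero_of_le h0, zero_mul]
  by_cases h1 : 1 / 4 ≤ t
  · rw [c1_eq_zero_of_ge h1, zero_mul]
  push Not at h0 h1
  rw [cA_zero_eq, fract_eq_of_small h0 h1, B_eq_zero_of_nonpos (by linarith), mul_zero]

theorem c1_mul_cB (t : ℝ) : c1 0 t * cB 0 t = 0 := by
  by_cases h0 : t ≤ 0
  · rw [c1_eq_zero_of_le h0, zero_mul]
  by_cases h1 : 1 / 4 ≤ t
  · rw [c1_eq_zero_of_ge h1, zero_mul]
  push Not at h0 h1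
  rw [cB_zero_eq, fract_eq_of_small h0 h1, B_eq_zero_of_nonpos (by linarith), mul_zero]

theorem cA_at_zero : cA 0 0 = 0 := by
  rw [cA_zero_eq, Int.fract_zero]
  exact B_eq_zero_of_nonpos (by norm_num)

theorem cB_at_zero : cB 0 0 = 0 := by
  rw [cB_zero_eq, Int.fract_zero]
  exact B_eq_zero_of_nonpos (by norm_num)

theorem c1_at_zero : c1 0 0 = 0 := c1_eq_zero_of_le le_rfl 0

theorem cA_add_one (k : ℕ) (t : ℝ) : cA k (t + 1) = cA k t := by
  simp [cA, phJ, Int.fract_add_one]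

theorem cB_add_one (k : ℕ) (t : ℝ) : cB k (t + 1) = cB k t := by
  simp [cB, phJ, Int.fract_add_one]

/-! ### The spatial template -/

/-- A partial derivative from a derivative along the coordinate line. -/
theorem pd_eq_of_hasDerivAt {F : R3 → ℝ} {X : R3} {j : Fin 3} {d : ℝ} (hF : DifferentiableAt ℝ F X)
    (h : HasDerivAt (fun s => F (Function.update X j s)) d (X j)) : pd j F X = d := by
  have h1 : HasDerivAt (fun s => Function.update X j s) (Pi.single j (1 : ℝ)) (X j) :=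
    hasDerivAt_update X j (X j)
  have h2 : HasFDerivAt F (fderiv ℝ F X) (Function.update X j (X j)) := by
    rw [Function.update_eq_self]
    exact hF.hasFDerivAt
  have h3 := h2.comp_hasDerivAt (X j) h1
  exact h3.unique h

/-- The template for the components of the velocity. -/
noncomputable def tm (a : ℝ) (φ ψ : ℕ → ℝ → ℝ) (b : ℝ) (χ : ℕ → ℕ → Bool) (k l p q : ℕ) (X : R3) : ℝ :=
  a * (φ k (X 0) * ψ l (X 2)) + b * G χ p q (X 1, X 2)

section template

variable {a b : ℝ} {φ ψ : ℕ → ℝ → ℝ} {χ : ℕ → ℕ → Bool} {k l p q : ℕ}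

theorem coord_smooth (i : Fin 3) : ContDiff ℝ ∞ (fun X : R3 => X i) :=
  contDiff_apply ℝ ℝ i

theorem G_comp_smooth (χ : ℕ → ℕ → Bool) (p q : ℕ) :
    ContDiff ℝ ∞ (fun X : R3 => G χ p q (X 1, X 2)) :=
  (G_contDiff χ p q).comp ((coord_smooth 1).prodMk (coord_smooth 2))

theorem tm_contDiff (hφ : Jet φ) (hψ : Jet ψ) : ContDiff ℝ ∞ (tm a φ ψ b χ k l p q) := by
  unfold tm
  exact (contDiff_const.mul (((hφ.smooth k).comp (coord_smooth 0)).mul
    ((hψ.smooth l).comp (coord_smooth 2)))).add (contDiff_const.mul (G_comp_smooth χ p q))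

theorem tm_differentiable (hφ : Jet φ) (hψ : Jet ψ) :
    Differentiable ℝ (tm a φ ψ b χ k l p q) :=
  (tm_contDiff hφ hψ).differentiable (by simp)

theorem update0 (X : R3) (s : ℝ) : Function.update X 0 s 0 = s ∧ Function.update X 0 s 1 = X 1 ∧
    Function.update X 0 s 2 = X 2 := by
  simp [Function.update]

theorem update1 (X : R3) (s : ℝ) : Function.update X 1 s 0 = X 0 ∧ Function.update X 1 s 1 = s ∧
    Function.update X 1 s 2 = X 2 := by
  simp [Function.update]

theorem update2 (X : R3) (s : ℝ) : Function.update X 2 s 0 = X 0 ∧ Function.update X 2 s 1 = X 1 ∧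
    Function.update X 2 s 2 = s := by
  simp [Function.update]

theorem tm_pd0 (hφ : Jet φ) (hψ : Jet ψ) :
    pd 0 (tm a φ ψ b χ k l p q) = tm a φ ψ 0 χ (k + 1) l p q := by
  funext X
  refine pd_eq_of_hasDerivAt (tm_differentiable hφ hψ X) ?_
  have e : (fun s => tm a φ ψ b χ k l p q (Function.update X 0 s)) =
      fun s => a * (φ k s * ψ l (X 2)) + b * G χ p q (X 1, X 2) := by
    funext s
    simp only [tm, update0]
  rw [e]
  have h := (((hφ.der k (X 0)).mul_const (ψ l (X 2))).const_mul a).add_const (b * G χ p q (X 1, X 2))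
  refine h.congr_deriv ?_
  simp [tm]

theorem tm_pd1 (hφ : Jet φ) (hψ : Jet ψ) :
    pd 1 (tm a φ ψ b χ k l p q) = tm 0 φ ψ b χ k l (p + 1) q := by
  funext X
  refine pd_eq_of_hasDerivAt (tm_differentiable hφ hψ X) ?_
  have e : (fun s => tm a φ ψ b χ k l p q (Function.update X 1 s)) =
      fun s => a * (φ k (X 0) * ψ l (X 2)) + b * G χ p q (s, X 2) := by
    funext s
    simp only [tm, update1]
  rw [e]
  have h := ((G_hasDerivAt_left χ p q (X 1) (X 2)).const_mul b).const_add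
    (a * (φ k (X 0) * ψ l (X 2)))
  refine h.congr_deriv ?_
  simp [tm]

theorem tm_pd2 (hφ : Jet φ) (hψ : Jet ψ) :
    pd 2 (tm a φ ψ b χ k l p q) = tm a φ ψ b χ k (l + 1) p (q + 1) := by
  funext X
  refine pd_eq_of_hasDerivAt (tm_differentiable hφ hψ X) ?_
  have e : (fun s => tm a φ ψ b χ k l p q (Function.update X 2 s)) =
      fun s => a * (φ k (X 0) * ψ l s) + b * G χ p q (X 1, s) := by
    funext s
    simp only [tm, update2]
  rw [e]
  have h := (((hψ.der l (X 2)).const_mul (φ k (X 0))).const_mul a).add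
    ((G_hasDerivAt_right χ p q (X 1) (X 2)).const_mul b)
  refine h.congr_deriv ?_
  simp [tm]

theorem tm_periodic (hφ : Jet φ) (hψ : Jet ψ) : Periodic3 (tm a φ ψ b χ k l p q) := by
  intro n X
  simp only [tm]
  rw [hφ.per, hψ.per, G_periodic_left, G_periodic_right]

end template

end Vale.Agent.Lib.P113
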