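import Vale.Agent.Lib.P113.Flow1

/-!
The flow: velocity, pressure and force; it is a global smooth solution.
-/

open Set MeasureTheory Filter Topology
open scoped ContDiff Real

namespace Vale.Agent.Lib.P113

section generic

variable {ν T : ℝ} {f : ℝ → R3 → R3} {u : ℝ → R3 → R3} {p : ℝ → R3 → ℝ}

/-- Joint smoothness gives all regularity requirements of a classical solution. -/
theorem classical_of_smooth (hT : 0 < T)
    (hu : ContDiff ℝ ∞ (fun q : ℝ × R3 => u q.1 q.2))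
    (hp : ContDiff ℝ ∞ (fun q : ℝ × R3 => p q.1 q.2))
    (hper : ∀ t, Periodic3 (u t)) (hperp : ∀ t, Periodic3 (p t))
    (h0 : ∀ x, u 0 x = 0) (hmean : ∀ t, ∫ x in cube, p t x = 0)
    (hdiv : ∀ t x, ∑ j, pd j (fun y => u t y j) x = 0)
    (hmom : ∀ t x i, deriv (fun s => u s x i) t + ∑ j, u t x j * pd j (fun y => u t y i) x
      = - pd i (p t) x + ν * ∑ j, pd j (pd j (fun y => u t y i)) x + f t x i) :
    IsClassicalSolution ν f T u p := by
  have hder : ∀ t x, HasDerivAt (fun s => u s x)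
      (fderiv ℝ (fun q : ℝ × R3 => u q.1 q.2) (t, x) (1, 0)) t :=
    fun t x => hasDerivAt_slice_time hu t x
  have hslice : ∀ t, ContDiff ℝ ∞ (u t) := fun t =>
    hu.comp (contDiff_const.prodMk contDiff_id)
  have hslicep : ∀ t, ContDiff ℝ ∞ (p t) := fun t =>
    hp.comp (contDiff_const.prodMk contDiff_id)
  have hU' : ContDiff ℝ ∞ (fun q : ℝ × R3 => fderiv ℝ (u q.1) q.2) :=
    slice_smooth hu
  have hU'' : ContDiff ℝ ∞ (fun q : ℝ × R3 => fderiv ℝ (fderiv ℝ (u q.1)) q.2) :=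
    slice_smooth hU'
  have hP' : ContDiff ℝ ∞ (fun q : ℝ × R3 => fderiv ℝ (p q.1) q.2) :=
    slice_smooth hp
  refine
    { periodic_u := fun t _ => hper t
      periodic_p := fun t _ => hperp t
      initial := h0
      diff_t := fun x t _ => (hder t x).differentiableAt.differentiableWithinAt
      diff_x := fun t _ => contDiff_infty.1 (hslice t) 2
      diff_p := fun t _ => (hslicep t).of_le (by exact_mod_cast (le_top : (1 : ℕ∞) ≤ ⊤))
      cont_u := hu.continuous.continuousOn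
      cont_ut := ?_
      cont_du := hU'.continuous.continuousOn
      cont_ddu := hU''.continuous.continuousOn
      cont_p := hp.continuous.continuousOn
      cont_dp := hP'.continuous.continuousOn
      mean_p := fun t _ => hmean t
      div_free := fun t _ x => hdiv t x
      momentum := ?_ }
  · have hc : Continuous (fun q : ℝ × R3 =>
        fderiv ℝ (fun q : ℝ × R3 => u q.1 q.2) q ((1 : ℝ), (0 : R3))) :=
      (hu.continuous_fderiv (by simp)).clm_apply continuous_const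
    refine hc.continuousOn.congr fun q hq => ?_
    exact (hder q.1 q.2).hasDerivWithinAt.derivWithin (uniqueDiffOn_Icc hT q.1 hq.1)
  · intro t ht x i
    have h1 := (hasDerivAt_pi.1 (hder t x)) i
    have e : derivWithin (fun s => u s x i) (Icc 0 T) t = deriv (fun s => u s x i) t :=
      h1.differentiableAt.derivWithin (uniqueDiffOn_Icc hT t ht)
    rw [e]
    exact hmom t x i

end generic

/-! ### The flow -/

/-- The velocity field. -/
noncomputable def uF (κ V : ℝ) (χ : ℕ → ℕ → Bool) (t : ℝ) (X : R3) : R3 :=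
  ![tm (κ * cA 0 t) Sf Cf (cB 0 t) χ 0 0 0 0 X, c1 0 t * V, tm (-(κ * cA 0 t)) Cf Sf 0 χ 0 0 0 0 X]

/-- The spatial profile of the pressure. -/
noncomputable def P0 (s : ℝ) : ℝ := Real.cos (4 * π * s) / 4

/-- The pressure. -/
noncomputable def pF (κ : ℝ) (t : ℝ) (X : R3) : ℝ := (κ * cA 0 t) ^ 2 * (P0 (X 0) + P0 (X 2))

/-- Time amplitude of the Taylor-Green part of the force. -/
noncomputable def ampA (κ ν : ℝ) (t : ℝ) : ℝ := κ * (cA 1 t + 8 * π ^ 2 * ν * cA 0 t)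

/-- The generic form of a component of the force. -/
noncomputable def Fgen (χ : ℕ → ℕ → Bool) (φ ψ : ℕ → ℝ → ℝ) (a1 a2 a3 : ℝ → ℝ) (t : ℝ) (X : R3) : ℝ :=
  a1 t * (φ 0 (X 0) * ψ 0 (X 2)) +
    (a2 t * G χ 0 0 (X 1, X 2) + a3 t * (G χ 2 0 (X 1, X 2) + G χ 0 2 (X 1, X 2)))

/-- The force. -/
noncomputable def fF (κ V ν : ℝ) (χ : ℕ → ℕ → Bool) (t : ℝ) (X : R3) : R3 :=
  ![Fgen χ Sf Cf (ampA κ ν) (cB 1) (fun t => -(ν * cB 0 t)) t X,
    Fgen χ oneJ oneJ (fun t => c1 1 t * V) (fun _ => 0) (fun _ => 0) t X,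
    Fgen χ Cf Sf (fun t => -ampA κ ν t) (fun _ => 0) (fun _ => 0) t X]

section flow

variable {κ V ν : ℝ} {χ : ℕ → ℕ → Bool}

theorem tm_joint {a b : ℝ → ℝ} {φ ψ : ℕ → ℝ → ℝ} (ha : ContDiff ℝ ∞ a) (hb : ContDiff ℝ ∞ b)
    (hφ : Jet φ) (hψ : Jet ψ) (k l p q : ℕ) :
    ContDiff ℝ ∞ (fun r : ℝ × R3 => tm (a r.1) φ ψ (b r.1) χ k l p q r.2) := by
  unfold tm
  have h0 : ContDiff ℝ ∞ (fun r : ℝ × R3 => r.2 0) := (coord_smooth 0).comp contDiff_snd
  have h2 : ContDiff ℝ ∞ (fun r : ℝ × R3 => r.2 2) := (coord_smooth 2).comp contDiff_snd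
  refine ContDiff.add (ContDiff.mul (ha.comp contDiff_fst)
    (ContDiff.mul ((hφ.smooth k).comp h0) ((hψ.smooth l).comp h2)))
    (ContDiff.mul (hb.comp contDiff_fst) ((G_comp_smooth χ p q).comp contDiff_snd))

theorem Fgen_joint {φ ψ : ℕ → ℝ → ℝ} {a1 a2 a3 : ℝ → ℝ} (h1 : ContDiff ℝ ∞ a1)
    (h2 : ContDiff ℝ ∞ a2) (h3 : ContDiff ℝ ∞ a3) (hφ : Jet φ) (hψ : Jet ψ) :
    ContDiff ℝ ∞ (fun r : ℝ × R3 => Fgen χ φ ψ a1 a2 a3 r.1 r.2) := by
  unfold Fgen
  have c0 : ContDiff ℝ ∞ (fun r : ℝ × R3 => r.2 0) := (coord_smooth 0).comp contDiff_snd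
  have c2 : ContDiff ℝ ∞ (fun r : ℝ × R3 => r.2 2) := (coord_smooth 2).comp contDiff_snd
  have g : ∀ p q, ContDiff ℝ ∞ (fun r : ℝ × R3 => G χ p q (r.2 1, r.2 2)) := fun p q =>
    (G_comp_smooth χ p q).comp contDiff_snd
  exact ContDiff.add (ContDiff.mul (h1.comp contDiff_fst)
      (ContDiff.mul ((hφ.smooth 0).comp c0) ((hψ.smooth 0).comp c2)))
    (ContDiff.add (ContDiff.mul (h2.comp contDiff_fst) (g 0 0))
      (ContDiff.mul (h3.comp contDiff_fst) (ContDiff.add (g 2 0) (g 0 2))))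

theorem amp_smooth (κ : ℝ) : ContDiff ℝ ∞ (fun t => κ * cA 0 t) :=
  contDiff_const.mul (cA_contDiff 0)

theorem ampA_smooth (κ ν : ℝ) : ContDiff ℝ ∞ (ampA κ ν) := by
  unfold ampA
  exact contDiff_const.mul ((cA_contDiff 1).add (contDiff_const.mul (cA_contDiff 0)))

theorem uF_joint : ContDiff ℝ ∞ (fun r : ℝ × R3 => uF κ V χ r.1 r.2) := by
  refine contDiff_pi.2 fun i => ?_
  match i with
  | 0 => exact tm_joint (amp_smooth κ) (cB_contDiff 0) Sf_jet Cf_jet 0 0 0 0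
  | 1 => exact ((c1_contDiff 0).mul contDiff_const).comp contDiff_fst
  | 2 => exact tm_joint (amp_smooth κ).neg contDiff_const Cf_jet Sf_jet 0 0 0 0

theorem P0_contDiff : ContDiff ℝ ∞ P0 := by
  unfold P0
  exact ContDiff.div_const (Real.contDiff_cos.comp (contDiff_const.mul contDiff_id)) 4

theorem pF_joint : ContDiff ℝ ∞ (fun r : ℝ × R3 => pF κ r.1 r.2) := by
  unfold pF
  have c0 : ContDiff ℝ ∞ (fun r : ℝ × R3 => r.2 0) := (coord_smooth 0).comp contDiff_snd
  have c2 : ContDiff ℝ ∞ (fun r : ℝ × R3 => r.2 2) := (coord_smooth 2).comp contDiff_snd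
  exact ContDiff.mul (((amp_smooth κ).comp contDiff_fst).pow 2)
    (ContDiff.add (P0_contDiff.comp c0) (P0_contDiff.comp c2))

theorem fF_joint : ContDiff ℝ ∞ (fun r : ℝ × R3 => fF κ V ν χ r.1 r.2) := by
  refine contDiff_pi.2 fun i => ?_
  match i with
  | 0 => exact Fgen_joint (ampA_smooth κ ν) (cB_contDiff 1)
            (contDiff_const.mul (cB_contDiff 0)).neg Sf_jet Cf_jet
  | 1 => exact Fgen_joint ((c1_contDiff 1).mul contDiff_const) contDiff_const contDiff_const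
            oneJ_jet oneJ_jet
  | 2 => exact Fgen_joint (ampA_smooth κ ν).neg contDiff_const contDiff_const Cf_jet Sf_jet

theorem uF_periodic (t : ℝ) : Periodic3 (uF κ V χ t) := by
  intro n X
  funext i
  match i with
  | 0 => exact tm_periodic Sf_jet Cf_jet n X
  | 1 => rfl
  | 2 => exact tm_periodic Cf_jet Sf_jet n X

theorem P0_periodic (x : ℝ) (n : ℤ) : P0 (x + n) = P0 x := by
  unfold P0
  have e : 4 * π * (x + n) = 4 * π * x + ((2 * n : ℤ) : ℝ) * (2 * π) := by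
    push_cast
    ring
  rw [e, Real.cos_add_int_mul_two_pi]

theorem pF_periodic (t : ℝ) : Periodic3 (pF κ t) := by
  intro n X
  simp only [pF]
  rw [P0_periodic, P0_periodic]

theorem Fgen_periodic {φ ψ : ℕ → ℝ → ℝ} {a1 a2 a3 : ℝ → ℝ} (hφ : Jet φ) (hψ : Jet ψ) (t : ℝ) :
    Periodic3 (Fgen χ φ ψ a1 a2 a3 t) := by
  intro n X
  simp only [Fgen]
  rw [hφ.per, hψ.per]
  simp only [G_periodic_left, G_periodic_right]

theorem fF_periodic (t : ℝ) : Periodic3 (fF κ V ν χ t) := by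
  intro n X
  funext i
  match i with
  | 0 =>
    exact Fgen_periodic (χ := χ) (a1 := ampA κ ν) (a2 := cB 1) (a3 := fun t => -(ν * cB 0 t))
      Sf_jet Cf_jet t n X
  | 1 =>
    exact Fgen_periodic (χ := χ) (a1 := fun t => c1 1 t * V) (a2 := fun _ => 0) (a3 := fun _ => 0)
      oneJ_jet oneJ_jet t n X
  | 2 =>
    exact Fgen_periodic (χ := χ) (a1 := fun t => -ampA κ ν t) (a2 := fun _ => 0) (a3 := fun _ => 0)
      Cf_jet Sf_jet t n X

theorem uF_initial (X : R3) : uF κ V χ 0 X = 0 := by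
  funext i
  match i with
  | 0 =>
    show tm (κ * cA 0 0) Sf Cf (cB 0 0) χ 0 0 0 0 X = 0
    simp [tm, cA_at_zero, cB_at_zero]
  | 1 =>
    show c1 0 0 * V = 0
    simp [c1_at_zero]
  | 2 =>
    show tm (-(κ * cA 0 0)) Cf Sf 0 χ 0 0 0 0 X = 0
    simp [tm, cA_at_zero]

/-! ### Pressure -/

/-- A primitive of the spatial pressure profile. -/
noncomputable def Q0 (s : ℝ) : ℝ := Real.sin (4 * π * s) / (16 * π)

theorem arg4_hasDerivAt (s : ℝ) : HasDerivAt (fun s : ℝ => 4 * π * s) (4 * π) s := by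
  simpa using (hasDerivAt_id s).const_mul (4 * π)

theorem Q0_hasDerivAt (s : ℝ) : HasDerivAt Q0 (P0 s) s := by
  have h := ((arg4_hasDerivAt s).sin).div_const (16 * π)
  refine h.congr_deriv ?_
  unfold P0
  have := Real.pi_pos
  field_simp
  ring

/-- The derivative of the pressure profile. -/
noncomputable def P1 (s : ℝ) : ℝ := - (π * Real.sin (4 * π * s))

theorem P0_hasDerivAt (s : ℝ) : HasDerivAt P0 (P1 s) s := by
  have h := ((arg4_hasDerivAt s).cos).div_const 4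
  refine h.congr_deriv ?_
  unfold P1
  ring

theorem Q0_contDiff : ContDiff ℝ ∞ Q0 := by
  unfold Q0
  exact ContDiff.div_const (Real.contDiff_sin.comp (contDiff_const.mul contDiff_id)) _

theorem Q0_periodic (x : ℝ) (n : ℤ) : Q0 (x + n) = Q0 x := by
  unfold Q0
  have e : 4 * π * (x + n) = 4 * π * x + ((2 * n : ℤ) : ℝ) * (2 * π) := by
    push_cast
    ring
  rw [e, Real.sin_add_int_mul_two_pi]

theorem integral_P0 (j : Fin 3) : ∫ X in cube, P0 (X j) = 0 := by
  have hF : ContDiff ℝ ∞ (fun X : R3 => Q0 (X j)) := Q0_contDiff.comp (coord_smooth j)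
  have hd : Differentiable ℝ (fun X : R3 => Q0 (X j)) := hF.differentiable (by simp)
  have hp : Periodic3 (fun X : R3 => Q0 (X j)) := fun n X => Q0_periodic (X j) (n j)
  have h := integral_pd_eq_zero (hF.of_le (by exact_mod_cast (le_top : (1 : ℕ∞) ≤ ⊤))) hp j
  have e : ∀ X, pd j (fun X : R3 => Q0 (X j)) X = P0 (X j) := by
    intro X
    refine pd_eq_of_hasDerivAt (hd X) ?_
    simp only [Function.update_self]
    exact Q0_hasDerivAt _
  simp only [e] at h
  exact h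

theorem pF_mean (t : ℝ) : ∫ X in cube, pF κ t X = 0 := by
  unfold pF
  rw [integral_const_mul, integral_add, integral_P0 0, integral_P0 2]
  · simp
  · exact (P0_contDiff.comp (coord_smooth 0)).continuous.continuousOn.integrableOn_compact
      isCompact_cube
  · exact (P0_contDiff.comp (coord_smooth 2)).continuous.continuousOn.integrableOn_compact
      isCompact_cube

theorem pF_differentiable (t : ℝ) : Differentiable ℝ (pF κ t) := by
  have : ContDiff ℝ ∞ (pF κ t) := by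
    unfold pF
    exact contDiff_const.mul (ContDiff.add (P0_contDiff.comp (coord_smooth 0))
      (P0_contDiff.comp (coord_smooth 2)))
  exact this.differentiable (by simp)

theorem pF_pd0 (t : ℝ) (X : R3) : pd 0 (pF κ t) X = (κ * cA 0 t) ^ 2 * P1 (X 0) := by
  refine pd_eq_of_hasDerivAt (pF_differentiable t X) ?_
  have e : (fun s => pF κ t (Function.update X 0 s)) =
      fun s => (κ * cA 0 t) ^ 2 * (P0 s + P0 (X 2)) := by
    funext s
    simp only [pF, update0]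
  rw [e]
  exact ((P0_hasDerivAt (X 0)).add_const (P0 (X 2))).const_mul _

theorem pF_pd1 (t : ℝ) (X : R3) : pd 1 (pF κ t) X = 0 := by
  refine pd_eq_of_hasDerivAt (pF_differentiable t X) ?_
  have e : (fun s => pF κ t (Function.update X 1 s)) =
      fun _ => (κ * cA 0 t) ^ 2 * (P0 (X 0) + P0 (X 2)) := by
    funext s
    simp only [pF, update1]
  rw [e]
  exact hasDerivAt_const _ _

theorem pF_pd2 (t : ℝ) (X : R3) : pd 2 (pF κ t) X = (κ * cA 0 t) ^ 2 * P1 (X 2) := by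
  refine pd_eq_of_hasDerivAt (pF_differentiable t X) ?_
  have e : (fun s => pF κ t (Function.update X 2 s)) =
      fun s => (κ * cA 0 t) ^ 2 * (P0 (X 0) + P0 s) := by
    funext s
    simp only [pF, update2]
  rw [e]
  exact ((P0_hasDerivAt (X 2)).const_add (P0 (X 0))).const_mul _

theorem P1_eq (s : ℝ) : P1 s = -(2 * π * (Real.sin (2 * π * s) * Real.cos (2 * π * s))) := by
  unfold P1
  have e : 4 * π * s = 2 * (2 * π * s) := by ring
  rw [e, Real.sin_two_mul]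
  ring

/-! ### The equations -/

theorem uF_c0 (t : ℝ) : (fun y => uF κ V χ t y 0) = tm (κ * cA 0 t) Sf Cf (cB 0 t) χ 0 0 0 0 := rfl

theorem uF_c1 (t : ℝ) : (fun y => uF κ V χ t y 1) = fun _ => c1 0 t * V := rfl

theorem uF_c2 (t : ℝ) : (fun y => uF κ V χ t y 2) = tm (-(κ * cA 0 t)) Cf Sf 0 χ 0 0 0 0 := rfl

theorem uF_a0 (t : ℝ) (X : R3) : uF κ V χ t X 0 = tm (κ * cA 0 t) Sf Cf (cB 0 t) χ 0 0 0 0 X := rfl

theorem uF_a1 (t : ℝ) (X : R3) : uF κ V χ t X 1 = c1 0 t * V := rfl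

theorem uF_a2 (t : ℝ) (X : R3) : uF κ V χ t X 2 = tm (-(κ * cA 0 t)) Cf Sf 0 χ 0 0 0 0 X := rfl

theorem pd_const (j : Fin 3) (c : ℝ) (X : R3) : pd j (fun _ => c) X = 0 := by
  simp [pd]

theorem pd_const' (j : Fin 3) (c : ℝ) : pd j (fun _ => c) = fun _ => 0 := by
  funext X
  exact pd_const j c X

theorem uF_div (t : ℝ) (X : R3) : ∑ j, pd j (fun y => uF κ V χ t y j) X = 0 := by
  rw [Fin.sum_univ_three, uF_c0, uF_c1, uF_c2, tm_pd0 Sf_jet Cf_jet, pd_const,
    tm_pd2 Cf_jet Sf_jet]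
  simp only [tm, zero_add, Sf_one, Cf_zero]
  ring

theorem uF_dt0 (t : ℝ) (X : R3) : HasDerivAt (fun s => uF κ V χ s X 0)
    (κ * cA 1 t * (Sf 0 (X 0) * Cf 0 (X 2)) + cB 1 t * G χ 0 0 (X 1, X 2)) t := by
  exact (((cA_hasDerivAt 0 t).const_mul κ).mul_const _).add ((cB_hasDerivAt 0 t).mul_const _)

theorem uF_dt1 (t : ℝ) (X : R3) : HasDerivAt (fun s => uF κ V χ s X 1) (c1 1 t * V) t := by
  exact (c1_hasDerivAt 0 t).mul_const V

theorem uF_dt2 (t : ℝ) (X : R3) : HasDerivAt (fun s => uF κ V χ s X 2)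
    (-(κ * cA 1 t) * (Cf 0 (X 0) * Sf 0 (X 2))) t := by
  have h := ((((cA_hasDerivAt 0 t).const_mul κ).neg).mul_const (Cf 0 (X 0) * Sf 0 (X 2))).add_const
    ((0 : ℝ) * G χ 0 0 (X 1, X 2))
  exact h

theorem uF_mom0 (t : ℝ) (X : R3) :
    deriv (fun s => uF κ V χ s X 0) t + ∑ j, uF κ V χ t X j * pd j (fun y => uF κ V χ t y 0) X
      = - pd 0 (pF κ t) X + ν * ∑ j, pd j (pd j (fun y => uF κ V χ t y 0)) X + fF κ V ν χ t X 0 := by
  rw [(uF_dt0 t X).deriv, pF_pd0, P1_eq]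
  simp only [Fin.sum_univ_three, tm_pd0 Sf_jet Cf_jet, tm_pd1 Sf_jet Cf_jet,
    tm_pd2 Sf_jet Cf_jet, uF_a0, uF_a1, uF_a2]
  show _ = _ + Fgen χ Sf Cf (ampA κ ν) (cB 1) (fun t => -(ν * cB 0 t)) t X
  simp only [tm, Fgen, ampA, zero_add, Nat.reduceAdd, Sf_one, Cf_one, Sf_two, Cf_two, Sf_zero, Cf_zero]
  have hAB := cA_mul_cB t
  have hAC := c1_mul_cA t
  have hBC := c1_mul_cB t
  have hz := Real.sin_sq_add_cos_sq (2 * π * X 2)
  generalize Real.sin (2 * π * X 0) = s0 at *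
  generalize Real.cos (2 * π * X 0) = c0 at *
  generalize Real.sin (2 * π * X 2) = s2 at *
  generalize Real.cos (2 * π * X 2) = c2 at *
  generalize cA 0 t = A at *
  generalize cB 0 t = B at *
  generalize c1 0 t = C at *
  generalize G χ 0 0 (X 1, X 2) = G00 at *
  generalize G χ 1 0 (X 1, X 2) = G10 at *
  generalize G χ 0 1 (X 1, X 2) = G01 at *
  linear_combination (2 * π * s0 * c0 * (κ * A) ^ 2) * hz +
    (κ * (G00 * 2 * π * c0 * c2 * 1 ) + κ * 2 * π * c0 * s2 * s0 * 0 - κ * c0 * s2 * G01) * hAB +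
    (V * G10) * hBC

theorem uF_mom1 (t : ℝ) (X : R3) :
    deriv (fun s => uF κ V χ s X 1) t + ∑ j, uF κ V χ t X j * pd j (fun y => uF κ V χ t y 1) X
      = - pd 1 (pF κ t) X + ν * ∑ j, pd j (pd j (fun y => uF κ V χ t y 1)) X + fF κ V ν χ t X 1 := by
  rw [(uF_dt1 t X).deriv, pF_pd1]
  simp only [Fin.sum_univ_three, uF_c1, pd_const', pd_const]
  show _ = _ + Fgen χ oneJ oneJ (fun t => c1 1 t * V) (fun _ => 0) (fun _ => 0) t X
  simp [Fgen, oneJ]

theorem uF_mom2 (t : ℝ) (X : R3) :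
    deriv (fun s => uF κ V χ s X 2) t + ∑ j, uF κ V χ t X j * pd j (fun y => uF κ V χ t y 2) X
      = - pd 2 (pF κ t) X + ν * ∑ j, pd j (pd j (fun y => uF κ V χ t y 2)) X + fF κ V ν χ t X 2 := by
  rw [(uF_dt2 t X).deriv, pF_pd2, P1_eq]
  simp only [Fin.sum_univ_three, tm_pd0 Cf_jet Sf_jet, tm_pd1 Cf_jet Sf_jet,
    tm_pd2 Cf_jet Sf_jet, uF_a0, uF_a1, uF_a2]
  show _ = _ + Fgen χ Cf Sf (fun t => -ampA κ ν t) (fun _ => 0) (fun _ => 0) t X
  simp only [tm, Fgen, ampA, zero_add, Nat.reduceAdd, Sf_one, Cf_one, Sf_two, Cf_two, Sf_zero, Cf_zero]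
  have hAB := cA_mul_cB t
  have hz := Real.sin_sq_add_cos_sq (2 * π * X 0)
  generalize Real.sin (2 * π * X 0) = s0 at *
  generalize Real.cos (2 * π * X 0) = c0 at *
  generalize Real.sin (2 * π * X 2) = s2 at *
  generalize Real.cos (2 * π * X 2) = c2 at *
  generalize cA 0 t = A at *
  generalize cB 0 t = B at *
  generalize G χ 0 0 (X 1, X 2) = G00 at *
  generalize G χ 1 0 (X 1, X 2) = G10 at *
  generalize G χ 0 1 (X 1, X 2) = G01 at *
  linear_combination (2 * π * s2 * c2 * (κ * A) ^ 2) * hz +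
    (κ * G00 * 2 * π * s0 * s2) * hAB

theorem uF_mom (t : ℝ) (X : R3) (i : Fin 3) :
    deriv (fun s => uF κ V χ s X i) t + ∑ j, uF κ V χ t X j * pd j (fun y => uF κ V χ t y i) X
      = - pd i (pF κ t) X + ν * ∑ j, pd j (pd j (fun y => uF κ V χ t y i)) X + fF κ V ν χ t X i := by
  match i with
  | 0 => exact uF_mom0 t X
  | 1 => exact uF_mom1 t X
  | 2 => exact uF_mom2 t X

/-- The flow is a global smooth solution. -/
theorem flow_solution : IsGlobalSmoothSolution ν (fF κ V ν χ) (uF κ V χ) (pF κ) :=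
  ⟨uF_joint, pF_joint, fun _ hT => classical_of_smooth hT uF_joint pF_joint uF_periodic pF_periodic
    uF_initial pF_mean uF_div uF_mom⟩

end flow

end Vale.Agent.Lib.P113
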