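import Vale.Agent.Lib.P113.BumpEff

/-!
The detection profile: a series of tiny bumps, its smoothness and its derivatives.
-/

open Filter Topology
open scoped ContDiff

namespace Vale.Agent.Lib.P113

/-- The periodized bump `y ↦ B (2^m * fract y - 1)` and its derivatives. -/
noncomputable def phi (m k : ℕ) (y : ℝ) : ℝ := phJ ((2 : ℝ) ^ m) 1 k y

theorem two_pow_hsup {m : ℕ} (hm : 2 ≤ m) : 1 ≤ ((2 : ℝ) ^ m) * (3 / 4) - 1 := by
  have : (2 : ℝ) ^ 2 ≤ (2 : ℝ) ^ m := pow_le_pow_right₀ (by norm_num) hm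
  norm_num at this
  linarith

theorem phi_hasDerivAt {m : ℕ} (hm : 2 ≤ m) (k : ℕ) (y : ℝ) :
    HasDerivAt (phi m k) (phi m (k + 1) y) y :=
  phJ_hasDerivAt (by positivity) (by norm_num) (two_pow_hsup hm) k y

theorem phi_contDiff {m : ℕ} (hm : 2 ≤ m) (k : ℕ) : ContDiff ℝ ∞ (phi m k) :=
  phJ_contDiff (by positivity) (by norm_num) (two_pow_hsup hm) k

theorem phi_iteratedDeriv {m : ℕ} (hm : 2 ≤ m) (k i : ℕ) (y : ℝ) :
    iteratedDeriv i (phi m k) y = phi m (k + i) y :=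
  phJ_iteratedDeriv' (by positivity) (by norm_num) (two_pow_hsup hm) k i y

theorem phi_abs_le (m k : ℕ) (y : ℝ) : |phi m k y| ≤ ((2 : ℝ) ^ m) ^ k * JC k :=
  phJ_abs_le (by positivity) k y

theorem phi_periodic (m k : ℕ) (y : ℝ) (n : ℤ) : phi m k (y + n) = phi m k y := by
  simp [phi, phJ, Int.fract_add_intCast]

/-- The amplitudes. -/
noncomputable def eps (n : ℕ × ℕ) : ℝ := (1 / 2 : ℝ) ^ ((n.1 + n.2) ^ 2)

theorem eps_pos (n : ℕ × ℕ) : 0 < eps n := by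
  unfold eps
  positivity

/-- The terms of the detection series. -/
noncomputable def gTerm (χ : ℕ → ℕ → Bool) (b c : ℕ) (n : ℕ × ℕ) (v : ℝ × ℝ) : ℝ :=
  (if χ n.1 n.2 = true then eps n else 0) * (phi (n.1 + 2) b v.1 * phi (n.2 + 3) c v.2)

/-- The detection profile and its derivatives. -/
noncomputable def G (χ : ℕ → ℕ → Bool) (b c : ℕ) (v : ℝ × ℝ) : ℝ := ∑' n, gTerm χ b c n v

/-- The master summability statement. -/
theorem summable_master (p q : ℕ) :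
    Summable (fun n : ℕ × ℕ => eps n * (((2 : ℝ) ^ (n.1 + 2)) ^ p * ((2 : ℝ) ^ (n.2 + 3)) ^ q)) := by
  set N := p + q with hN
  have hs : Summable (fun n : ℕ × ℕ => (2 : ℝ) ^ ((N + 1) ^ 2 + 3 * N) *
      ((1 / 2 : ℝ) ^ n.1 * (1 / 2 : ℝ) ^ n.2)) := by
    refine Summable.mul_left _ ?_
    exact Summable.mul_of_nonneg (summable_geometric_two) (summable_geometric_two)
      (fun _ => by positivity) (fun _ => by positivity)
  refine Summable.of_nonneg_of_le (fun n => ?_) (fun n => ?_) hs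
  · have := eps_pos n
    positivity
  · obtain ⟨a, t⟩ := n
    simp only [eps]
    set s := a + t with hs'
    have h1 : ((2 : ℝ) ^ (a + 2)) ^ p * ((2 : ℝ) ^ (t + 3)) ^ q ≤ (2 : ℝ) ^ ((s + 3) * N) := by
      rw [← pow_mul, ← pow_mul, ← pow_add]
      refine pow_le_pow_right₀ (by norm_num) ?_
      have h3 : (a + 2) * p ≤ (s + 3) * p := Nat.mul_le_mul_right _ (by omega)
      have h4 : (t + 3) * q ≤ (s + 3) * q := Nat.mul_le_mul_right _ (by omega)
      rw [hN, Nat.mul_add]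
      omega
    have h2 : (s + 3) * N + s ≤ (N + 1) ^ 2 + 3 * N + s ^ 2 := by
      nlinarith [sq_nonneg ((s : ℤ) - ((N : ℤ) + 1))]
    have h5 : (1 / 2 : ℝ) ^ a * (1 / 2 : ℝ) ^ t = (1 / 2 : ℝ) ^ s := by
      rw [hs', pow_add]
    rw [h5]
    have h6 : (1 / 2 : ℝ) ^ (s ^ 2) * (2 : ℝ) ^ ((s + 3) * N) ≤
        (2 : ℝ) ^ ((N + 1) ^ 2 + 3 * N) * (1 / 2 : ℝ) ^ s := by
      have h7 : (2 : ℝ) ^ ((s + 3) * N) * (2 : ℝ) ^ s ≤
          (2 : ℝ) ^ ((N + 1) ^ 2 + 3 * N) * (2 : ℝ) ^ (s ^ 2) := by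
        rw [← pow_add, ← pow_add]
        exact pow_le_pow_right₀ (by norm_num) h2
      have e1 : (1 / 2 : ℝ) ^ (s ^ 2) = ((2 : ℝ) ^ (s ^ 2))⁻¹ := by
        rw [one_div, inv_pow]
      have e2 : (1 / 2 : ℝ) ^ s = ((2 : ℝ) ^ s)⁻¹ := by
        rw [one_div, inv_pow]
      rw [e1, e2]
      have p1 : (0 : ℝ) < 2 ^ (s ^ 2) := by positivity
      have p2 : (0 : ℝ) < 2 ^ s := by positivity
      rw [inv_mul_le_iff₀ p1]
      rw [show (2 : ℝ) ^ (s ^ 2) * ((2 : ℝ) ^ ((N + 1) ^ 2 + 3 * N) * ((2 : ℝ) ^ s)⁻¹) =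
        ((2 : ℝ) ^ ((N + 1) ^ 2 + 3 * N) * (2 : ℝ) ^ (s ^ 2)) * ((2 : ℝ) ^ s)⁻¹ by ring,
        ← div_eq_mul_inv, le_div_iff₀ p2]
      exact h7
    calc _ ≤ (1 / 2 : ℝ) ^ (s ^ 2) * (2 : ℝ) ^ ((s + 3) * N) :=
          mul_le_mul_of_nonneg_left h1 (by positivity)
      _ ≤ _ := h6

/-- The uniform bound of the terms. -/
noncomputable def bd0 (b c : ℕ) (n : ℕ × ℕ) : ℝ :=
  eps n * ((((2 : ℝ) ^ (n.1 + 2)) ^ b * ((2 : ℝ) ^ (n.2 + 3)) ^ c) * (JC b * JC c))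

theorem bd0_summable (b c : ℕ) : Summable (bd0 b c) := by
  have := (summable_master b c).mul_right (JC b * JC c)
  refine this.congr fun n => ?_
  simp only [bd0]
  ring

theorem bd0_nonneg (b c : ℕ) (n : ℕ × ℕ) : 0 ≤ bd0 b c n := by
  have h1 := eps_pos n
  have h2 := JC_nonneg b
  have h3 := JC_nonneg c
  unfold bd0
  positivity

theorem gTerm_abs_le (χ : ℕ → ℕ → Bool) (b c : ℕ) (n : ℕ × ℕ) (v : ℝ × ℝ) :
    |gTerm χ b c n v| ≤ bd0 b c n := by
  unfold gTerm bd0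
  rw [abs_mul, abs_mul]
  have h0 : |if χ n.1 n.2 = true then eps n else 0| ≤ eps n := by
    split_ifs
    · rw [abs_of_pos (eps_pos n)]
    · simpa using (eps_pos n).le
  have h1 := phi_abs_le (n.1 + 2) b v.1
  have h2 := phi_abs_le (n.2 + 3) c v.2
  have h3 : |phi (n.1 + 2) b v.1| * |phi (n.2 + 3) c v.2| ≤
      (((2 : ℝ) ^ (n.1 + 2)) ^ b * JC b) * (((2 : ℝ) ^ (n.2 + 3)) ^ c * JC c) :=
    mul_le_mul h1 h2 (abs_nonneg _) (by have := JC_nonneg b; positivity)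
  calc _ ≤ eps n * (((2 : ℝ) ^ (n.1 + 2)) ^ b * JC b * (((2 : ℝ) ^ (n.2 + 3)) ^ c * JC c)) :=
        mul_le_mul h0 h3 (by positivity) (eps_pos n).le
    _ = _ := by ring

theorem gTerm_summable (χ : ℕ → ℕ → Bool) (b c : ℕ) (v : ℝ × ℝ) :
    Summable (fun n => gTerm χ b c n v) :=
  Summable.of_norm_bounded (bd0_summable b c) (fun n => by
    rw [Real.norm_eq_abs]
    exact gTerm_abs_le χ b c n v)

/-- The derivative of the detection profile in its first variable. -/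
theorem G_hasDerivAt_left (χ : ℕ → ℕ → Bool) (b c : ℕ) (y z : ℝ) :
    HasDerivAt (fun y' => G χ b c (y', z)) (G χ (b + 1) c (y, z)) y := by
  have h := hasDerivAt_tsum (𝕜 := ℝ) (F := ℝ) (u := bd0 (b + 1) c)
    (g := fun n y' => gTerm χ b c n (y', z)) (g' := fun n y' => gTerm χ (b + 1) c n (y', z))
    (y₀ := 0) (bd0_summable (b + 1) c)
    (fun n y' => by
      unfold gTerm
      refine HasDerivAt.const_mul _ ?_
      show HasDerivAt (fun y' => phi (n.1 + 2) b y' * phi (n.2 + 3) c z)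
        (phi (n.1 + 2) (b + 1) y' * phi (n.2 + 3) c z) y'
      exact (phi_hasDerivAt (m := n.1 + 2) (by omega) b y').mul_const _)
    (fun n y' => by
      rw [Real.norm_eq_abs]
      exact gTerm_abs_le χ (b + 1) c n _)
    (gTerm_summable χ b c (0, z)) y
  exact h

/-- The derivative of the detection profile in its second variable. -/
theorem G_hasDerivAt_right (χ : ℕ → ℕ → Bool) (b c : ℕ) (y z : ℝ) :
    HasDerivAt (fun z' => G χ b c (y, z')) (G χ b (c + 1) (y, z)) z := by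
  have h := hasDerivAt_tsum (𝕜 := ℝ) (F := ℝ) (u := bd0 b (c + 1))
    (g := fun n z' => gTerm χ b c n (y, z')) (g' := fun n z' => gTerm χ b (c + 1) n (y, z'))
    (y₀ := 0) (bd0_summable b (c + 1))
    (fun n z' => by
      unfold gTerm
      refine HasDerivAt.const_mul _ ?_
      show HasDerivAt (fun z' => phi (n.1 + 2) b y * phi (n.2 + 3) c z')
        (phi (n.1 + 2) b y * phi (n.2 + 3) (c + 1) z') z'
      exact (phi_hasDerivAt (m := n.2 + 3) (by omega) c z').const_mul _)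
    (fun n z' => by
      rw [Real.norm_eq_abs]
      exact gTerm_abs_le χ b (c + 1) n _)
    (gTerm_summable χ b c (y, 0)) z
  exact h

theorem G_iteratedDeriv_left (χ : ℕ → ℕ → Bool) (b c i : ℕ) (y z : ℝ) :
    iteratedDeriv i (fun y' => G χ b c (y', z)) y = G χ (b + i) c (y, z) := by
  induction i generalizing y with
  | zero => simp
  | succ i ih =>
    rw [iteratedDeriv_succ]
    have : iteratedDeriv i (fun y' => G χ b c (y', z)) = fun y' => G χ (b + i) c (y', z) :=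
      funext ih
    rw [this]
    exact (G_hasDerivAt_left χ (b + i) c y z).deriv

theorem G_iteratedDeriv_right (χ : ℕ → ℕ → Bool) (b c i : ℕ) (y z : ℝ) :
    iteratedDeriv i (fun z' => G χ b c (y, z')) z = G χ b (c + i) (y, z) := by
  induction i generalizing z with
  | zero => simp
  | succ i ih =>
    rw [iteratedDeriv_succ]
    have : iteratedDeriv i (fun z' => G χ b c (y, z')) = fun z' => G χ b (c + i) (y, z') :=
      funext ih
    rw [this]
    exact (G_hasDerivAt_right χ b (c + i) y z).deriv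

/-! ### Joint smoothness -/

/-- A bound for the derivatives of a function of one of two variables. -/
theorem norm_iteratedFDeriv_fst_le {φ : ℝ → ℝ} (hφ : ContDiff ℝ ∞ φ) (i : ℕ) (v : ℝ × ℝ) :
    ‖iteratedFDeriv ℝ i (fun w : ℝ × ℝ => φ w.1) v‖ ≤ |iteratedDeriv i φ v.1| := by
  have h := ContinuousLinearMap.iteratedFDeriv_comp_right (ContinuousLinearMap.fst ℝ ℝ ℝ)
    (f := φ) hφ v (i := i) (by exact_mod_cast le_top)
  have e : (φ ∘ (ContinuousLinearMap.fst ℝ ℝ ℝ)) = fun w : ℝ × ℝ => φ w.1 := rfl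
  rw [e] at h
  rw [h]
  refine (ContinuousMultilinearMap.norm_compContinuousLinearMap_le _ _).trans ?_
  have h1 : ∏ _j : Fin i, ‖ContinuousLinearMap.fst ℝ ℝ ℝ‖ ≤ 1 := by
    refine Finset.prod_le_one (fun _ _ => norm_nonneg _) (fun _ _ => ContinuousLinearMap.norm_fst_le ℝ ℝ ℝ)
  have h2 : ‖iteratedFDeriv ℝ i φ v.1‖ = |iteratedDeriv i φ v.1| := by
    rw [← Real.norm_eq_abs, norm_iteratedFDeriv_eq_norm_iteratedDeriv]
  calc _ ≤ ‖iteratedFDeriv ℝ i φ v.1‖ * 1 :=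
        mul_le_mul_of_nonneg_left h1 (norm_nonneg _)
    _ = _ := by rw [mul_one, h2]

theorem norm_iteratedFDeriv_snd_le {φ : ℝ → ℝ} (hφ : ContDiff ℝ ∞ φ) (i : ℕ) (v : ℝ × ℝ) :
    ‖iteratedFDeriv ℝ i (fun w : ℝ × ℝ => φ w.2) v‖ ≤ |iteratedDeriv i φ v.2| := by
  have h := ContinuousLinearMap.iteratedFDeriv_comp_right (ContinuousLinearMap.snd ℝ ℝ ℝ)
    (f := φ) hφ v (i := i) (by exact_mod_cast le_top)
  have e : (φ ∘ (ContinuousLinearMap.snd ℝ ℝ ℝ)) = fun w : ℝ × ℝ => φ w.2 := rfl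
  rw [e] at h
  rw [h]
  refine (ContinuousMultilinearMap.norm_compContinuousLinearMap_le _ _).trans ?_
  have h1 : ∏ _j : Fin i, ‖ContinuousLinearMap.snd ℝ ℝ ℝ‖ ≤ 1 := by
    refine Finset.prod_le_one (fun _ _ => norm_nonneg _) (fun _ _ => ContinuousLinearMap.norm_snd_le ℝ ℝ ℝ)
  have h2 : ‖iteratedFDeriv ℝ i φ v.2‖ = |iteratedDeriv i φ v.2| := by
    rw [← Real.norm_eq_abs, norm_iteratedFDeriv_eq_norm_iteratedDeriv]
  calc _ ≤ ‖iteratedFDeriv ℝ i φ v.2‖ * 1 :=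
        mul_le_mul_of_nonneg_left h1 (norm_nonneg _)
    _ = _ := by rw [mul_one, h2]

theorem gTerm_contDiff (χ : ℕ → ℕ → Bool) (b c : ℕ) (n : ℕ × ℕ) :
    ContDiff ℝ ∞ (gTerm χ b c n) := by
  unfold gTerm
  refine contDiff_const.mul (ContDiff.mul ?_ ?_)
  · exact (phi_contDiff (by omega) b).comp contDiff_fst
  · exact (phi_contDiff (by omega) c).comp contDiff_snd

/-- The bound for the derivatives of the terms. -/
noncomputable def bdk (b c k : ℕ) (n : ℕ × ℕ) : ℝ :=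
  ∑ i ∈ Finset.range (k + 1), (k.choose i : ℝ) * bd0 (b + i) (c + (k - i)) n

theorem bdk_summable (b c k : ℕ) : Summable (bdk b c k) := by
  unfold bdk
  refine summable_sum fun i _ => ?_
  exact (bd0_summable _ _).mul_left _

theorem gTerm_iteratedFDeriv_le (χ : ℕ → ℕ → Bool) (b c k : ℕ) (n : ℕ × ℕ) (v : ℝ × ℝ) :
    ‖iteratedFDeriv ℝ k (gTerm χ b c n) v‖ ≤ bdk b c k n := by
  have hφ1 : ContDiff ℝ ∞ (phi (n.1 + 2) b) := phi_contDiff (by omega) b
  have hφ2 : ContDiff ℝ ∞ (phi (n.2 + 3) c) := phi_contDiff (by omega) c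
  have hF1 : ContDiff ℝ ∞ (fun w : ℝ × ℝ => phi (n.1 + 2) b w.1) := hφ1.comp contDiff_fst
  have hF2 : ContDiff ℝ ∞ (fun w : ℝ × ℝ => phi (n.2 + 3) c w.2) := hφ2.comp contDiff_snd
  have hP : ContDiff ℝ ∞ (fun w : ℝ × ℝ => phi (n.1 + 2) b w.1 * phi (n.2 + 3) c w.2) :=
    hF1.mul hF2
  set A : ℝ := if χ n.1 n.2 = true then eps n else 0 with hA
  have hA0 : |A| ≤ eps n := by
    rw [hA]
    split_ifs
    · rw [abs_of_pos (eps_pos n)]
    · simpa using (eps_pos n).le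
  have e : gTerm χ b c n = A • (fun w : ℝ × ℝ => phi (n.1 + 2) b w.1 * phi (n.2 + 3) c w.2) := by
    funext w
    simp [gTerm, hA]
  rw [e, iteratedFDeriv_const_smul_apply (hP.contDiffAt.of_le (by exact_mod_cast le_top)), norm_smul,
    Real.norm_eq_abs]
  have h1 := norm_iteratedFDeriv_mul_le (n := k) (N := ∞) hF1 hF2 v (by exact_mod_cast le_top)
  have h2 : ‖iteratedFDeriv ℝ k (fun w : ℝ × ℝ => phi (n.1 + 2) b w.1 * phi (n.2 + 3) c w.2) v‖ ≤
      ∑ i ∈ Finset.range (k + 1), (k.choose i : ℝ) *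
        (((((2 : ℝ) ^ (n.1 + 2)) ^ (b + i) * ((2 : ℝ) ^ (n.2 + 3)) ^ (c + (k - i))) *
          (JC (b + i) * JC (c + (k - i))))) := by
    refine h1.trans (Finset.sum_le_sum fun i _ => ?_)
    rw [mul_assoc]
    refine mul_le_mul_of_nonneg_left ?_ (by positivity)
    have h3 : ‖iteratedFDeriv ℝ i (fun w : ℝ × ℝ => phi (n.1 + 2) b w.1) v‖ ≤
        ((2 : ℝ) ^ (n.1 + 2)) ^ (b + i) * JC (b + i) := by
      refine (norm_iteratedFDeriv_fst_le hφ1 i v).trans ?_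
      rw [phi_iteratedDeriv (by omega)]
      exact phi_abs_le _ _ _
    have h4 : ‖iteratedFDeriv ℝ (k - i) (fun w : ℝ × ℝ => phi (n.2 + 3) c w.2) v‖ ≤
        ((2 : ℝ) ^ (n.2 + 3)) ^ (c + (k - i)) * JC (c + (k - i)) := by
      refine (norm_iteratedFDeriv_snd_le hφ2 (k - i) v).trans ?_
      rw [phi_iteratedDeriv (by omega)]
      exact phi_abs_le _ _ _
    have h5 := mul_le_mul h3 h4 (norm_nonneg _)
      (by have := JC_nonneg (b + i); positivity)
    calc _ ≤ _ := h5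
      _ = _ := by ring
  have h6 : |A| * ‖iteratedFDeriv ℝ k (fun w : ℝ × ℝ => phi (n.1 + 2) b w.1 * phi (n.2 + 3) c w.2) v‖
      ≤ eps n * ∑ i ∈ Finset.range (k + 1), (k.choose i : ℝ) *
        (((((2 : ℝ) ^ (n.1 + 2)) ^ (b + i) * ((2 : ℝ) ^ (n.2 + 3)) ^ (c + (k - i))) *
          (JC (b + i) * JC (c + (k - i))))) :=
    mul_le_mul hA0 h2 (norm_nonneg _) (eps_pos n).le
  refine h6.trans (le_of_eq ?_)
  unfold bdk bd0
  rw [Finset.mul_sum]
  refine Finset.sum_congr rfl fun i _ => ?_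
  ring

/-- The detection profile is smooth. -/
theorem G_contDiff (χ : ℕ → ℕ → Bool) (b c : ℕ) : ContDiff ℝ ∞ (G χ b c) := by
  have := contDiff_tsum (𝕜 := ℝ) (N := ⊤) (f := fun n v => gTerm χ b c n v)
    (v := fun k n => bdk b c k n)
    (fun n => gTerm_contDiff χ b c n)
    (fun k _ => bdk_summable b c k)
    (fun k n v _ => gTerm_iteratedFDeriv_le χ b c k n v)
  exact this

/-! ### Periodicity -/

theorem gTerm_periodic_left (χ : ℕ → ℕ → Bool) (b c : ℕ) (n : ℕ × ℕ) (y z : ℝ) (m : ℤ) :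
    gTerm χ b c n (y + m, z) = gTerm χ b c n (y, z) := by
  simp [gTerm, phi_periodic]

theorem gTerm_periodic_right (χ : ℕ → ℕ → Bool) (b c : ℕ) (n : ℕ × ℕ) (y z : ℝ) (m : ℤ) :
    gTerm χ b c n (y, z + m) = gTerm χ b c n (y, z) := by
  simp [gTerm, phi_periodic]

theorem G_periodic_left (χ : ℕ → ℕ → Bool) (b c : ℕ) (y z : ℝ) (m : ℤ) :
    G χ b c (y + m, z) = G χ b c (y, z) := by
  simp [G, gTerm_periodic_left]

theorem G_periodic_right (χ : ℕ → ℕ → Bool) (b c : ℕ) (y z : ℝ) (m : ℤ) :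
    G χ b c (y, z + m) = G χ b c (y, z) := by
  simp [G, gTerm_periodic_right]

/-! ### Reduction to a finite sum at rational points -/

theorem phi_eq_zero_of_large {W : ℕ} {y : ℝ} (hy : Int.fract y = 0 ∨ 1 ≤ (W : ℝ) * Int.fract y)
    {m : ℕ} (hm : W + 1 ≤ m) (k : ℕ) : phi m k y = 0 := by
  unfold phi phJ
  rcases hy with hy | hy
  · rw [hy, J_eq_zero_of_nonpos k (by norm_num), mul_zero]
  · have hf : 0 ≤ Int.fract y := Int.fract_nonneg y
    have h1 : ((W : ℝ) + 1) ≤ (2 : ℝ) ^ (m - 1 + 1) / 2 * 2 / 2 := by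
      have h2 : m - 1 < 2 ^ (m - 1) := Nat.lt_two_pow_self
      have h3 : W ≤ m - 1 := by omega
      have h4 : W + 1 ≤ 2 ^ (m - 1) := by omega
      have h5 : ((W : ℝ) + 1) ≤ (2 : ℝ) ^ (m - 1) := by exact_mod_cast h4
      rw [pow_succ]
      linarith
    have hm' : (2 : ℝ) ^ m = (2 : ℝ) ^ (m - 1 + 1) := by
      congr 1
      omega
    rw [J_eq_zero_of_one_le k, mul_zero]
    rw [hm']
    have h6 : ((W : ℝ) + 1) * Int.fract y ≤ (2 : ℝ) ^ (m - 1 + 1) / 2 * 2 / 2 * Int.fract y :=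
      mul_le_mul_of_nonneg_right h1 hf
    have h7 : (W : ℝ) * Int.fract y ≤ ((W : ℝ) + 1) * Int.fract y := by nlinarith
    have h8 : (2 : ℝ) ^ (m - 1 + 1) / 2 * 2 / 2 * Int.fract y = (2 : ℝ) ^ (m - 1 + 1) * Int.fract y / 2 := by
      ring
    have h9 : (2 : ℝ) ^ (m - 1 + 1) * Int.fract y ≥ 2 := by
      have := h6.trans_eq h8
      linarith
    linarith

theorem G_eq_finite (χ : ℕ → ℕ → Bool) (b c : ℕ) {W W' : ℕ} {y z : ℝ}
    (hy : Int.fract y = 0 ∨ 1 ≤ (W : ℝ) * Int.fract y)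
    (hz : Int.fract z = 0 ∨ 1 ≤ (W' : ℝ) * Int.fract z) :
    G χ b c (y, z) = ∑ w ∈ Finset.range W, ∑ t ∈ Finset.range W', gTerm χ b c (w, t) (y, z) := by
  unfold G
  rw [tsum_eq_sum (s := Finset.range W ×ˢ Finset.range W'), Finset.sum_product]
  intro n hn
  unfold gTerm
  rw [Finset.mem_product, not_and_or] at hn
  rcases hn with hn | hn
  · rw [Finset.mem_range, not_lt] at hn
    rw [phi_eq_zero_of_large hy (by omega) b]
    simp
  · rw [Finset.mem_range, not_lt] at hn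
    rw [phi_eq_zero_of_large hz (by omega) c]
    simp

end Vale.Agent.Lib.P113
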