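import Vale.Agent.Lib.P113.Detect

/-!
The final assembly: halting detection by particle trajectories of forced Navier-Stokes flows.
-/

open Set MeasureTheory Filter Topology
open scoped ContDiff Real

namespace Vale.Agent.Lib.P113

theorem exists_ratCode (q : ℚ) : ∃ c : RatCode, ratVal c = q := by
  refine ⟨(q.num.toNat, (-q.num).toNat, q.den - 1), ?_⟩
  have hd : ((q.den - 1 : ℕ) : ℝ) + 1 = q.den := by
    have : 1 ≤ q.den := q.den_pos
    push_cast [Nat.cast_sub this]
    ring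
  have hn : ((q.num.toNat : ℕ) : ℝ) - (((-q.num).toNat : ℕ) : ℝ) = q.num := by
    have h1 : ((q.num.toNat : ℕ) : ℤ) - (((-q.num).toNat : ℕ) : ℤ) = q.num := by
      rw [Int.toNat_eq_max, Int.toNat_eq_max]
      rcases le_total 0 q.num with h | h
      · rw [max_eq_left h, max_eq_right (by omega)]
        ring
      · rw [max_eq_right h, max_eq_left (by omega)]
        ring
    exact_mod_cast congrArg (fun z : ℤ => (z : ℝ)) h1
  simp only [ratVal]
  rw [hd, hn]
  exact_mod_cast (Rat.num_div_den q)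

theorem exists_v : ∃ v : RatCode, 1 < ratVal v * K1 ∧ ratVal v * K1 < 2 := by
  have hK := K1_pos
  obtain ⟨q, hq1, hq2⟩ := exists_rat_btwn (show 1 / K1 < 2 / K1 from
    div_lt_div_of_pos_right (by norm_num) hK)
  obtain ⟨c, hc⟩ := exists_ratCode q
  refine ⟨c, ?_, ?_⟩
  · rw [hc]
    rwa [div_lt_iff₀ hK] at hq1
  · rw [hc]
    rwa [lt_div_iff₀ hK] at hq2

theorem exists_κ : ∃ κ : RatCode, 0 < ratVal κ ∧ 3 / 4 ≤ Real.exp (-(2 * π * (ratVal κ * KA))) := by
  have hK := KA_pos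
  have hpi := Real.pi_pos
  have hlog : 0 < Real.log (4 / 3) := Real.log_pos (by norm_num)
  have hpos : 0 < Real.log (4 / 3) / (2 * π * KA) := by positivity
  obtain ⟨q, hq1, hq2⟩ := exists_rat_btwn hpos
  obtain ⟨c, hc⟩ := exists_ratCode q
  refine ⟨c, by rw [hc]; exact hq1, ?_⟩
  rw [hc]
  have h1 : 2 * π * ((q : ℝ) * KA) ≤ Real.log (4 / 3) := by
    rw [lt_div_iff₀ (by positivity)] at hq2
    nlinarith
  have h2 : Real.exp (-Real.log (4 / 3)) ≤ Real.exp (-(2 * π * ((q : ℝ) * KA))) :=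
    Real.exp_le_exp.2 (by linarith)
  have h3 : Real.exp (-Real.log (4 / 3)) = 3 / 4 := by
    rw [Real.exp_neg, Real.exp_log (by norm_num)]
    norm_num
  linarith

section detect

variable {κ : ℝ} {v : RatCode}

/-- The main equivalence for the particle from the distinguished point. -/
theorem detect_iff (hκ : 0 < κ) (hq : 3 / 4 ≤ Real.exp (-(2 * π * (κ * KA))))
    (hv1 : 1 < ratVal v * K1) (hv2 : ratVal v * K1 < 2) (M : Machine) (w : Word) {X : ℝ → R3}
    (hX : IsTrajectory (uF κ (Vw v w) (haltTest M)) aStar X) :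
    (∃ t ≥ 0, X t ∈ Oset) ↔ Halts M w := by
  set W := Encodable.encode w with hW
  set V := Vw v w with hV
  have he : V * K1 = (ratVal v * K1) * (1 / 2 : ℝ) ^ (W + 2) := by
    rw [hV]
    unfold Vw
    ring
  have hpow : (0 : ℝ) < (1 / 2 : ℝ) ^ (W + 2) := by positivity
  have hpow2 : (1 / 2 : ℝ) ^ (W + 2) ≤ (1 / 2 : ℝ) ^ 2 :=
    pow_le_pow_of_le_one (by norm_num) (by norm_num) (by omega)
  have hy1 : (1 / 2 : ℝ) ^ (W + 2) < V * K1 := by
    rw [he]
    nlinarith
  have hy2 : V * K1 < 2 * (1 / 2 : ℝ) ^ (W + 2) := by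
    rw [he]
    nlinarith
  have hy3 : V * K1 < 1 := by
    norm_num at hpow2
    linarith
  constructor
  · -- no halting: the particle stays on the plane
    rintro ⟨t, ht, hmem⟩
    by_contra hn
    have hχ : ∀ T, haltTest M W T ≠ true := by
      intro T hT
      exact hn ((halts_iff M w).2 ⟨T, hT⟩)
    have hzero : ∀ z, G (haltTest M) 0 0 (V * K1, z) = 0 := fun z =>
      G_zero hχ (fun m hm => phi_vanish hy1 hy2 hy3 hm) z
    have hc : IsTrajectory (uF κ V (haltTest M)) aStar (Xc κ V) := by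
      refine Xc_traj fun s hs => ?_
      by_cases h4 : s < 1 / 4
      · rw [cB_vanish_early hs h4, zero_mul]
      · rw [sig_eq (not_lt.1 h4), hzero, mul_zero]
    have hu := traj_unique uF_joint uF_periodic hX hc t ht
    have : X t 0 = 0 := by rw [hu]; rfl
    apply hmem
    rw [this]
    simp
  · -- halting: the particle leaves the plane
    intro hh
    obtain ⟨T, hT⟩ := (halts_iff M w).1 hh
    have hδ : 0 < κ * KA := mul_pos hκ KA_pos
    obtain ⟨j, hj1, hj2⟩ := exists_time hδ hq T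
    have ht0 : (0 : ℝ) ≤ (j : ℝ) + 5 / 8 := by positivity
    have ht1 : 1 / 4 ≤ (j : ℝ) + 5 / 8 := by
      have : (0 : ℝ) ≤ j := by positivity
      linarith
    have hz : zC κ ((j : ℝ) + 5 / 8) = Th (((j : ℝ) + 1) * (κ * KA)) := by
      unfold zC
      rw [tau_nat]
      congr 1
      ring
    refine exists_mem_of_ne hκ.le hX ht0 ?_
    rw [sig_eq ht1, hz]
    have hzlt : Th (((j : ℝ) + 1) * (κ * KA)) < 1 := by
      have h1 : (1 / 2 : ℝ) ^ (T + 3) ≤ (1 / 2 : ℝ) ^ 3 :=
        pow_le_pow_of_le_one (by norm_num) (by norm_num) (by omega)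
      norm_num at h1
      linarith
    have hG : 0 < G (haltTest M) 0 0 (V * K1, Th (((j : ℝ) + 1) * (κ * KA))) :=
      G_pos hT (phi_zero_pos hy1 hy2 hy3) (phi_zero_pos hj1 hj2 hzlt)
    exact (mul_pos (cB_pos_nat j) hG).ne'

end detect

/-! ### Behaviour of the force for large times -/

section large

variable {κ V V' ν : ℝ} {χ : ℕ → ℕ → Bool}

theorem fF_indep {t : ℝ} (ht : 1 / 4 ≤ t) (X : R3) : fF κ V ν χ t X = fF κ V' ν χ t X := by
  funext i
  match i with
  | 0 => rfl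
  | 1 =>
    show Fgen χ oneJ oneJ (fun t => c1 1 t * V) (fun _ => 0) (fun _ => 0) t X =
      Fgen χ oneJ oneJ (fun t => c1 1 t * V') (fun _ => 0) (fun _ => 0) t X
    simp [Fgen, c1_eq_zero_of_ge ht 1]
  | 2 => rfl

theorem ampA_add_one (κ ν t : ℝ) : ampA κ ν (t + 1) = ampA κ ν t := by
  simp [ampA, cA_add_one]

theorem fF_add_one {t : ℝ} (ht : 1 / 4 ≤ t) (X : R3) : fF κ V ν χ (t + 1) X = fF κ V ν χ t X := by
  funext i
  match i with
  | 0 =>
    show Fgen χ Sf Cf (ampA κ ν) (cB 1) (fun t => -(ν * cB 0 t)) (t + 1) X =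
      Fgen χ Sf Cf (ampA κ ν) (cB 1) (fun t => -(ν * cB 0 t)) t X
    simp [Fgen, ampA_add_one, cB_add_one]
  | 1 =>
    show Fgen χ oneJ oneJ (fun t => c1 1 t * V) (fun _ => 0) (fun _ => 0) (t + 1) X =
      Fgen χ oneJ oneJ (fun t => c1 1 t * V) (fun _ => 0) (fun _ => 0) t X
    have h1 : c1 1 (t + 1) = 0 := c1_eq_zero_of_ge (by linarith) 1
    simp [Fgen, c1_eq_zero_of_ge ht 1, h1]
  | 2 =>
    show Fgen χ Cf Sf (fun t => -ampA κ ν t) (fun _ => 0) (fun _ => 0) (t + 1) X =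
      Fgen χ Cf Sf (fun t => -ampA κ ν t) (fun _ => 0) (fun _ => 0) t X
    simp [Fgen, ampA_add_one]

end large

/-- Halting detection by particle trajectories of forced Navier-Stokes flows from rest. -/
theorem main_theorem (ν : ℝ) (hν : 0 < ν) (hc : IsComputableReal ν) :
    ∃ (a : R3) (O : Set R3), IsOpen O ∧ Periodic3 (fun x => x ∈ O) ∧
      ∃ compiler : Machine × Word → Nat.Partrec.Code, Computable compiler ∧
      ∃ (T₀ : ℝ) (f : Machine → Word → ℝ → R3 → R3), 0 ≤ T₀ ∧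
        (∀ M w, IsEffectiveForce (compiler (M, w)) (f M w)) ∧
        (∀ M w w' t x, T₀ ≤ t → f M w t x = f M w' t x) ∧
        (∃ P > 0, ∀ M w t x, T₀ ≤ t → f M w (t + P) x = f M w t x) ∧
        ∀ M w, ∃ u p, IsGlobalSmoothSolution ν (f M w) u p ∧
          (∀ T > 0, ∀ u' p', IsClassicalSolution ν (f M w) T u' p' →
            ∀ t ∈ Icc 0 T, u' t = u t ∧ p' t = p t) ∧
          (∃ X, IsTrajectory u a X) ∧
          (∀ X X', IsTrajectory u a X → IsTrajectory u a X' → ∀ t ≥ 0, X t = X' t) ∧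
          ∀ X, IsTrajectory u a X → ((∃ t ≥ 0, X t ∈ O) ↔ Halts M w) := by
  obtain ⟨v, hv1, hv2⟩ := exists_v
  obtain ⟨κ, hκ, hq⟩ := exists_κ
  obtain ⟨compiler, hcomp, hprog⟩ := exists_compiler (ν := ν) κ v hc
  refine ⟨aStar, Oset, Oset_open, Oset_periodic, compiler, hcomp, 1 / 4,
    fun M w => fF (ratVal κ) (Vw v w) ν (haltTest M), by norm_num, ?_, ?_, ?_, ?_⟩
  · exact fun M w => ⟨fF_joint, fF_periodic, hprog M w⟩
  · exact fun M w w' t x ht => fF_indep ht x
  · exact ⟨1, one_pos, fun M w t x ht => fF_add_one ht x⟩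
  · intro M w
    refine ⟨uF (ratVal κ) (Vw v w) (haltTest M), pF (ratVal κ), flow_solution, ?_, ?_, ?_, ?_⟩
    · intro T hT u' p' hsol
      exact classical_unique hν hT hsol (flow_solution.2.2 T hT)
    · exact traj_exists uF_joint uF_periodic aStar
    · exact fun X X' h h' => traj_unique uF_joint uF_periodic h h'
    · exact fun X hX => detect_iff hκ hq hv1 hv2 M w hX

end Vale.Agent.Lib.P113
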