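import Vale.Agent.Lib.P113.Flow2

/-!
Closed forms of the mixed derivatives of the force.
-/

open Set Filter Topology
open scoped ContDiff Real

namespace Vale.Agent.Lib.P113

/-- Iterated derivatives of a family closed under differentiation. -/
theorem iteratedDeriv_of_family {F : ℕ → ℝ → ℝ} (h : ∀ n x, HasDerivAt (F n) (F (n + 1) x) x)
    (n : ℕ) (x : ℝ) : iteratedDeriv n (F 0) x = F n x := by
  induction n generalizing x with
  | zero => simp
  | succ n ih =>
    rw [iteratedDeriv_succ]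
    have e : iteratedDeriv n (F 0) = F n := funext ih
    rw [e, (h n x).deriv]

section

variable {χ : ℕ → ℕ → Bool} {φ ψ : ℕ → ℝ → ℝ}

/-- Level of the variable `z`. -/
noncomputable def Zf (χ : ℕ → ℕ → Bool) (φ ψ : ℕ → ℝ → ℝ) (α1 α2 α3 x' y' : ℝ) (c : ℕ) (z' : ℝ) : ℝ :=
  α1 * (φ 0 x' * ψ c z') +
    (α2 * G χ 0 c (y', z') + α3 * (G χ 2 c (y', z') + G χ 0 (c + 2) (y', z')))

/-- Level of the variable `y`. -/
noncomputable def Yf (χ : ℕ → ℕ → Bool) (φ ψ : ℕ → ℝ → ℝ) (α1 α2 α3 x' : ℝ) (c : ℕ) (z : ℝ)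
    (b : ℕ) (y' : ℝ) : ℝ :=
  (if b = 0 then α1 * (φ 0 x' * ψ c z) else 0) +
    (α2 * G χ b c (y', z) + α3 * (G χ (b + 2) c (y', z) + G χ b (c + 2) (y', z)))

/-- Level of the variable `x`. -/
noncomputable def Wf (χ : ℕ → ℕ → Bool) (φ ψ : ℕ → ℝ → ℝ) (α1 α2 α3 : ℝ) (b c : ℕ) (y z : ℝ)
    (a : ℕ) (x' : ℝ) : ℝ :=
  (if b = 0 then α1 * (φ a x' * ψ c z) else 0) +
    (if a = 0 then α2 * G χ b c (y, z) + α3 * (G χ (b + 2) c (y, z) + G χ b (c + 2) (y, z)) else 0)

/-- Level of the variable `t`. -/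
noncomputable def Tf (χ : ℕ → ℕ → Bool) (φ ψ : ℕ → ℝ → ℝ) (a1 a2 a3 : ℝ → ℝ) (a b c : ℕ)
    (x y z : ℝ) (k : ℕ) (t' : ℝ) : ℝ :=
  (if b = 0 then iteratedDeriv k a1 t' * (φ a x * ψ c z) else 0) +
    (if a = 0 then iteratedDeriv k a2 t' * G χ b c (y, z) +
        iteratedDeriv k a3 t' * (G χ (b + 2) c (y, z) + G χ b (c + 2) (y, z)) else 0)

theorem Zf_der (hψ : Jet ψ) (α1 α2 α3 x' y' : ℝ) (c : ℕ) (z' : ℝ) :
    HasDerivAt (Zf χ φ ψ α1 α2 α3 x' y' c) (Zf χ φ ψ α1 α2 α3 x' y' (c + 1) z') z' := by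
  have h := (((hψ.der c z').const_mul (φ 0 x')).const_mul α1).add
    (((G_hasDerivAt_right χ 0 c y' z').const_mul α2).add
      (((G_hasDerivAt_right χ 2 c y' z').add (G_hasDerivAt_right χ 0 (c + 2) y' z')).const_mul α3))
  exact h

theorem Yf_der (α1 α2 α3 x' : ℝ) (c : ℕ) (z : ℝ) (b : ℕ) (y' : ℝ) :
    HasDerivAt (Yf χ φ ψ α1 α2 α3 x' c z b) (Yf χ φ ψ α1 α2 α3 x' c z (b + 1) y') y' := by
  have h := ((G_hasDerivAt_left χ b c y' z).const_mul α2).add
      (((G_hasDerivAt_left χ (b + 2) c y' z).add (G_hasDerivAt_left χ b (c + 2) y' z)).const_mul α3)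
  have h2 := h.const_add (if b = 0 then α1 * (φ 0 x' * ψ c z) else 0)
  refine h2.congr_deriv ?_
  simp only [Yf]
  simp only [Nat.add_eq_zero_iff, one_ne_zero, and_false, if_false, zero_add]

theorem Wf_der (hφ : Jet φ) (α1 α2 α3 : ℝ) (b c : ℕ) (y z : ℝ) (a : ℕ) (x' : ℝ) :
    HasDerivAt (Wf χ φ ψ α1 α2 α3 b c y z a) (Wf χ φ ψ α1 α2 α3 b c y z (a + 1) x') x' := by
  have h1 : HasDerivAt (fun x' => if b = 0 then α1 * (φ a x' * ψ c z) else 0)
      (if b = 0 then α1 * (φ (a + 1) x' * ψ c z) else 0) x' := by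
    by_cases hb : b = 0
    · simp only [hb, if_true]
      exact ((hφ.der a x').mul_const _).const_mul _
    · simp only [hb, if_false]
      exact hasDerivAt_const _ _
  have h2 := h1.add_const (if a = 0 then α2 * G χ b c (y, z) +
    α3 * (G χ (b + 2) c (y, z) + G χ b (c + 2) (y, z)) else 0)
  refine h2.congr_deriv ?_
  simp [Wf]

theorem iter_hasDerivAt {g : ℝ → ℝ} (hg : ContDiff ℝ ∞ g) (k : ℕ) (t : ℝ) :
    HasDerivAt (iteratedDeriv k g) (iteratedDeriv (k + 1) g t) t := by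
  have hd : Differentiable ℝ (iteratedDeriv k g) :=
    hg.differentiable_iteratedDeriv k (by exact_mod_cast WithTop.coe_lt_top _)
  have := (hd t).hasDerivAt
  rwa [← iteratedDeriv_succ] at this

theorem Tf_der {a1 a2 a3 : ℝ → ℝ} (h1 : ContDiff ℝ ∞ a1) (h2 : ContDiff ℝ ∞ a2)
    (h3 : ContDiff ℝ ∞ a3) (a b c : ℕ) (x y z : ℝ) (k : ℕ) (t' : ℝ) :
    HasDerivAt (Tf χ φ ψ a1 a2 a3 a b c x y z k) (Tf χ φ ψ a1 a2 a3 a b c x y z (k + 1) t') t' := by
  have d1 : HasDerivAt (fun t' => if b = 0 then iteratedDeriv k a1 t' * (φ a x * ψ c z) else 0)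
      (if b = 0 then iteratedDeriv (k + 1) a1 t' * (φ a x * ψ c z) else 0) t' := by
    by_cases hb : b = 0
    · simp only [hb, if_true]
      exact (iter_hasDerivAt h1 k t').mul_const _
    · simp only [hb, if_false]
      exact hasDerivAt_const _ _
  have d2 : HasDerivAt (fun t' => if a = 0 then iteratedDeriv k a2 t' * G χ b c (y, z) +
        iteratedDeriv k a3 t' * (G χ (b + 2) c (y, z) + G χ b (c + 2) (y, z)) else 0)
      (if a = 0 then iteratedDeriv (k + 1) a2 t' * G χ b c (y, z) +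
        iteratedDeriv (k + 1) a3 t' * (G χ (b + 2) c (y, z) + G χ b (c + 2) (y, z)) else 0) t' := by
    by_cases ha : a = 0
    · simp only [ha, if_true]
      exact ((iter_hasDerivAt h2 k t').mul_const _).add ((iter_hasDerivAt h3 k t').mul_const _)
    · simp only [ha, if_false]
      exact hasDerivAt_const _ _
  exact d1.add d2

/-- The mixed derivatives of a generic force component. -/
theorem mixed_Fgen (hφ : Jet φ) (hψ : Jet ψ) {a1 a2 a3 : ℝ → ℝ} (h1 : ContDiff ℝ ∞ a1)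
    (h2 : ContDiff ℝ ∞ a2) (h3 : ContDiff ℝ ∞ a3) (k a b c : ℕ) (t x y z : ℝ) :
    mixedDeriv (Fgen χ φ ψ a1 a2 a3) k a b c t x y z =
      (if b = 0 then iteratedDeriv k a1 t * (φ a x * ψ c z) else 0) +
      (if a = 0 then iteratedDeriv k a2 t * G χ b c (y, z) +
          iteratedDeriv k a3 t * (G χ (b + 2) c (y, z) + G χ b (c + 2) (y, z)) else 0) := by
  have lz : ∀ t' x' y', iteratedDeriv c (fun z' => Fgen χ φ ψ a1 a2 a3 t' ![x', y', z']) z =
      Yf χ φ ψ (a1 t') (a2 t') (a3 t') x' c z 0 y' := by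
    intro t' x' y'
    have e : (fun z' => Fgen χ φ ψ a1 a2 a3 t' ![x', y', z']) =
        Zf χ φ ψ (a1 t') (a2 t') (a3 t') x' y' 0 := rfl
    rw [e, iteratedDeriv_of_family (F := Zf χ φ ψ (a1 t') (a2 t') (a3 t') x' y')
      (fun n s => Zf_der hψ _ _ _ _ _ n s)]
    simp [Zf, Yf]
  have ly : ∀ t' x', iteratedDeriv b (fun y' => iteratedDeriv c
      (fun z' => Fgen χ φ ψ a1 a2 a3 t' ![x', y', z']) z) y =
      Wf χ φ ψ (a1 t') (a2 t') (a3 t') b c y z 0 x' := by
    intro t' x'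
    have e : (fun y' => iteratedDeriv c (fun z' => Fgen χ φ ψ a1 a2 a3 t' ![x', y', z']) z) =
        Yf χ φ ψ (a1 t') (a2 t') (a3 t') x' c z 0 := funext (lz t' x')
    rw [e, iteratedDeriv_of_family (F := Yf χ φ ψ (a1 t') (a2 t') (a3 t') x' c z)
      (fun n s => Yf_der _ _ _ _ _ _ n s)]
    simp [Yf, Wf]
  have lx : ∀ t', iteratedDeriv a (fun x' => iteratedDeriv b (fun y' => iteratedDeriv c
      (fun z' => Fgen χ φ ψ a1 a2 a3 t' ![x', y', z']) z) y) x =
      Tf χ φ ψ a1 a2 a3 a b c x y z 0 t' := by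
    intro t'
    have e : (fun x' => iteratedDeriv b (fun y' => iteratedDeriv c
        (fun z' => Fgen χ φ ψ a1 a2 a3 t' ![x', y', z']) z) y) =
        Wf χ φ ψ (a1 t') (a2 t') (a3 t') b c y z 0 := funext (ly t')
    rw [e, iteratedDeriv_of_family (F := Wf χ φ ψ (a1 t') (a2 t') (a3 t') b c y z)
      (fun n s => Wf_der hφ _ _ _ _ _ _ _ n s)]
    simp [Wf, Tf]
  unfold mixedDeriv
  have e : (fun t' => iteratedDeriv a (fun x' => iteratedDeriv b (fun y' => iteratedDeriv c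
      (fun z' => Fgen χ φ ψ a1 a2 a3 t' ![x', y', z']) z) y) x) =
      Tf χ φ ψ a1 a2 a3 a b c x y z 0 := funext lx
  rw [e, iteratedDeriv_of_family (F := Tf χ φ ψ a1 a2 a3 a b c x y z)
    (fun n s => Tf_der h1 h2 h3 _ _ _ _ _ _ n s)]
  rfl

end

/-! ### The components of the force -/

section

variable {κ V ν : ℝ} {χ : ℕ → ℕ → Bool}

theorem ampA_iter (κ ν : ℝ) (k : ℕ) (t : ℝ) :
    iteratedDeriv k (ampA κ ν) t = κ * (cA (k + 1) t + 8 * π ^ 2 * ν * cA k t) := by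
  have h := iteratedDeriv_of_family (F := fun k t => κ * (cA (k + 1) t + 8 * π ^ 2 * ν * cA k t))
    (fun n s => ((cA_hasDerivAt (n + 1) s).add ((cA_hasDerivAt n s).const_mul _)).const_mul κ) k t
  exact h

theorem cB1_iter (k : ℕ) (t : ℝ) : iteratedDeriv k (cB 1) t = cB (k + 1) t := by
  rw [cB_iter, add_comm]

theorem cB0_neg_iter (ν : ℝ) (k : ℕ) (t : ℝ) :
    iteratedDeriv k (fun t => -(ν * cB 0 t)) t = -(ν * cB k t) := by
  have h := iteratedDeriv_of_family (F := fun k t => -(ν * cB k t))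
    (fun n s => ((cB_hasDerivAt n s).const_mul ν).neg) k t
  exact h

theorem c11_iter (V : ℝ) (k : ℕ) (t : ℝ) :
    iteratedDeriv k (fun t => c1 1 t * V) t = c1 (k + 1) t * V := by
  have h := iteratedDeriv_of_family (F := fun k t => c1 (k + 1) t * V)
    (fun n s => (c1_hasDerivAt (n + 1) s).mul_const V) k t
  exact h

theorem ampA_neg_iter (κ ν : ℝ) (k : ℕ) (t : ℝ) :
    iteratedDeriv k (fun t => -ampA κ ν t) t = -(κ * (cA (k + 1) t + 8 * π ^ 2 * ν * cA k t)) := by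
  have h := iteratedDeriv_of_family
    (F := fun k t => -(κ * (cA (k + 1) t + 8 * π ^ 2 * ν * cA k t)))
    (fun n s => (((cA_hasDerivAt (n + 1) s).add ((cA_hasDerivAt n s).const_mul _)).const_mul κ).neg)
    k t
  exact h

theorem zero_iter (k : ℕ) (t : ℝ) : iteratedDeriv k (fun _ : ℝ => (0 : ℝ)) t = 0 := by
  have h := iteratedDeriv_of_family (F := fun _ _ => (0 : ℝ))
    (fun _ _ => hasDerivAt_const _ _) k t
  exact h

/-- The mixed derivatives of the first component of the force. -/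
theorem mixed_f0 (k a b c : ℕ) (t x y z : ℝ) :
    mixedDeriv (fun t X => fF κ V ν χ t X 0) k a b c t x y z =
      (if b = 0 then κ * (cA (k + 1) t + 8 * π ^ 2 * ν * cA k t) * (Sf a x * Cf c z) else 0) +
      (if a = 0 then cB (k + 1) t * G χ b c (y, z) +
          -(ν * cB k t) * (G χ (b + 2) c (y, z) + G χ b (c + 2) (y, z)) else 0) := by
  have h := mixed_Fgen (χ := χ) (a3 := fun t => -(ν * cB 0 t)) Sf_jet Cf_jet (ampA_smooth κ ν)
    (cB_contDiff 1) (contDiff_const.mul (cB_contDiff 0)).neg k a b c t x y z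
  rw [ampA_iter, cB1_iter, cB0_neg_iter] at h
  exact h

/-- The mixed derivatives of the second component of the force. -/
theorem mixed_f1 (k a b c : ℕ) (t x y z : ℝ) :
    mixedDeriv (fun t X => fF κ V ν χ t X 1) k a b c t x y z =
      (if b = 0 then c1 (k + 1) t * V * (oneJ a x * oneJ c z) else 0) +
      (if a = 0 then (0 : ℝ) * G χ b c (y, z) +
          0 * (G χ (b + 2) c (y, z) + G χ b (c + 2) (y, z)) else 0) := by
  have h := mixed_Fgen (χ := χ) (a1 := fun t => c1 1 t * V) oneJ_jet oneJ_jet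
    ((c1_contDiff 1).mul contDiff_const)
    (contDiff_const (c := (0 : ℝ))) (contDiff_const (c := (0 : ℝ))) k a b c t x y z
  rw [c11_iter, zero_iter] at h
  exact h

/-- The mixed derivatives of the third component of the force. -/
theorem mixed_f2 (k a b c : ℕ) (t x y z : ℝ) :
    mixedDeriv (fun t X => fF κ V ν χ t X 2) k a b c t x y z =
      (if b = 0 then -(κ * (cA (k + 1) t + 8 * π ^ 2 * ν * cA k t)) * (Cf a x * Sf c z) else 0) +
      (if a = 0 then (0 : ℝ) * G χ b c (y, z) +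
          0 * (G χ (b + 2) c (y, z) + G χ b (c + 2) (y, z)) else 0) := by
  have h := mixed_Fgen (χ := χ) Cf_jet Sf_jet (ampA_smooth κ ν).neg
    (contDiff_const (c := (0 : ℝ))) (contDiff_const (c := (0 : ℝ))) k a b c t x y z
  rw [ampA_neg_iter, zero_iter] at h
  exact h

end

end Vale.Agent.Lib.P113
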