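import Vale.Agent.Lib.P113.Defs

/-!
Arithmetic on codes of rational numbers, with primitive recursive operations.
-/

open Filter Topology

namespace Vale.Agent.Lib.P113

/-- Sum of codes. -/
def qadd (p q : RatCode) : RatCode :=
  (p.1 * (q.2.2 + 1) + q.1 * (p.2.2 + 1), p.2.1 * (q.2.2 + 1) + q.2.1 * (p.2.2 + 1),
    p.2.2 * q.2.2 + p.2.2 + q.2.2)

/-- Negative of a code. -/
def qneg (p : RatCode) : RatCode := (p.2.1, p.1, p.2.2)

/-- Difference of codes. -/
def qsub (p q : RatCode) : RatCode := qadd p (qneg q)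

/-- Product of codes. -/
def qmul (p q : RatCode) : RatCode :=
  (p.1 * q.1 + p.2.1 * q.2.1, p.1 * q.2.1 + p.2.1 * q.1, p.2.2 * q.2.2 + p.2.2 + q.2.2)

/-- Comparison of codes. -/
def qle (p q : RatCode) : Bool :=
  decide (p.1 * (q.2.2 + 1) + q.2.1 * (p.2.2 + 1) ≤ q.1 * (p.2.2 + 1) + p.2.1 * (q.2.2 + 1))

/-- Minimum of codes. -/
def qmin (p q : RatCode) : RatCode := cond (qle p q) p q

/-- Maximum of codes. -/
def qmax (p q : RatCode) : RatCode := cond (qle p q) q p

/-- Inverse of a code (zero goes to zero). -/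
def qinv (p : RatCode) : RatCode :=
  cond (decide (p.2.1 < p.1)) (p.2.2 + 1, 0, p.1 - p.2.1 - 1)
    (cond (decide (p.1 < p.2.1)) (0, p.2.2 + 1, p.2.1 - p.1 - 1) (0, 0, 0))

/-- Code of a natural number. -/
def qnat (n : ℕ) : RatCode := (n, 0, 0)

/-- Powers of a code. -/
def qpow (p : RatCode) (n : ℕ) : RatCode :=
  Nat.rec (motive := fun _ => RatCode) (qnat 1) (fun _ acc => qmul acc p) n

/-- Absolute value of a code. -/
def qabs (p : RatCode) : RatCode := ((p.1 - p.2.1) + (p.2.1 - p.1), 0, p.2.2)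

/-- Fractional part of a code. -/
def qfract (p : RatCode) : RatCode := ((p.1 + p.2.1 * p.2.2) % (p.2.2 + 1), 0, p.2.2)

theorem den_ne (d : ℕ) : ((d : ℝ) + 1) ≠ 0 := by positivity

@[simp] theorem ratVal_add (p q : RatCode) : ratVal (qadd p q) = ratVal p + ratVal q := by
  have h1 := den_ne p.2.2
  have h2 := den_ne q.2.2
  simp only [ratVal, qadd]
  push_cast
  have h3 : ((p.2.2 : ℝ) * q.2.2 + p.2.2 + q.2.2 + 1) = ((p.2.2 : ℝ) + 1) * (q.2.2 + 1) := by ring
  rw [h3]
  field_simp
  ring

@[simp] theorem ratVal_neg (p : RatCode) : ratVal (qneg p) = - ratVal p := by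
  simp only [ratVal, qneg]
  ring

@[simp] theorem ratVal_sub (p q : RatCode) : ratVal (qsub p q) = ratVal p - ratVal q := by
  simp [qsub, sub_eq_add_neg]

@[simp] theorem ratVal_mul (p q : RatCode) : ratVal (qmul p q) = ratVal p * ratVal q := by
  have h1 := den_ne p.2.2
  have h2 := den_ne q.2.2
  simp only [ratVal, qmul]
  push_cast
  have h3 : ((p.2.2 : ℝ) * q.2.2 + p.2.2 + q.2.2 + 1) = ((p.2.2 : ℝ) + 1) * (q.2.2 + 1) := by ring
  rw [h3]
  field_simp
  ring

theorem qle_iff (p q : RatCode) : qle p q = true ↔ ratVal p ≤ ratVal q := by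
  have h1 : (0 : ℝ) < (p.2.2 : ℝ) + 1 := by positivity
  have h2 : (0 : ℝ) < (q.2.2 : ℝ) + 1 := by positivity
  simp only [qle, decide_eq_true_eq, ratVal]
  rw [div_le_div_iff₀ h1 h2]
  constructor
  · intro h
    have h' : ((p.1 * (q.2.2 + 1) + q.2.1 * (p.2.2 + 1) : ℕ) : ℝ)
        ≤ ((q.1 * (p.2.2 + 1) + p.2.1 * (q.2.2 + 1) : ℕ) : ℝ) := by exact_mod_cast h
    push_cast at h'
    linarith
  · intro h
    have h' : ((p.1 * (q.2.2 + 1) + q.2.1 * (p.2.2 + 1) : ℕ) : ℝ)
        ≤ ((q.1 * (p.2.2 + 1) + p.2.1 * (q.2.2 + 1) : ℕ) : ℝ) := by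
      push_cast
      linarith
    exact_mod_cast h'

@[simp] theorem ratVal_min (p q : RatCode) : ratVal (qmin p q) = min (ratVal p) (ratVal q) := by
  unfold qmin
  cases h : qle p q
  · have : ¬ (ratVal p ≤ ratVal q) := by
      rw [← qle_iff, h]
      simp
    simp only [cond_false]
    rw [min_eq_right (le_of_not_ge this)]
  · have : ratVal p ≤ ratVal q := (qle_iff _ _).1 h
    simp only [cond_true]
    rw [min_eq_left this]

@[simp] theorem ratVal_max (p q : RatCode) : ratVal (qmax p q) = max (ratVal p) (ratVal q) := by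
  unfold qmax
  cases h : qle p q
  · have : ¬ (ratVal p ≤ ratVal q) := by
      rw [← qle_iff, h]
      simp
    simp only [cond_false]
    rw [max_eq_left (le_of_not_ge this)]
  · have : ratVal p ≤ ratVal q := (qle_iff _ _).1 h
    simp only [cond_true]
    rw [max_eq_right this]

@[simp] theorem ratVal_nat (n : ℕ) : ratVal (qnat n) = n := by
  simp [ratVal, qnat]

@[simp] theorem ratVal_pow (p : RatCode) (n : ℕ) : ratVal (qpow p n) = ratVal p ^ n := by
  induction n with
  | zero => simp [qpow]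
  | succ n ih =>
    have : qpow p (n + 1) = qmul (qpow p n) p := rfl
    rw [this, ratVal_mul, ih, pow_succ]

@[simp] theorem ratVal_inv (p : RatCode) : ratVal (qinv p) = (ratVal p)⁻¹ := by
  unfold qinv
  have h1 := den_ne p.2.2
  by_cases h : p.2.1 < p.1
  · have hpos : (p.1 - p.2.1 - 1 : ℕ) + 1 = p.1 - p.2.1 := by omega
    have h2 : ((p.1 - p.2.1 - 1 : ℕ) : ℝ) + 1 = (p.1 : ℝ) - p.2.1 := by
      have : (((p.1 - p.2.1 - 1 : ℕ) + 1 : ℕ) : ℝ) = ((p.1 - p.2.1 : ℕ) : ℝ) := by rw [hpos]
      rw [Nat.cast_sub h.le] at this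
      push_cast at this
      exact this
    simp only [h, decide_true, cond_true, ratVal]
    rw [h2, inv_div]
    push_cast
    simp
  · by_cases h' : p.1 < p.2.1
    · have hpos : (p.2.1 - p.1 - 1 : ℕ) + 1 = p.2.1 - p.1 := by omega
      have h2 : ((p.2.1 - p.1 - 1 : ℕ) : ℝ) + 1 = (p.2.1 : ℝ) - p.1 := by
        have : (((p.2.1 - p.1 - 1 : ℕ) + 1 : ℕ) : ℝ) = ((p.2.1 - p.1 : ℕ) : ℝ) := by rw [hpos]
        rw [Nat.cast_sub h'.le] at this
        push_cast at this
        exact this
      simp only [h, h', decide_true, decide_false, cond_true, cond_false, ratVal]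
      rw [h2]
      have h3 : (p.1 : ℝ) - p.2.1 = - ((p.2.1 : ℝ) - p.1) := by ring
      rw [h3, neg_div, inv_neg, inv_div]
      push_cast
      ring
    · have : p.1 = p.2.1 := by omega
      simp only [h, h', decide_false, cond_false, ratVal]
      rw [this]
      simp

@[simp] theorem ratVal_abs (p : RatCode) : ratVal (qabs p) = |ratVal p| := by
  have h1 : (0 : ℝ) < (p.2.2 : ℝ) + 1 := by positivity
  simp only [ratVal, qabs, abs_div, abs_of_pos h1]
  congr 1
  rcases le_total p.1 p.2.1 with h | h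
  · have h2 : (p.1 : ℝ) ≤ p.2.1 := by exact_mod_cast h
    rw [abs_of_nonpos (by linarith), Nat.sub_eq_zero_of_le h, Nat.cast_add, Nat.cast_sub h]
    simp
  · have h2 : (p.2.1 : ℝ) ≤ p.1 := by exact_mod_cast h
    rw [abs_of_nonneg (by linarith), Nat.sub_eq_zero_of_le h, Nat.cast_add, Nat.cast_sub h]
    simp

theorem ratVal_fract (p : RatCode) : ratVal (qfract p) = Int.fract (ratVal p) := by
  have h1 : ((p.2.2 : ℝ) + 1) ≠ 0 := den_ne _
  have key : ratVal p = (((p.1 + p.2.1 * p.2.2 : ℕ) : ℝ) / ((p.2.2 + 1 : ℕ) : ℝ)) - (p.2.1 : ℝ) := by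
    simp only [ratVal]
    push_cast
    field_simp
    ring
  rw [key, Int.fract_sub_natCast]
  rw [Int.fract_div_natCast_eq_div_natCast_mod]
  simp [ratVal, qfract]

/-! ### Primitive recursiveness -/

section primrec

theorem primrec_qadd : Primrec₂ qadd := by
  have a1 : Primrec fun x : RatCode × RatCode => x.1.1 := Primrec.fst.comp Primrec.fst
  have a2 : Primrec fun x : RatCode × RatCode => x.1.2.1 :=
    Primrec.fst.comp (Primrec.snd.comp Primrec.fst)
  have a3 : Primrec fun x : RatCode × RatCode => x.1.2.2 :=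
    Primrec.snd.comp (Primrec.snd.comp Primrec.fst)
  have b1 : Primrec fun x : RatCode × RatCode => x.2.1 := Primrec.fst.comp Primrec.snd
  have b2 : Primrec fun x : RatCode × RatCode => x.2.2.1 :=
    Primrec.fst.comp (Primrec.snd.comp Primrec.snd)
  have b3 : Primrec fun x : RatCode × RatCode => x.2.2.2 :=
    Primrec.snd.comp (Primrec.snd.comp Primrec.snd)
  have s3 : Primrec fun x : RatCode × RatCode => x.1.2.2 + 1 :=
    Primrec.nat_add.comp a3 (Primrec.const 1)
  have t3 : Primrec fun x : RatCode × RatCode => x.2.2.2 + 1 :=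
    Primrec.nat_add.comp b3 (Primrec.const 1)
  exact Primrec.pair
    (Primrec.nat_add.comp (Primrec.nat_mul.comp a1 t3) (Primrec.nat_mul.comp b1 s3))
    (Primrec.pair
      (Primrec.nat_add.comp (Primrec.nat_mul.comp a2 t3) (Primrec.nat_mul.comp b2 s3))
      (Primrec.nat_add.comp (Primrec.nat_add.comp (Primrec.nat_mul.comp a3 b3) a3) b3))

theorem primrec_qneg : Primrec qneg :=
  Primrec.pair (Primrec.fst.comp Primrec.snd)
    (Primrec.pair Primrec.fst (Primrec.snd.comp Primrec.snd))

theorem primrec_qsub : Primrec₂ qsub :=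
  primrec_qadd.comp Primrec.fst (primrec_qneg.comp Primrec.snd)

theorem primrec_qmul : Primrec₂ qmul := by
  have a1 : Primrec fun x : RatCode × RatCode => x.1.1 := Primrec.fst.comp Primrec.fst
  have a2 : Primrec fun x : RatCode × RatCode => x.1.2.1 :=
    Primrec.fst.comp (Primrec.snd.comp Primrec.fst)
  have a3 : Primrec fun x : RatCode × RatCode => x.1.2.2 :=
    Primrec.snd.comp (Primrec.snd.comp Primrec.fst)
  have b1 : Primrec fun x : RatCode × RatCode => x.2.1 := Primrec.fst.comp Primrec.snd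
  have b2 : Primrec fun x : RatCode × RatCode => x.2.2.1 :=
    Primrec.fst.comp (Primrec.snd.comp Primrec.snd)
  have b3 : Primrec fun x : RatCode × RatCode => x.2.2.2 :=
    Primrec.snd.comp (Primrec.snd.comp Primrec.snd)
  exact Primrec.pair
    (Primrec.nat_add.comp (Primrec.nat_mul.comp a1 b1) (Primrec.nat_mul.comp a2 b2))
    (Primrec.pair
      (Primrec.nat_add.comp (Primrec.nat_mul.comp a1 b2) (Primrec.nat_mul.comp a2 b1))
      (Primrec.nat_add.comp (Primrec.nat_add.comp (Primrec.nat_mul.comp a3 b3) a3) b3))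

theorem primrec_qle : Primrec₂ qle := by
  have a1 : Primrec fun x : RatCode × RatCode => x.1.1 := Primrec.fst.comp Primrec.fst
  have a2 : Primrec fun x : RatCode × RatCode => x.1.2.1 :=
    Primrec.fst.comp (Primrec.snd.comp Primrec.fst)
  have a3 : Primrec fun x : RatCode × RatCode => x.1.2.2 :=
    Primrec.snd.comp (Primrec.snd.comp Primrec.fst)
  have b1 : Primrec fun x : RatCode × RatCode => x.2.1 := Primrec.fst.comp Primrec.snd
  have b2 : Primrec fun x : RatCode × RatCode => x.2.2.1 :=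
    Primrec.fst.comp (Primrec.snd.comp Primrec.snd)
  have b3 : Primrec fun x : RatCode × RatCode => x.2.2.2 :=
    Primrec.snd.comp (Primrec.snd.comp Primrec.snd)
  have s3 : Primrec fun x : RatCode × RatCode => x.1.2.2 + 1 :=
    Primrec.nat_add.comp a3 (Primrec.const 1)
  have t3 : Primrec fun x : RatCode × RatCode => x.2.2.2 + 1 :=
    Primrec.nat_add.comp b3 (Primrec.const 1)
  exact Primrec.nat_le.decide.comp
    (Primrec.nat_add.comp (Primrec.nat_mul.comp a1 t3) (Primrec.nat_mul.comp b2 s3))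
    (Primrec.nat_add.comp (Primrec.nat_mul.comp b1 s3) (Primrec.nat_mul.comp a2 t3))

theorem primrec_qmin : Primrec₂ qmin :=
  Primrec.cond primrec_qle Primrec.fst Primrec.snd

theorem primrec_qmax : Primrec₂ qmax :=
  Primrec.cond primrec_qle Primrec.snd Primrec.fst

theorem primrec_qinv : Primrec qinv := by
  have a1 : Primrec fun x : RatCode => x.1 := Primrec.fst
  have a2 : Primrec fun x : RatCode => x.2.1 := Primrec.fst.comp Primrec.snd
  have a3 : Primrec fun x : RatCode => x.2.2 := Primrec.snd.comp Primrec.snd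
  have s3 : Primrec fun x : RatCode => x.2.2 + 1 := Primrec.nat_add.comp a3 (Primrec.const 1)
  exact Primrec.cond (Primrec.nat_lt.decide.comp a2 a1)
    (Primrec.pair s3 (Primrec.pair (Primrec.const 0)
      (Primrec.nat_sub.comp (Primrec.nat_sub.comp a1 a2) (Primrec.const 1))))
    (Primrec.cond (Primrec.nat_lt.decide.comp a1 a2)
      (Primrec.pair (Primrec.const 0) (Primrec.pair s3
        (Primrec.nat_sub.comp (Primrec.nat_sub.comp a2 a1) (Primrec.const 1))))
      (Primrec.const (0, 0, 0)))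

theorem primrec_qnat : Primrec qnat :=
  Primrec.pair Primrec.id (Primrec.const (0, 0))

theorem primrec_qpow : Primrec₂ qpow := by
  have hh : Primrec₂ (fun (a : RatCode × ℕ) (p : ℕ × RatCode) => qmul p.2 a.1) :=
    Primrec₂.comp primrec_qmul (Primrec.snd.comp (Primrec.snd (α := RatCode × ℕ) (β := ℕ × RatCode)))
      (Primrec.fst.comp (Primrec.fst (α := RatCode × ℕ) (β := ℕ × RatCode)))
  have h : Primrec fun x : RatCode × ℕ =>
      Nat.rec (motive := fun _ => RatCode) (qnat 1)
        (fun y IH => (fun (a : RatCode × ℕ) (p : ℕ × RatCode) => qmul p.2 a.1) x (y, IH)) x.2 :=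
    Primrec.nat_rec' Primrec.snd (Primrec.const (qnat 1)) hh
  exact h

theorem primrec_qabs : Primrec qabs := by
  have a1 : Primrec fun x : RatCode => x.1 := Primrec.fst
  have a2 : Primrec fun x : RatCode => x.2.1 := Primrec.fst.comp Primrec.snd
  have a3 : Primrec fun x : RatCode => x.2.2 := Primrec.snd.comp Primrec.snd
  exact Primrec.pair
    (Primrec.nat_add.comp (Primrec.nat_sub.comp a1 a2) (Primrec.nat_sub.comp a2 a1))
    (Primrec.pair (Primrec.const 0) a3)

theorem primrec_qfract : Primrec qfract := by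
  have a1 : Primrec fun x : RatCode => x.1 := Primrec.fst
  have a2 : Primrec fun x : RatCode => x.2.1 := Primrec.fst.comp Primrec.snd
  have a3 : Primrec fun x : RatCode => x.2.2 := Primrec.snd.comp Primrec.snd
  exact Primrec.pair
    (Primrec.nat_mod.comp (Primrec.nat_add.comp a1 (Primrec.nat_mul.comp a2 a3))
      (Primrec.nat_add.comp a3 (Primrec.const 1)))
    (Primrec.pair (Primrec.const 0) a3)

end primrec

end Vale.Agent.Lib.P113
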