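import Vale.Agent.Lib.P113.EffTrig

/-!
The simulation of a Turing machine is primitive recursive.
-/

namespace Vale.Agent.Lib.P113

theorem applyRule_eq (r : Rule) (c : Config) :
    applyRule r c =
      Option.casesOn (motive := fun _ => Config) r.2.2.2.2
        ((r.2.2.1, c.2.1, r.2.2.2.1 :: c.2.2.tail) : Config)
        (fun b => cond b ((r.2.2.1, r.2.2.2.1 :: c.2.1, c.2.2.tail) : Config)
          ((r.2.2.1, c.2.1.tail, c.2.1.headD 0 :: r.2.2.2.1 :: c.2.2.tail) : Config)) := by
  unfold applyRule
  rcases r.2.2.2.2 with _ | b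
  · rfl
  · cases b <;> rfl

theorem primrec_headD0 : Primrec (fun l : List ℕ => l.headD 0) := by
  have h : Primrec (fun l : List ℕ => l.head?.getD 0) :=
    Primrec.option_getD.comp Primrec.list_head? (Primrec.const 0)
  refine h.of_eq fun l => ?_
  cases l <;> rfl

theorem primrec_applyRule : Primrec₂ applyRule := by
  have rr : Primrec (fun x : Rule × Config => x.1) := Primrec.fst
  have cc : Primrec (fun x : Rule × Config => x.2) := Primrec.snd
  have q' : Primrec (fun x : Rule × Config => x.1.2.2.1) :=
    Primrec.fst.comp (Primrec.snd.comp (Primrec.snd.comp rr))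
  have a' : Primrec (fun x : Rule × Config => x.1.2.2.2.1) :=
    Primrec.fst.comp (Primrec.snd.comp (Primrec.snd.comp (Primrec.snd.comp rr)))
  have d' : Primrec (fun x : Rule × Config => x.1.2.2.2.2) :=
    Primrec.snd.comp (Primrec.snd.comp (Primrec.snd.comp (Primrec.snd.comp rr)))
  have L : Primrec (fun x : Rule × Config => x.2.2.1) := Primrec.fst.comp (Primrec.snd.comp cc)
  have R : Primrec (fun x : Rule × Config => x.2.2.2) := Primrec.snd.comp (Primrec.snd.comp cc)
  have Rt : Primrec (fun x : Rule × Config => x.2.2.2.tail) := Primrec.list_tail.comp R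
  have Lt : Primrec (fun x : Rule × Config => x.2.2.1.tail) := Primrec.list_tail.comp L
  have Lh : Primrec (fun x : Rule × Config => x.2.2.1.headD 0) := primrec_headD0.comp L
  have stay : Primrec (fun x : Rule × Config =>
      ((x.1.2.2.1, x.2.2.1, x.1.2.2.2.1 :: x.2.2.2.tail) : Config)) :=
    Primrec.pair q' (Primrec.pair L (Primrec.list_cons.comp a' Rt))
  have goR : Primrec (fun x : Rule × Config =>
      ((x.1.2.2.1, x.1.2.2.2.1 :: x.2.2.1, x.2.2.2.tail) : Config)) :=
    Primrec.pair q' (Primrec.pair (Primrec.list_cons.comp a' L) Rt)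
  have goL : Primrec (fun x : Rule × Config =>
      ((x.1.2.2.1, x.2.2.1.tail, x.2.2.1.headD 0 :: x.1.2.2.2.1 :: x.2.2.2.tail) : Config)) :=
    Primrec.pair q' (Primrec.pair Lt (Primrec.list_cons.comp Lh (Primrec.list_cons.comp a' Rt)))
  have hb : Primrec₂ (fun (x : Rule × Config) (b : Bool) =>
      cond b ((x.1.2.2.1, x.1.2.2.2.1 :: x.2.2.1, x.2.2.2.tail) : Config)
        ((x.1.2.2.1, x.2.2.1.tail, x.2.2.1.headD 0 :: x.1.2.2.2.1 :: x.2.2.2.tail) : Config)) :=
    Primrec.cond Primrec.snd (goR.comp Primrec.fst) (goL.comp Primrec.fst)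
  have := Primrec.option_casesOn d' stay hb
  refine this.of_eq fun x => ?_
  exact (applyRule_eq x.1 x.2).symm

/-- A `foldr` form of `List.find?`. -/
theorem find?_eq_foldr {γ : Type*} (p : γ → Bool) (l : List γ) :
    l.find? p = l.foldr (fun a acc => cond (p a) (some a) acc) none := by
  induction l with
  | nil => rfl
  | cons a l ih =>
    simp only [List.find?_cons, List.foldr_cons, ih]
    cases p a <;> rfl

theorem primrec_matches : Primrec₂ (fun (c : Config) (r : Rule) =>
    (r.1 == c.1 && r.2.1 == c.2.2.headD 0)) := by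
  have h1 : Primrec (fun x : Config × Rule => x.2.1) := Primrec.fst.comp Primrec.snd
  have h2 : Primrec (fun x : Config × Rule => x.1.1) := Primrec.fst.comp Primrec.fst
  have h3 : Primrec (fun x : Config × Rule => x.2.2.1) :=
    Primrec.fst.comp (Primrec.snd.comp Primrec.snd)
  have h4 : Primrec (fun x : Config × Rule => x.1.2.2.headD 0) :=
    primrec_headD0.comp (Primrec.snd.comp (Primrec.snd.comp Primrec.fst))
  exact Primrec.and.comp (Primrec.beq.comp h1 h2) (Primrec.beq.comp h3 h4)

theorem primrec_step : Primrec₂ step := by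
  -- the lookup of the applicable rule
  have hlook : Primrec (fun x : Machine × Config =>
      x.1.1.find? (fun r => r.1 == x.2.1 && r.2.1 == x.2.2.2.headD 0)) := by
    have hfold : Primrec (fun x : Machine × Config =>
        x.1.1.foldr (fun a acc => cond (a.1 == x.2.1 && a.2.1 == x.2.2.2.headD 0) (some a) acc)
          (none : Option Rule)) := by
      refine Primrec.list_foldr (h := fun (x : Machine × Config) (p : Rule × Option Rule) =>
        cond (p.1.1 == x.2.1 && p.1.2.1 == x.2.2.2.headD 0) (some p.1) p.2)
        (Primrec.fst.comp Primrec.fst) (Primrec.const none) ?_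
      have h1 : Primrec (fun y : (Machine × Config) × (Rule × Option Rule) =>
          (y.2.1.1 == y.1.2.1 && y.2.1.2.1 == y.1.2.2.2.headD 0)) :=
        primrec_matches.comp (Primrec.snd.comp Primrec.fst) (Primrec.fst.comp Primrec.snd)
      exact Primrec.cond h1 (Primrec.option_some.comp (Primrec.fst.comp Primrec.snd))
        (Primrec.snd.comp Primrec.snd)
    refine hfold.of_eq fun x => ?_
    exact (find?_eq_foldr _ _).symm
  have hsome : Primrec₂ (fun (x : Machine × Config) (r : Rule) => applyRule r x.2) :=
    primrec_applyRule.comp Primrec.snd (Primrec.snd.comp Primrec.fst)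
  have := Primrec.option_casesOn hlook Primrec.snd hsome
  refine this.of_eq fun x => ?_
  unfold step
  generalize x.1.1.find? (fun r => r.1 == x.2.1 && r.2.1 == x.2.2.2.headD 0) = o
  cases o <;> rfl

/-- The word with index `n`. -/
def wordOf (n : ℕ) : Word := (Encodable.decode (α := Word) n).getD []

theorem primrec_wordOf : Primrec wordOf :=
  Primrec.option_getD.comp Primrec.decode (Primrec.const [])

/-- The test: after `T` steps on the word with index `n`, the machine `M` is in a halting state. -/
def haltTest (M : Machine) (n T : ℕ) : Bool :=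
  decide (((step M)^[T] (initConfig (wordOf n))).1 ∈ M.2)

theorem primrec_haltTest : Primrec (fun x : Machine × ℕ × ℕ => haltTest x.1 x.2.1 x.2.2) := by
  have hinit : Primrec (fun x : Machine × ℕ × ℕ => initConfig (wordOf x.2.1)) :=
    Primrec.pair (Primrec.const 0) (Primrec.pair (Primrec.const [])
      (primrec_wordOf.comp (Primrec.fst.comp Primrec.snd)))
  have hit : Primrec (fun x : Machine × ℕ × ℕ => (step x.1)^[x.2.2] (initConfig (wordOf x.2.1))) :=
    Primrec.nat_iterate (Primrec.snd.comp Primrec.snd) hinit
      (primrec_step.comp (Primrec.fst.comp Primrec.fst) Primrec.snd)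
  have hq : Primrec (fun x : Machine × ℕ × ℕ =>
      ((step x.1)^[x.2.2] (initConfig (wordOf x.2.1))).1) := Primrec.fst.comp hit
  have hl : Primrec (fun x : Machine × ℕ × ℕ => x.1.2) := Primrec.snd.comp Primrec.fst
  have h := Primrec.nat_lt.decide.comp (Primrec.list_idxOf.comp hq hl) (Primrec.list_length.comp hl)
  refine h.of_eq fun x => ?_
  unfold haltTest
  simp only [List.idxOf_lt_length_iff]

theorem halts_iff (M : Machine) (w : Word) :
    Halts M w ↔ ∃ T, haltTest M (Encodable.encode w) T = true := by
  have hw : wordOf (Encodable.encode w) = w := by simp [wordOf]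
  simp [Halts, haltTest, hw]

end Vale.Agent.Lib.P113
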