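import Vale.Agent.Lib.P113.Defs

/-!
Calculus on the flat torus: integrals of partial derivatives of periodic functions vanish; bounds of
continuous periodic functions.
-/

open Set MeasureTheory Filter Topology
open scoped ContDiff

namespace Vale.Agent.Lib.P113

theorem isCompact_cube : IsCompact cube := isCompact_Icc

/-- Shift in direction `j`. -/
theorem periodic3_single {E : Type*} {F : R3 → E} (h : Periodic3 F) (j : Fin 3) (y : R3) :
    F (y + Pi.single j 1) = F y := by
  have := h (Pi.single j 1) y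
  have e : (fun i => y i + (((Pi.single j 1 : Fin 3 → ℤ) i : ℤ) : ℝ)) = y + Pi.single j 1 := by
    funext i
    by_cases hi : i = j
    · subst hi
      simp
    · simp [hi]
  rw [e] at this
  exact this

theorem insertNth_one_eq (j : Fin 3) (y : Fin 2 → ℝ) :
    (j.insertNth (1 : ℝ) y : R3) = (j.insertNth (0 : ℝ) y : R3) + Pi.single j 1 := by
  funext i
  rcases Fin.eq_self_or_eq_succAbove j i with hi | ⟨k, hk⟩
  · subst hi
    simp
  · subst hk
    simp [Fin.succAbove_ne]

/-- The integral over the torus of a partial derivative of a periodic function vanishes. -/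
theorem integral_pd_eq_zero {F : R3 → ℝ} (hF : ContDiff ℝ 1 F) (hper : Periodic3 F) (j : Fin 3) :
    ∫ x in cube, pd j F x = 0 := by
  let f : R3 → Fin 3 → ℝ := fun x i => if i = j then F x else 0
  let f' : R3 → R3 →L[ℝ] Fin 3 → ℝ := fun x =>
    ContinuousLinearMap.pi fun i => if i = j then fderiv ℝ F x else 0
  have hdiff : Differentiable ℝ F := hF.differentiable (by norm_num)
  have hf' : ∀ x, HasFDerivAt f (f' x) x := by
    intro x
    refine hasFDerivAt_pi.2 fun i => ?_
    by_cases hi : i = j
    · simp only [hi, if_true]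
      exact (hdiff x).hasFDerivAt
    · simp only [hi, if_false]
      exact hasFDerivAt_const _ _
  have hcont : Continuous (fun x => fderiv ℝ F x) := hF.continuous_fderiv (by norm_num)
  have hsum : ∀ x, ∑ i, (f' x) (Pi.single i 1) i = pd j F x := by
    intro x
    simp only [f', ContinuousLinearMap.coe_pi', pd]
    rw [Finset.sum_eq_single j]
    · simp
    · intro b _ hb
      simp [hb]
    · simp
  have hcontf : Continuous f := continuous_pi fun i => by
    by_cases hi : i = j
    · simp only [f, hi, if_true]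
      exact hF.continuous
    · simp only [f, hi, if_false]
      exact continuous_const
  have hint : IntegrableOn (fun x => ∑ i, (f' x) (Pi.single i 1) i) (Icc 0 1) volume := by
    have : Continuous (fun x => ∑ i, (f' x) (Pi.single i 1) i) := by
      simp only [hsum, pd]
      exact hcont.clm_apply continuous_const
    exact this.continuousOn.integrableOn_compact isCompact_Icc
  have key := integral_divergence_of_hasFDerivAt_off_countable (n := 2) (E := ℝ)
    (0 : Fin 3 → ℝ) 1 (by intro i; simp) f f' ∅ countable_empty hcontf.continuousOn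
    (fun x _ => hf' x) hint
  have hzero : ∀ i : Fin 3,
      ((∫ x in Icc ((0 : Fin 3 → ℝ) ∘ i.succAbove) ((1 : Fin 3 → ℝ) ∘ i.succAbove),
        f (i.insertNth ((1 : Fin 3 → ℝ) i) x) i) -
      ∫ x in Icc ((0 : Fin 3 → ℝ) ∘ i.succAbove) ((1 : Fin 3 → ℝ) ∘ i.succAbove),
        f (i.insertNth ((0 : Fin 3 → ℝ) i) x) i) = 0 := by
    intro i
    rw [sub_eq_zero]
    refine integral_congr_ae (Eventually.of_forall fun y => ?_)
    by_cases hi : i = j
    · subst hi
      simp only [f, if_true, Pi.one_apply, Pi.zero_apply]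
      rw [insertNth_one_eq, periodic3_single hper]
    · simp [f, hi]
  rw [Finset.sum_eq_zero fun i _ => hzero i] at key
  have e : ∫ x in cube, pd j F x = ∫ x in Icc (0 : Fin 3 → ℝ) 1, ∑ i, (f' x) (Pi.single i 1) i := by
    refine integral_congr_ae (Eventually.of_forall fun x => ?_)
    exact (hsum x).symm
  rw [e, key]

/-- A lattice translation taking `x` into the half-open unit cube. -/
theorem exists_translate_mem_cube (x : R3) :
    ∃ n : Fin 3 → ℤ, (fun i => x i + (n i : ℝ)) ∈ cube := by
  refine ⟨fun i => -⌊x i⌋, ?_⟩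
  constructor
  · intro i
    simp only [Pi.zero_apply, Int.cast_neg]
    have := Int.floor_le (x i)
    linarith
  · intro i
    simp only [Pi.one_apply, Int.cast_neg]
    have := Int.lt_floor_add_one (x i)
    linarith

/-- A continuous family of periodic functions is bounded on compact time intervals. -/
theorem periodic_bound {W : Type*} [NormedAddCommGroup W] {Φ : ℝ → R3 → W} {T : ℝ}
    (hc : ContinuousOn (fun q : ℝ × R3 => Φ q.1 q.2) (Icc 0 T ×ˢ univ))
    (hp : ∀ t ∈ Icc 0 T, Periodic3 (Φ t)) :
    ∃ C : ℝ, 0 ≤ C ∧ ∀ t ∈ Icc 0 T, ∀ x, ‖Φ t x‖ ≤ C := by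
  have hK : IsCompact (Icc (0 : ℝ) T ×ˢ cube) := isCompact_Icc.prod isCompact_cube
  have hsub : Icc (0 : ℝ) T ×ˢ cube ⊆ Icc (0 : ℝ) T ×ˢ (univ : Set R3) :=
    prod_mono_right (subset_univ _)
  obtain ⟨C, hC⟩ := hK.exists_bound_of_continuousOn (hc.mono hsub)
  refine ⟨max C 0, le_max_right _ _, fun t ht x => ?_⟩
  obtain ⟨n, hn⟩ := exists_translate_mem_cube x
  have h1 := hC (t, _) ⟨ht, hn⟩
  simp only at h1
  rw [hp t ht n x] at h1
  exact h1.trans (le_max_left _ _)

/-- Periodicity passes to derivatives. -/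
theorem periodic_fderiv {W : Type*} [NormedAddCommGroup W] [NormedSpace ℝ W] {F : R3 → W}
    (h : Periodic3 F) : Periodic3 (fderiv ℝ F) := by
  intro n x
  have e : (fun i => x i + (n i : ℝ)) = x + (fun i => (n i : ℝ)) := rfl
  rw [e, ← fderiv_comp_add_right]
  congr 1
  funext y
  exact h n y

theorem periodic_pd {F : R3 → ℝ} (h : Periodic3 F) (j : Fin 3) : Periodic3 (pd j F) := by
  intro n x
  unfold pd
  rw [periodic_fderiv h n x]

/-! ### Smooth functions of time and space -/

section smooth

variable {W : Type*} [NormedAddCommGroup W] [NormedSpace ℝ W]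

/-- The spatial derivative of a jointly smooth function. -/
theorem fderiv_slice {U : ℝ × R3 → W} (hU : ContDiff ℝ ∞ U) (t : ℝ) (x : R3) :
    fderiv ℝ (fun y => U (t, y)) x = (fderiv ℝ U (t, x)).comp (ContinuousLinearMap.inr ℝ ℝ R3) := by
  have h1 : HasFDerivAt (fun y : R3 => (t, y)) (ContinuousLinearMap.inr ℝ ℝ R3) x :=
    hasFDerivAt_prodMk_right t x
  have h2 : HasFDerivAt U (fderiv ℝ U (t, x)) (t, x) :=
    (hU.differentiable (by simp) (t, x)).hasFDerivAt
  exact (h2.comp x h1).fderiv

theorem slice_smooth {U : ℝ × R3 → W} (hU : ContDiff ℝ ∞ U) :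
    ContDiff ℝ ∞ (fun q : ℝ × R3 => fderiv ℝ (fun y => U (q.1, y)) q.2) := by
  have e : (fun q : ℝ × R3 => fderiv ℝ (fun y => U (q.1, y)) q.2) =
      fun q => (fderiv ℝ U q).comp (ContinuousLinearMap.inr ℝ ℝ R3) := by
    funext q
    exact fderiv_slice hU q.1 q.2
  rw [e]
  have h1 : ContDiff ℝ ∞ (fderiv ℝ U) := hU.fderiv_right (by simp)
  exact h1.clm_comp contDiff_const

/-- The time derivative of a jointly smooth function. -/
theorem hasDerivAt_slice_time {U : ℝ × R3 → W} (hU : ContDiff ℝ ∞ U) (t : ℝ) (x : R3) :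
    HasDerivAt (fun s => U (s, x)) (fderiv ℝ U (t, x) (1, 0)) t := by
  have h1 : HasDerivAt (fun s : ℝ => (s, x)) ((1 : ℝ), (0 : R3)) t :=
    (hasDerivAt_id t).prodMk (hasDerivAt_const t x)
  have h2 : HasFDerivAt U (fderiv ℝ U (t, x)) (t, x) :=
    (hU.differentiable (by simp) (t, x)).hasFDerivAt
  exact h2.comp_hasDerivAt t h1

end smooth

end Vale.Agent.Lib.P113
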