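import Vale.Agent.Lib.P113.EnergySpatial

/-!
Uniqueness of classical solutions: the energy method.
-/

open Set MeasureTheory Filter Topology
open scoped ContDiff

namespace Vale.Agent.Lib.P113

section

variable {ν T : ℝ} {f : ℝ → R3 → R3} {u u1 u2 : ℝ → R3 → R3} {p p1 p2 : ℝ → R3 → ℝ}

theorem slice_continuous {W : Type*} [TopologicalSpace W] {Φ : ℝ → R3 → W}
    (hc : ContinuousOn (fun q : ℝ × R3 => Φ q.1 q.2) (Icc 0 T ×ˢ univ)) {t : ℝ} (ht : t ∈ Icc 0 T) :
    Continuous (Φ t) := by
  have : Continuous (fun x : R3 => ((t, x) : ℝ × R3)) := by fun_prop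
  exact hc.comp_continuous this (fun x => ⟨ht, mem_univ _⟩)

theorem dt_comp (h : IsClassicalSolution ν f T u p) (hT : 0 < T) {t : ℝ} (ht : t ∈ Icc 0 T)
    (x : R3) (i : Fin 3) :
    derivWithin (fun s => u s x i) (Icc 0 T) t = derivWithin (fun s => u s x) (Icc 0 T) t i := by
  have h1 := (h.diff_t x t ht).hasDerivWithinAt
  have h2 := (hasDerivWithinAt_pi.1 h1) i
  exact h2.derivWithin (uniqueDiffOn_Icc hT t ht)

/-- Energy density of the difference. -/
noncomputable def Ed (u1 u2 : ℝ → R3 → R3) (t : ℝ) (x : R3) : ℝ :=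
  ∑ i, Wc (u1 t) (u2 t) i x * Wc (u1 t) (u2 t) i x

/-- The time derivative of the energy density. -/
noncomputable def Edd (u1 u2 : ℝ → R3 → R3) (T t : ℝ) (x : R3) : ℝ :=
  ∑ i, 2 * Wc (u1 t) (u2 t) i x *
    (derivWithin (fun s => u1 s x) (Icc 0 T) t i - derivWithin (fun s => u2 s x) (Icc 0 T) t i)

theorem Ed_continuousOn (h1 : IsClassicalSolution ν f T u1 p1)
    (h2 : IsClassicalSolution ν f T u2 p2) :
    ContinuousOn (fun q : ℝ × R3 => Ed u1 u2 q.1 q.2) (Icc 0 T ×ˢ univ) := by
  have hW : ∀ i, ContinuousOn (fun q : ℝ × R3 => Wc (u1 q.1) (u2 q.1) i q.2) (Icc 0 T ×ˢ univ) := by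
    intro i
    exact ((continuous_apply i).comp_continuousOn h1.cont_u).sub
      ((continuous_apply i).comp_continuousOn h2.cont_u)
  exact continuousOn_finsetSum _ fun i _ => (hW i).mul (hW i)

theorem Edd_continuousOn (h1 : IsClassicalSolution ν f T u1 p1)
    (h2 : IsClassicalSolution ν f T u2 p2) :
    ContinuousOn (fun q : ℝ × R3 => Edd u1 u2 T q.1 q.2) (Icc 0 T ×ˢ univ) := by
  have hW : ∀ i, ContinuousOn (fun q : ℝ × R3 => Wc (u1 q.1) (u2 q.1) i q.2) (Icc 0 T ×ˢ univ) := by
    intro i
    exact ((continuous_apply i).comp_continuousOn h1.cont_u).sub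
      ((continuous_apply i).comp_continuousOn h2.cont_u)
  refine continuousOn_finsetSum _ fun i _ => (continuousOn_const.mul (hW i)).mul ?_
  exact ((continuous_apply i).comp_continuousOn h1.cont_ut).sub
    ((continuous_apply i).comp_continuousOn h2.cont_ut)

theorem Ed_hasDerivAt (h1 : IsClassicalSolution ν f T u1 p1)
    (h2 : IsClassicalSolution ν f T u2 p2) {t : ℝ} (ht : t ∈ Ioo 0 T) (x : R3) :
    HasDerivAt (fun s => Ed u1 u2 s x) (Edd u1 u2 T t x) t := by
  have ht' : t ∈ Icc 0 T := Ioo_subset_Icc_self ht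
  have hn : Icc 0 T ∈ 𝓝 t := Icc_mem_nhds ht.1 ht.2
  have d1 := ((h1.diff_t x t ht').hasDerivWithinAt).hasDerivAt hn
  have d2 := ((h2.diff_t x t ht').hasDerivWithinAt).hasDerivAt hn
  have d1' := hasDerivAt_pi.1 d1
  have d2' := hasDerivAt_pi.1 d2
  unfold Edd
  have : ∀ i, HasDerivAt (fun s => Wc (u1 s) (u2 s) i x * Wc (u1 s) (u2 s) i x)
      (2 * Wc (u1 t) (u2 t) i x *
        (derivWithin (fun s => u1 s x) (Icc 0 T) t i - derivWithin (fun s => u2 s x) (Icc 0 T) t i))
      t := by
    intro i
    have hW : HasDerivAt (fun s => Wc (u1 s) (u2 s) i x)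
        (derivWithin (fun s => u1 s x) (Icc 0 T) t i - derivWithin (fun s => u2 s x) (Icc 0 T) t i)
        t := (d1' i).sub (d2' i)
    exact (hW.fun_mul hW).congr_deriv (by ring)
  unfold Ed
  exact HasDerivAt.fun_sum fun i _ => this i

/-- The difference of the momentum equations. -/
theorem Edd_eq (hT : 0 < T) (h1 : IsClassicalSolution ν f T u1 p1)
    (h2 : IsClassicalSolution ν f T u2 p2) {t : ℝ} (ht : t ∈ Icc 0 T) (x : R3) :
    Edd u1 u2 T t x = 2 * ∑ i, Wc (u1 t) (u2 t) i x *
      (- ∑ j, u1 t x j * pd j (fun y => u1 t y i) x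
        + ∑ j, u2 t x j * pd j (fun y => u2 t y i) x - pd i (fun y => p1 t y - p2 t y) x
        + ν * ∑ j, pd j (pd j (Wc (u1 t) (u2 t) i)) x) := by
  unfold Edd
  rw [Finset.mul_sum]
  refine Finset.sum_congr rfl fun i _ => ?_
  have m1 := h1.momentum t ht x i
  have m2 := h2.momentum t ht x i
  rw [dt_comp h1 hT ht] at m1
  rw [dt_comp h2 hT ht] at m2
  have hU1 := h1.diff_x t ht
  have hU2 := h2.diff_x t ht
  have hq1 : Differentiable ℝ (p1 t) := (h1.diff_p t ht).differentiable (by norm_num)
  have hq2 : Differentiable ℝ (p2 t) := (h2.diff_p t ht).differentiable (by norm_num)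
  have e1 : pd i (fun y => p1 t y - p2 t y) x = pd i (p1 t) x - pd i (p2 t) x := pd_sub hq1 hq2
  have e2 : ∀ j, pd j (pd j (Wc (u1 t) (u2 t) i)) x =
      pd j (pd j (fun y => u1 t y i)) x - pd j (pd j (fun y => u2 t y i)) x := by
    intro j
    have a1 : Differentiable ℝ (fun y => u1 t y i) :=
      (comp_contDiff hU1 i).differentiable (by norm_num)
    have a2 : Differentiable ℝ (fun y => u2 t y i) :=
      (comp_contDiff hU2 i).differentiable (by norm_num)
    have b1 : Differentiable ℝ (pd j (fun y => u1 t y i)) :=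
      (pd_contDiff (n := 1) (comp_contDiff hU1 i) j).differentiable (by norm_num)
    have b2 : Differentiable ℝ (pd j (fun y => u2 t y i)) :=
      (pd_contDiff (n := 1) (comp_contDiff hU2 i) j).differentiable (by norm_num)
    have e : pd j (Wc (u1 t) (u2 t) i) =
        fun z => pd j (fun y => u1 t y i) z - pd j (fun y => u2 t y i) z := by
      funext z
      exact pd_sub a1 a2
    rw [e]
    exact pd_sub b1 b2
  rw [e1]
  simp only [e2]
  have e3 : ∑ j, (pd j (pd j (fun y => u1 t y i)) x - pd j (pd j (fun y => u2 t y i)) x) =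
      ∑ j, pd j (pd j (fun y => u1 t y i)) x - ∑ j, pd j (pd j (fun y => u2 t y i)) x :=
    Finset.sum_sub_distrib _ _
  rw [e3]
  have e4 : derivWithin (fun s => u1 s x) (Icc 0 T) t i - derivWithin (fun s => u2 s x) (Icc 0 T) t i
      = - ∑ j, u1 t x j * pd j (fun y => u1 t y i) x
        + ∑ j, u2 t x j * pd j (fun y => u2 t y i) x - (pd i (p1 t) x - pd i (p2 t) x)
        + ν * (∑ j, pd j (pd j (fun y => u1 t y i)) x - ∑ j, pd j (pd j (fun y => u2 t y i)) x) := by
    linear_combination m1 - m2
  rw [e4]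
  ring

/-- Energy decay estimate. -/
theorem energy_zero (hν : 0 < ν) (hT : 0 < T) (h1 : IsClassicalSolution ν f T u1 p1)
    (h2 : IsClassicalSolution ν f T u2 p2) :
    ∀ t ∈ Icc 0 T, ∫ x in cube, Ed u1 u2 t x = 0 := by
  -- bound on the gradient
  obtain ⟨L, hL0, hL⟩ := periodic_bound h2.cont_du
    (fun t ht => periodic_fderiv (h2.periodic_u t ht))
  have hLi : ∀ t ∈ Icc 0 T, ∀ x i j, |pd j (fun y => u2 t y i) x| ≤ L := by
    intro t ht x i j
    have hd : DifferentiableAt ℝ (u2 t) x := ((h2.diff_x t ht).differentiable (by norm_num)) x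
    exact (abs_pd_comp_le hd i).trans (hL t ht x)
  -- the energy
  set E : ℝ → ℝ := fun t => ∫ x in cube, Ed u1 u2 t x with hE
  have hEd_slice : ∀ t ∈ Icc 0 T, Continuous (Ed u1 u2 t) := fun t ht =>
    slice_continuous (Φ := Ed u1 u2) (Ed_continuousOn h1 h2) ht
  have hEdd_slice : ∀ t ∈ Icc 0 T, Continuous (Edd u1 u2 T t) := fun t ht =>
    slice_continuous (Φ := Edd u1 u2 T) (Edd_continuousOn h1 h2) ht
  -- continuity of the energy
  have hEcont : ContinuousOn E (Icc 0 T) := by
    rw [continuousOn_iff_continuous_domRestrict]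
    have hc : Continuous (Function.uncurry fun (t : Icc (0:ℝ) T) (x : R3) => Ed u1 u2 t x) := by
      have := (Ed_continuousOn h1 h2).comp_continuous
        (f := fun q : Icc (0:ℝ) T × R3 => ((q.1 : ℝ), q.2))
        (by fun_prop) (fun q => ⟨q.1.2, mem_univ _⟩)
      exact this
    exact continuous_parametric_integral_of_continuous hc isCompact_cube
  -- compact bound of the derivative
  obtain ⟨C, hC⟩ := (isCompact_Icc.prod isCompact_cube :
      IsCompact (Icc (0:ℝ) T ×ˢ cube)).exists_bound_of_continuousOn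
    ((Edd_continuousOn h1 h2).mono (prod_mono_right (subset_univ _)))
  -- differentiability of the energy
  have hEderiv : ∀ t ∈ Ioo 0 T, HasDerivAt E (∫ x in cube, Edd u1 u2 T t x) t := by
    intro t ht
    have hs : Ioo 0 T ∈ 𝓝 t := Ioo_mem_nhds ht.1 ht.2
    refine (hasDerivAt_integral_of_dominated_loc_of_deriv_le (F := Ed u1 u2) (F' := Edd u1 u2 T)
      (bound := fun _ => C) (μ := volume.restrict cube) hs ?_ ?_ ?_ ?_ ?_ ?_).2
    · filter_upwards [hs] with s hs'
      exact (hEd_slice s (Ioo_subset_Icc_self hs')).aestronglyMeasurable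
    · exact (hEd_slice t (Ioo_subset_Icc_self ht)).continuousOn.integrableOn_compact isCompact_cube
    · exact (hEdd_slice t (Ioo_subset_Icc_self ht)).aestronglyMeasurable
    · refine (ae_restrict_iff' isCompact_cube.measurableSet).2 (Eventually.of_forall fun x hx s hs' => ?_)
      exact hC (s, x) ⟨Ioo_subset_Icc_self hs', hx⟩
    · exact continuous_const.continuousOn.integrableOn_compact isCompact_cube
    · exact Eventually.of_forall fun x s hs' => Ed_hasDerivAt h1 h2 hs' x
  have hEle : ∀ t ∈ Ioo 0 T, ∫ x in cube, Edd u1 u2 T t x ≤ 6 * L * E t := by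
    intro t ht
    have ht' := Ioo_subset_Icc_self ht
    have e : ∫ x in cube, Edd u1 u2 T t x = 2 * ∫ x in cube, ∑ i, Wc (u1 t) (u2 t) i x *
      (- ∑ j, u1 t x j * pd j (fun y => u1 t y i) x
        + ∑ j, u2 t x j * pd j (fun y => u2 t y i) x - pd i (fun y => p1 t y - p2 t y) x
        + ν * ∑ j, pd j (pd j (Wc (u1 t) (u2 t) i)) x) := by
      rw [← integral_const_mul]
      exact integral_congr_ae (Eventually.of_forall fun x => Edd_eq hT h1 h2 ht' x)
    have key := energy_integrated (h1.diff_x t ht') (h2.diff_x t ht')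
      (q := fun y => p1 t y - p2 t y) ((h1.diff_p t ht').sub (h2.diff_p t ht'))
      (h1.periodic_u t ht') (h2.periodic_u t ht')
      (fun n x => by simp only [h1.periodic_p t ht' n x, h2.periodic_p t ht' n x])
      hν.le (h1.div_free t ht') (h2.div_free t ht') (hLi t ht')
    rw [e]
    have e2 : E t = ∫ x in cube, ∑ i, Wc (u1 t) (u2 t) i x * Wc (u1 t) (u2 t) i x := rfl
    rw [e2]
    linarith
  -- the exponential trick
  set g : ℝ → ℝ := fun t => E t * Real.exp (-(6 * L) * t) with hg
  have hgcont : ContinuousOn g (Icc 0 T) :=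
    hEcont.mul (Real.continuous_exp.comp (continuous_const.mul continuous_id)).continuousOn
  have hgderiv : ∀ t ∈ Ioo 0 T, HasDerivAt g ((∫ x in cube, Edd u1 u2 T t x) * Real.exp (-(6 * L) * t)
      + E t * (Real.exp (-(6 * L) * t) * (-(6 * L)))) t := by
    intro t ht
    have h3 : HasDerivAt (fun t : ℝ => -(6 * L) * t) (-(6 * L)) t := by
      simpa using (hasDerivAt_id t).const_mul (-(6 * L))
    exact (hEderiv t ht).mul h3.exp
  have hanti : AntitoneOn g (Icc 0 T) := by
    refine antitoneOn_of_deriv_nonpos (convex_Icc 0 T) hgcont ?_ ?_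
    · rw [interior_Icc]
      exact fun t ht => (hgderiv t ht).differentiableAt.differentiableWithinAt
    · rw [interior_Icc]
      intro t ht
      rw [(hgderiv t ht).deriv]
      have hexp := Real.exp_pos (-(6 * L) * t)
      have := hEle t ht
      nlinarith
  have h0 : E 0 = 0 := by
    simp only [hE, Ed, Wc]
    simp [h1.initial, h2.initial]
  have hnonneg : ∀ t ∈ Icc 0 T, 0 ≤ E t := by
    intro t _
    refine integral_nonneg fun x => ?_
    exact Finset.sum_nonneg fun i _ => mul_self_nonneg _
  intro t ht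
  have h00 : (0:ℝ) ∈ Icc 0 T := ⟨le_refl _, hT.le⟩
  have h4 : g t ≤ g 0 := hanti h00 ht ht.1
  have h5 : g 0 = 0 := by simp [hg, h0]
  rw [h5] at h4
  simp only [hg] at h4
  have hexp := Real.exp_pos (-(6 * L) * t)
  have h6 : E t ≤ 0 := by
    by_contra hh
    push Not at hh
    have := mul_pos hh hexp
    linarith
  exact le_antisymm h6 (hnonneg t ht)

/-- A continuous nonnegative periodic function with vanishing integral over the cube vanishes. -/
theorem zero_of_integral_zero {g : R3 → ℝ} (hc : Continuous g) (hn : ∀ x, 0 ≤ g x)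
    (hp : Periodic3 g) (h0 : ∫ x in cube, g x = 0) : ∀ x, g x = 0 := by
  have hae : g =ᵐ[volume.restrict cube] 0 := by
    have := (setIntegral_eq_zero_iff_of_nonneg_ae (s := cube) (f := g) (μ := volume)
      (Eventually.of_forall hn)
      (hc.continuousOn.integrableOn_compact isCompact_cube)).1 h0
    exact this
  have hcl : cube ⊆ closure (interior cube) := by
    have hconv : Convex ℝ cube := convex_Icc _ _
    have hne : (interior cube).Nonempty := by
      refine ⟨fun _ => 1 / 2, ?_⟩
      have e : cube = Set.pi univ fun _ : Fin 3 => Icc (0:ℝ) 1 := by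
        unfold cube
        rw [← Set.pi_univ_Icc]
        rfl
      rw [e, interior_pi_set finite_univ]
      intro i _
      simp only [interior_Icc]
      constructor <;> norm_num
    rw [hconv.closure_interior_eq_closure_of_nonempty_interior hne]
    exact subset_closure
  have hEq : EqOn g 0 cube :=
    Measure.eqOn_of_ae_eq hae hc.continuousOn continuousOn_const hcl
  intro x
  obtain ⟨n, hn'⟩ := exists_translate_mem_cube x
  rw [← hp n x]
  exact hEq hn'

theorem clm_ext_single {A B : R3 →L[ℝ] ℝ} (h : ∀ i, A (Pi.single i 1) = B (Pi.single i 1)) :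
    A = B := by
  ext y
  have hy : y = ∑ i, y i • (Pi.single i (1:ℝ) : R3) := by
    funext k
    simp [Finset.sum_apply, Pi.single_apply]
  rw [hy]
  simp only [map_sum, map_smul, h]

/-- Uniqueness of classical solutions. -/
theorem classical_unique (hν : 0 < ν) (hT : 0 < T) (h1 : IsClassicalSolution ν f T u1 p1)
    (h2 : IsClassicalSolution ν f T u2 p2) : ∀ t ∈ Icc 0 T, u1 t = u2 t ∧ p1 t = p2 t := by
  have hE := energy_zero hν hT h1 h2
  have hu : ∀ t ∈ Icc 0 T, ∀ x, u1 t x = u2 t x := by
    intro t ht x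
    have hWper : ∀ i, Periodic3 (Wc (u1 t) (u2 t) i) := fun i n y => by
      simp only [Wc]
      rw [h1.periodic_u t ht n y, h2.periodic_u t ht n y]
    have hz := zero_of_integral_zero (g := Ed u1 u2 t)
      (slice_continuous (Φ := Ed u1 u2) (Ed_continuousOn h1 h2) ht)
      (fun y => Finset.sum_nonneg fun i _ => mul_self_nonneg _)
      (fun n y => Finset.sum_congr rfl fun i _ => by rw [hWper i n y])
      (hE t ht) x
    funext i
    have h3 := (Finset.sum_eq_zero_iff_of_nonneg
      (fun i _ => mul_self_nonneg (Wc (u1 t) (u2 t) i x))).1 hz i (Finset.mem_univ i)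
    have h4 := mul_self_eq_zero.1 h3
    simp only [Wc] at h4
    linarith
  intro t ht
  have hut : u1 t = u2 t := funext (hu t ht)
  refine ⟨hut, ?_⟩
  -- the pressure
  have hd1 : Differentiable ℝ (p1 t) := (h1.diff_p t ht).differentiable (by norm_num)
  have hd2 : Differentiable ℝ (p2 t) := (h2.diff_p t ht).differentiable (by norm_num)
  have hpd : ∀ x i, pd i (p1 t) x = pd i (p2 t) x := by
    intro x i
    have m1 := h1.momentum t ht x i
    have m2 := h2.momentum t ht x i
    have e : derivWithin (fun s => u1 s x i) (Icc 0 T) t = derivWithin (fun s => u2 s x i) (Icc 0 T) t :=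
      derivWithin_congr (fun s hs => by simp only [hu s hs x]) (by simp only [hu t ht x])
    rw [e, hut] at m1
    linarith
  have hfd : ∀ x, fderiv ℝ (fun y => p1 t y - p2 t y) x = 0 := by
    intro x
    rw [fderiv_fun_sub (hd1 x) (hd2 x), sub_eq_zero]
    exact clm_ext_single fun i => hpd x i
  have hconst : ∀ x y, p1 t x - p2 t x = p1 t y - p2 t y := by
    have hdiff : Differentiable ℝ (fun y => p1 t y - p2 t y) := hd1.fun_sub hd2
    intro x y
    exact is_const_of_fderiv_eq_zero hdiff hfd x y
  have hm : ∫ x in cube, (p1 t x - p2 t x) = 0 := by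
    rw [integral_sub, h1.mean_p t ht, h2.mean_p t ht, sub_zero]
    · exact (h1.diff_p t ht).continuous.continuousOn.integrableOn_compact isCompact_cube
    · exact (h2.diff_p t ht).continuous.continuousOn.integrableOn_compact isCompact_cube
  funext x
  have hv : ∫ y in cube, (p1 t y - p2 t y) = p1 t x - p2 t x := by
    have e : ∀ y, p1 t y - p2 t y = p1 t x - p2 t x := fun y => hconst y x
    simp only [e]
    simp only [integral_const, smul_eq_mul]
    have hvol : (volume.restrict cube).real univ = 1 := by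
      simp [cube, Measure.real, Real.volume_Icc_pi]
    rw [hvol, one_mul]
  rw [hm] at hv
  linarith

end

end Vale.Agent.Lib.P113
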